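import Vale.Agent.P057T.Cw.Fix
import Vale.Agent.P057T.Rg.Dem
import Vale.Agent.P057T.Chart

/-! The tower with new windows: formal part. -/

set_option linter.all false

open MvPolynomial Finset
open scoped Real

namespace Vale.Agent.P057T.Cw.AddB

open Vale.Agent.P057T.Eq Vale.Agent.P057L Vale.Agent.P057T.Cp
open Vale.Agent.P057T.Rg (gp tk lo at1)

noncomputable section

variable {ι κ : Type} [Fintype ι] [DecidableEq ι] [Fintype κ] [DecidableEq κ] {J q : ℕ}

theorem ren {M : Type} [AddCommMonoid M] {w : ι → M} {w' : ι ⊕ κ → M}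
    (h : ∀ a, w' (Sum.inl a) = w a) {F : MvPolynomial ι ℝ} {m : ι ⊕ κ →₀ ℕ}
    (hm : m ∈ (rename (Sum.inl : ι → ι ⊕ κ) F).support) :
    ∃ m0 ∈ F.support, Finsupp.weight w' m = Finsupp.weight w m0 := by
  rw [support_rename_of_injective Sum.inl_injective] at hm
  obtain ⟨m0, h0, rfl⟩ := mem_image.1 hm
  refine ⟨m0, h0, ?_⟩
  rw [Finsupp.weight_apply, Finsupp.weight_apply,
    Finsupp.sum_mapDomain_index (h := fun i c => c • w' i) (fun _ => zero_smul _ _)
      (fun _ _ _ => add_smul _ _ _)]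
  simp only [h]

theorem ren_h {M : Type} [AddCommMonoid M] {w : ι → M} {w' : ι ⊕ κ → M}
    (h : ∀ a, w' (Sum.inl a) = w a) {F : MvPolynomial ι ℝ} {e : M}
    (hF : IsWeightedHomogeneous w F e) :
    IsWeightedHomogeneous w' (rename (Sum.inl : ι → ι ⊕ κ) F) e := by
  intro m hm
  obtain ⟨m0, h0, e0⟩ := ren h (mem_support_iff.2 hm)
  rw [e0]
  exact hF (mem_support_iff.1 h0)

theorem ren_v {P : ι ⊕ κ → Prop} {F : MvPolynomial ι ℝ} (h : ∀ b ∈ F.vars, P (Sum.inl b)) :
    ∀ b ∈ (rename (Sum.inl : ι → ι ⊕ κ) F).vars, P b := by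
  intro b hb
  obtain ⟨i, hi, rfl⟩ := mem_vars_rename _ _ hb
  exact h i hi

theorem sum_ic (e : Finset (Fin J)) : ∑ c, ic e c = e.card := by
  simp [ic]

theorem wsum {col : ι → Finset (Fin J)} {w : ι → ℕ} (h : ∀ a, w a = (col a).card) (m : ι →₀ ℕ) :
    Finsupp.weight w m = ∑ c, Finsupp.weight (fun a => ic (col a)) m c := by
  simp only [Finsupp.weight_eq_sum, Finset.sum_apply, Pi.smul_apply]
  rw [sum_comm]
  refine sum_congr rfl fun a _ => ?_
  rw [← smul_sum, sum_ic, h]

theorem col_sub {col : ι → Finset (Fin J)} {e : Finset (Fin J)} {m : ι →₀ ℕ} {b : ι}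
    (hb : m b ≠ 0) (h : Finsupp.weight (fun a => ic (col a)) m = ic e) : col b ⊆ e := by
  intro c hc
  by_contra k
  have h1 := congrFun h c
  rw [Finsupp.weight_eq_sum, Finset.sum_apply] at h1
  have h2 := single_le_sum (f := fun a => (m a • ic (col a)) c) (fun _ _ => Nat.zero_le _)
    (mem_univ b)
  rw [h1] at h2
  simp [ic, hc, k] at h2
  exact hb h2

variable (S : St ι J q) (gr : Finset (Fin J) → ℕ) (ty : κ → Finset (Fin J))
  (R : κ → MvPolynomial ι ℝ) (σ : ℝ) (ζ : κ → ℝ)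

def tp (k : κ) : MvPolynomial ι ℝ :=
  weightedHomogeneousComponent (fun a => ic (S.col a)) (ic (ty k)) (R k)

def lam : Matrix κ ι ℝ :=
  Matrix.of fun k c => if S.G.g c = gr (ty k) then coeff (Finsupp.single c 1) (R k) else 0

def rr (k : κ) : MvPolynomial ι ℝ := tp S ty R k - ∑ c, C (lam S gr ty R k c) * X c

def NG : GT (ι ⊕ κ) where
  g := Sum.elim S.G.g fun k => gr (ty k)
  w := Sum.elim S.G.w fun k => (ty k).card
  A := Matrix.fromBlocks S.G.A 0 (-(σ⁻¹ • lam S gr ty R)) (σ⁻¹ • 1)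
  B := Matrix.fromBlocks S.G.B 0 (lam S gr ty R * S.G.B) (σ • 1)
  q := Sum.elim (fun a => rename Sum.inl (S.G.q a))
    fun k => rename Sum.inl (rr S gr ty R k + ∑ c, C (lam S gr ty R k c) * S.G.q c)
  ex := S.G.ex.map ⟨Sum.inl, Sum.inl_injective⟩

def NS : St (ι ⊕ κ) J q :=
  ⟨NG S gr ty R σ, Sum.elim (fun a => rename Sum.inl (S.p a))
    (fun k => rename Sum.inl (C σ⁻¹ * (tp S ty R k - R k - C (ζ k)))), Sum.elim S.col ty,
    fun c l => Sum.inl (S.en c l), S.al, S.r, S.n⟩

structure Hy (s g : ℕ) : Prop where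
  ok : S.Ok s gr
  ty : ∀ k, (ty k).Nonempty ∧ ty k ≠ univ ∧ gr (ty k) < g ∧ Ml S.col (ty k) (R k)
  s0 : 0 < σ

variable {S gr ty R σ} {s g : ℕ}

theorem lam_ne {k : κ} {c : ι} (h : lam S gr ty R k c ≠ 0) : S.G.g c = gr (ty k) := by
  by_contra k
  exact h (if_neg k)

theorem Hy.colc (H : Hy S gr ty R σ s g) {k : κ} {c : ι} (h : S.G.g c = gr (ty k)) :
    S.col c = ty k := by
  have h1 := H.ok.go.pos (ty k)
  exact H.ok.go.inj ((H.ok.gc c (by omega)).symm.trans h)

theorem Hy.sum_h (H : Hy S gr ty R σ s g) (k : κ) (f : ι → MvPolynomial ι ℝ)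
    (hf : ∀ c, Mh S.col (S.col c) (f c)) : Mh S.col (ty k) (∑ c, C (lam S gr ty R k c) * f c) := by
  refine IsWeightedHomogeneous.sum _ _ _ fun c _ => ?_
  by_cases h : lam S gr ty R k c = 0
  · rw [h, C_0, zero_mul]
    exact isWeightedHomogeneous_zero _ _ _
  · have h2 := hf c
    rw [H.colc (lam_ne h)] at h2
    exact IsWeightedHomogeneous.C_mul h2 _

theorem Hy.rr_h (H : Hy S gr ty R σ s g) (k : κ) : Mh S.col (ty k) (rr S gr ty R k) :=
  (weightedHomogeneousComponent_isWeightedHomogeneous _ _).sub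
    (H.sum_h k X fun c => isWeightedHomogeneous_X ℝ _ c)

theorem Hy.q_h (H : Hy S gr ty R σ s g) (k : κ) :
    Mh S.col (ty k) (rr S gr ty R k + ∑ c, C (lam S gr ty R k c) * S.G.q c) :=
  IsWeightedHomogeneous.add (H.rr_h k) (H.sum_h k _ H.ok.mq)

theorem Hy.hm (H : Hy S gr ty R σ s g) {e : Finset (Fin J)} {F : MvPolynomial ι ℝ}
    (h : Mh S.col e F) : IsWeightedHomogeneous S.G.w F e.card := by
  intro m hm
  rw [wsum H.ok.wc, h hm, sum_ic]

theorem Hy.rr_lo (H : Hy S gr ty R σ s g) (k : κ) :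
    ∀ b ∈ (rr S gr ty R k).vars, S.G.g b < gr (ty k) := by
  intro b hb
  obtain ⟨m, hm, hbm⟩ := (mem_vars_iff_mem_support b).1 hb
  rw [mem_support_iff] at hm
  rw [Finsupp.mem_support_iff] at hbm
  have h1 := H.rr_h k hm
  have h2 := col_sub hbm h1
  have h0 := H.ok.go.pos (ty k)
  by_cases g0 : S.G.g b = 0
  · omega
  rw [H.ok.gc b g0]
  by_cases h3 : S.col b = ty k
  · exfalso
    have h4 : m = Finsupp.single b 1 := Rg.Dem.single_of H.ok.ok.w1 hbm (by
      rw [H.hm (H.rr_h k) hm, H.ok.wc, h3])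
    apply hm
    rw [rr, tp, coeff_sub, coeff_weightedHomogeneousComponent, if_pos h1, coeff_sum, h4,
      sum_eq_single b (fun c _ hc => by
        rw [coeff_C_mul, coeff_X', if_neg (fun e => hc (Finsupp.single_left_injective one_ne_zero e)),
          mul_zero]) (fun h => absurd (mem_univ b) h), coeff_C_mul, coeff_X', if_pos rfl, mul_one,
      lam, Matrix.of_apply, if_pos (by rw [H.ok.gc b g0, h3]), sub_self]
  · exact H.ok.go.mono _ _ (Finset.ssubset_iff_subset_ne.2 ⟨h2, h3⟩) (H.ty k).2.1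

theorem Hy.AB (H : Hy S gr ty R σ s g) : (NG S gr ty R σ).A * (NG S gr ty R σ).B = 1 := by
  simp only [NG, Matrix.fromBlocks_multiply, H.ok.ok.AB, Matrix.zero_mul, Matrix.mul_zero, add_zero,
    zero_add, Matrix.neg_mul, Matrix.smul_mul, Matrix.one_mul, neg_add_cancel, smul_smul,
    inv_mul_cancel₀ H.s0.ne', one_smul, neg_zero, smul_zero, Matrix.fromBlocks_one]

theorem Hy.gok (H : Hy S gr ty R σ s g) : (NG S gr ty R σ).Ok s where
  w1 a := by
    rcases a with a | k
    · exact H.ok.ok.w1 a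
    · exact (H.ty k).1.card_pos
  ws a := by
    rcases a with a | k
    · exact H.ok.ok.ws a
    · exact (card_le_univ _).trans (by rw [Fintype.card_fin]; exact H.ok.go.Js)
  gs a := by
    rcases a with a | k
    · exact H.ok.ok.gs a
    · exact H.ok.go.lt _
  AB := H.AB
  blk a b h := by
    rcases a with a | k <;> rcases b with b | k'
    · exact H.ok.ok.blk a b h
    · simp [NG] at h
    · have e : S.G.g b = gr (ty k) := by
        rcases h with h | h
        · refine lam_ne (R := R) fun e => h ?_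
          simp [NG, e]
        · obtain ⟨d, _, hd⟩ := exists_ne_zero_of_sum_ne_zero
            (show ∑ d, lam S gr ty R k d * S.G.B d b ≠ 0 from h)
          rw [← lam_ne (left_ne_zero_of_mul hd)]
          exact (H.ok.ok.blk d b (Or.inr (right_ne_zero_of_mul hd))).1.symm
      exact ⟨e.symm, by show (ty k).card = S.G.w b; rw [H.ok.wc, H.colc e]⟩
    · by_cases e : k = k'
      · rw [e]; exact ⟨rfl, rfl⟩
      · simp [NG, e] at h
  qh a := by
    rcases a with a | k
    · exact ren_h (fun _ => rfl) (H.ok.ok.qh a)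
    · exact ren_h (fun _ => rfl) (H.hm (H.q_h k))
  ql a := by
    rcases a with a | k
    · exact ren_v (H.ok.ok.ql a)
    · refine ren_v (Chart.vars_add' (H.rr_lo k) (Chart.vars_sum' fun c _ => ?_))
      by_cases e : lam S gr ty R k c = 0
      · simp [e]
      · refine Chart.vars_mul' (Chart.vars_C' _) fun b hb => ?_
        have := H.ok.ok.ql c b hb
        rwa [lam_ne e] at this
  qe a ha := by
    obtain ⟨a, h, rfl⟩ := mem_map.1 ha
    show rename Sum.inl (S.G.q a) = 0
    rw [H.ok.ok.qe a h, map_zero]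

theorem th_l (a : ι) : (NG S gr ty R σ).th (Sum.inl a) = rename Sum.inl (S.G.th a) := by
  simp [GT.th, NG, Fintype.sum_sum_type]

theorem th_r (k : κ) : (NG S gr ty R σ).th (Sum.inr k) =
    C σ⁻¹ * (X (Sum.inr k) - rename Sum.inl (tp S ty R k)) := by
  rw [GT.th, Fintype.sum_sum_type, sum_eq_single k (fun c _ hc => by
    simp [NG, Matrix.one_apply_ne hc.symm]) (fun h => absurd (mem_univ k) h)]
  simp only [NG, rr, Matrix.fromBlocks_apply₂₁, Matrix.fromBlocks_apply₂₂, Matrix.neg_apply,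
    Matrix.smul_apply, smul_eq_mul, Matrix.one_apply_eq, mul_one, Sum.elim_inl, Sum.elim_inr,
    map_add, map_sub, map_sum, map_mul, map_neg, rename_C, rename_X, mul_sub, mul_add, mul_sum,
    sum_sub_distrib, neg_mul, sum_neg_distrib, mul_assoc]
  ring

theorem ch_l (a : ι) : (NS S gr ty R σ ζ).ch (Sum.inl a) = rename Sum.inl (S.ch a) := by
  rw [St.ch, St.ch, map_add]
  exact congrArg (· + _) (th_l a)

theorem ch_r (k : κ) : (NS S gr ty R σ ζ).ch (Sum.inr k) =
    C σ⁻¹ * (X (Sum.inr k) - rename Sum.inl (R k) - C (ζ k)) := by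
  show (NG S gr ty R σ).th (Sum.inr k) +
    rename Sum.inl (C σ⁻¹ * (tp S ty R k - R k - C (ζ k))) = _
  rw [th_r]
  simp only [map_mul, map_sub, rename_C]
  ring

theorem Hy.low (H : Hy S gr ty R σ s g) (k : κ) :
    ∀ m ∈ (C σ⁻¹ * (tp S ty R k - R k - C (ζ k))).support,
      Finsupp.weight (fun a => ic (S.col a)) m < ic (ty k) := by
  intro m hm
  rw [mem_support_iff, coeff_C_mul, coeff_sub, coeff_sub, tp, coeff_weightedHomogeneousComponent,
    coeff_C] at hm
  by_cases h0 : 0 = m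
  · rw [← h0, map_zero]
    obtain ⟨c, hc⟩ := (H.ty k).1
    refine lt_of_le_of_ne zero_le fun e => ?_
    have := congrFun e c
    simp [ic, hc] at this
  · rw [if_neg h0, sub_zero] at hm
    split_ifs at hm with h1
    · simp at hm
    · refine lt_of_le_of_ne ((H.ty k).2.2.2 m (mem_support_iff.2 fun e => hm ?_)) h1
      rw [e]; simp

theorem Hy.sok (H : Hy S gr ty R σ s g) : (NS S gr ty R σ ζ).Ok s gr where
  go := H.ok.go
  ok := H.gok
  wc a := by
    rcases a with a | k
    · exact H.ok.wc a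
    · rfl
  pr a := by
    rcases a with a | k
    · exact H.ok.pr a
    · exact (H.ty k).2.1
  pd a := by
    rcases a with a | k
    · intro m hm
      obtain ⟨m0, h0, e⟩ := ren (w := S.G.w) (w' := (NG S gr ty R σ).w) (fun _ => rfl) hm
      exact e.trans_lt (H.ok.pd a m0 h0)
    · intro m hm
      obtain ⟨m0, h0, e⟩ := ren (w := S.G.w) (w' := (NG S gr ty R σ).w) (fun _ => rfl) hm
      refine e.trans_lt ?_
      obtain ⟨h1, c, h2⟩ := Pi.lt_def.1 (H.low ζ k m0 h0)
      show _ < (ty k).card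
      rw [wsum H.ok.wc, ← sum_ic]
      exact sum_lt_sum (fun c _ => h1 c) ⟨c, mem_univ c, h2⟩
  tri a ha b hb := by
    obtain ⟨a, h, rfl⟩ := mem_map.1 ha
    rcases b with b | k
    · exact H.ok.tri a h b fun e => hb (mem_map_of_mem _ e)
    · exact ⟨rfl, rfl⟩
  inj c l c' l' h := H.ok.inj c l c' l' (Sum.inl_injective h)
  g0 a := by
    rcases a with a | k
    · exact (H.ok.g0 a).trans
        ⟨fun ⟨c, l, e⟩ => ⟨c, l, congrArg Sum.inl e⟩, fun ⟨c, l, e⟩ => ⟨c, l, Sum.inl_injective e⟩⟩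
    · refine ⟨fun e => ?_, fun ⟨c, l, e⟩ => absurd e Sum.inr_ne_inl⟩
      have h1 := H.ok.go.pos (ty k)
      have h2 : gr (ty k) = 0 := e
      omega
  gc a := by
    rcases a with a | k
    · exact H.ok.gc a
    · exact fun _ => rfl
  ce := H.ok.ce
  ee c l := mem_map_of_mem _ (H.ok.ee c l)
  ae c l b := by
    rcases b with b | k
    · have := H.ok.ae c l b
      simpa [NS, NG] using this
    · simp [NS, NG]
  mq a := by
    rcases a with a | k
    · exact ren_h (fun _ => rfl) (H.ok.mq a)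
    · exact ren_h (fun _ => rfl) (H.q_h k)
  mp a := by
    rcases a with a | k
    · intro m hm
      obtain ⟨m0, h0, e⟩ := ren (w := fun a => ic (S.col a))
        (w' := fun a => ic (Sum.elim S.col ty a)) (fun _ => rfl) hm
      exact e.trans_le (H.ok.mp a m0 h0)
    · intro m hm
      obtain ⟨m0, h0, e⟩ := ren (w := fun a => ic (S.col a))
        (w' := fun a => ic (Sum.elim S.col ty a)) (fun _ => rfl) hm
      exact e.trans_le (H.low ζ k m0 h0).le
  al0 := H.ok.al0
  n1 := H.ok.n1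

end

end Vale.Agent.P057T.Cw.AddB
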