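import Vale.Agent.P057T.Cw.AddA
import Vale.Agent.P057T.Cw.AddB

/-! New windows. -/

set_option linter.all false

open MvPolynomial Finset
open scoped Real

namespace Vale.Agent.P057T.Cw

open Vale.Agent.P057T.Eq Vale.Agent.P057L Vale.Agent.P057T.Cp
open Vale.Agent.P057T.Rg (gp tk lo at1)
open Vale.Agent.P267.H775 (toR qf)

noncomputable section

namespace AddB

variable {ι κ : Type} [Fintype ι] [DecidableEq ι] [Fintype κ] [DecidableEq κ] {J q : ℕ}
  {S : St ι J q} {gr : Finset (Fin J) → ℕ} {ty : κ → Finset (Fin J)}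
  {R : κ → MvPolynomial ι ℝ} {σ : ℝ} {s g : ℕ}

theorem dv_eq (h0 : 0 < σ) {V' : Finset (ι ⊕ κ)} {V : Finset ι} {K : Finset κ}
    (hV : ∀ a, Sum.inl a ∈ V' ↔ a ∈ V) (hK : ∀ k, Sum.inr k ∈ V' ↔ k ∈ K) :
    (NG S gr ty R σ).dv V' = S.G.dv V * σ ^ K.card := by
  let e : V ⊕ K ≃ V' :=
    { toFun := Sum.elim (fun a => ⟨Sum.inl a.1, (hV _).2 a.2⟩) fun k => ⟨Sum.inr k.1, (hK _).2 k.2⟩
      invFun := fun x => match x with
        | ⟨Sum.inl a, h⟩ => Sum.inl ⟨a, (hV _).1 h⟩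
        | ⟨Sum.inr k, h⟩ => Sum.inr ⟨k, (hK _).1 h⟩
      left_inv := fun x => by rcases x with a | k <;> rfl
      right_inv := fun x => by rcases x with ⟨a | k, h⟩ <;> rfl }
  unfold GT.dv
  rw [← Matrix.det_submatrix_equiv_self e]
  have h : ((NG S gr ty R σ).B.submatrix (Subtype.val : V' → ι ⊕ κ) Subtype.val).submatrix e e =
      Matrix.fromBlocks (S.G.B.submatrix (Subtype.val : V → ι) Subtype.val) 0
        ((lam S gr ty R * S.G.B).submatrix (Subtype.val : K → κ) (Subtype.val : V → ι))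
        (σ • (1 : Matrix K K ℝ)) := by
    ext x y
    rcases x with a | k <;> rcases y with b | k'
    · rfl
    · rfl
    · rfl
    · show (σ • (1 : Matrix κ κ ℝ)) k.1 k'.1 = (σ • (1 : Matrix K K ℝ)) k k'
      by_cases hk : k = k'
      · rw [hk, Matrix.smul_apply, Matrix.smul_apply, Matrix.one_apply_eq, Matrix.one_apply_eq]
      · rw [Matrix.smul_apply, Matrix.smul_apply, Matrix.one_apply_ne hk,
          Matrix.one_apply_ne fun e => hk (Subtype.ext e)]
  rw [h, Matrix.det_fromBlocks_zero₁₂, Matrix.det_smul, Matrix.det_one, mul_one, abs_mul,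
    Fintype.card_coe, abs_of_pos (pow_pos h0 _)]

theorem gq_eq (z : ι ⊕ κ → ℤ) : Poi.gq (NG S gr ty R σ).A (cz z) =
    Poi.gq S.G.A (cz fun a => z (Sum.inl a)) * ∏ k, Real.exp (-π * (σ⁻¹ * z (Sum.inr k) +
      -(σ⁻¹ * ∑ c, lam S gr ty R k c * z (Sum.inl c))) ^ 2) := by
  unfold Poi.gq qf
  rw [← Real.exp_sum, ← Real.exp_add, Fintype.sum_sum_type, mul_add, ← mul_sum]
  congr 3
  · refine sum_congr rfl fun a _ => ?_
    simp [NG, Matrix.mulVec, dotProduct, Fintype.sum_sum_type, cz]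
  · refine sum_congr rfl fun k _ => ?_
    simp [NG, Matrix.mulVec, dotProduct, Fintype.sum_sum_type, cz, Matrix.one_apply, mul_sum,
      mul_assoc, add_comm]

theorem tk_le (hG : S.G.Ok s) (h0 : 0 < σ) (h1 : σ ≤ 1) {V' : Finset (ι ⊕ κ)} {V : Finset ι}
    {K : Finset κ} (hV : ∀ a, Sum.inl a ∈ V' ↔ a ∈ V) (hK : ∀ k, Sum.inr k ∈ V' ↔ k ∈ K) :
    tk (NG S gr ty R σ) (Lat V') ≤ 2 ^ K.card * tk S.G (Lat V) := by
  refine tsum_le_of_sum_le' (mul_nonneg (by positivity) (Rg.Dem.tk_nonneg _ _)) fun E => ?_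
  let ψ : (ι → ℤ) → κ → ℤ → ℝ := fun u k y =>
    Real.exp (-π * (σ⁻¹ * y + -(σ⁻¹ * ∑ c, lam S gr ty R k c * u c)) ^ 2)
  let i0 : (ι → ℤ) → ℝ := (Lat V : Set (ι → ℤ)).indicator fun z => Poi.gq S.G.A (cz z)
  let φ : (ι → ℤ) × (κ → ℤ) → ℝ := fun x => i0 x.1 * ∏ k, ψ x.1 k (x.2 k)
  have p0 : ∀ x, 0 ≤ φ x := fun x =>
    mul_nonneg (Rg.Dem.ind_nonneg _ _ _) (prod_nonneg fun _ _ => (Real.exp_pos _).le)
  let e := Equiv.sumArrowEquivProdArrow ι κ ℤ
  let T : κ → Finset ℤ := fun k => if k ∈ K then E.image fun z => z (Sum.inr k) else {0}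
  have hT : ∀ u, ∑ y ∈ Fintype.piFinset T, ∏ k, ψ u k (y k) ≤ 2 ^ K.card := by
    intro u
    rw [← prod_univ_sum]
    calc _ ≤ ∏ k, (if k ∈ K then (2 : ℝ) else 1) := by
          refine prod_le_prod (fun k _ => sum_nonneg fun _ _ => (Real.exp_pos _).le) fun k _ => ?_
          simp only [T]
          split_ifs
          · exact (Rg.Dem.th1 h0 _ _).trans (by linarith)
          · rw [sum_singleton]
            exact Real.exp_le_one_iff.2
              (mul_nonpos_of_nonpos_of_nonneg (by linarith [Real.pi_pos]) (sq_nonneg _))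
      _ = _ := by simp
  classical
  calc _ = ∑ z ∈ E.filter (· ∈ Lat V'), Poi.gq (NG S gr ty R σ).A (cz z) := by
        rw [sum_filter]
        refine sum_congr rfl fun z _ => ?_
        split_ifs with hz
        · exact Set.indicator_of_mem hz _
        · exact Set.indicator_of_notMem hz _
    _ = ∑ z ∈ E.filter (· ∈ Lat V'), φ (e z) := by
        refine sum_congr rfl fun z hz => ?_
        have h2 : (fun a => z (Sum.inl a)) ∈ (Lat V : Set (ι → ℤ)) := fun a ha =>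
          (mem_filter.1 hz).2 _ fun k => ha ((hV a).1 k)
        rw [gq_eq, ← Set.indicator_of_mem h2 fun z => Poi.gq S.G.A (cz z)]
        rfl
    _ = ∑ x ∈ (E.filter (· ∈ Lat V')).image e, φ x := (sum_image fun x _ y _ h => e.injective h).symm
    _ ≤ ∑ x ∈ (E.image fun z => (e z).1) ×ˢ Fintype.piFinset T, φ x := by
        refine sum_le_sum_of_subset_of_nonneg (fun x hx => ?_) fun x _ _ => p0 x
        obtain ⟨z, hz, rfl⟩ := mem_image.1 hx
        obtain ⟨z1, z2⟩ := mem_filter.1 hz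
        refine mem_product.2 ⟨mem_image_of_mem _ z1, Fintype.mem_piFinset.2 fun k => ?_⟩
        simp only [T]
        split_ifs with hk
        · exact mem_image_of_mem _ z1
        · exact mem_singleton.2 (z2 _ fun h => hk ((hK k).1 h))
    _ ≤ ∑ u ∈ (E.image fun z => (e z).1), 2 ^ K.card * i0 u := by
        rw [sum_product]
        refine sum_le_sum fun u _ => ?_
        simp only [φ]
        rw [← mul_sum, mul_comm]
        exact mul_le_mul_of_nonneg_right (hT u) (Rg.Dem.ind_nonneg _ _ _)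
    _ ≤ _ := by
        rw [← mul_sum]
        exact mul_le_mul_of_nonneg_left (Rg.Dem.sum_le_tk hG _ _) (by positivity)

theorem pot (H : Hy S gr ty R σ s g) (h1 : σ ≤ 1) {l : ℝ} (hl : 2 ≤ σ * Real.exp l)
    {V' : Finset (ι ⊕ κ)} {V : Finset ι} {x : ℕ} {t : ℝ}
    (hV : ∀ a, Sum.inl a ∈ V' ↔ a ∈ V) (hK : ∀ k, Sum.inr k ∈ V' → gr (ty k) = x)
    (h : tk S.G (Lat V) ≤ Real.exp t * S.G.dv V) :
    tk (NG S gr ty R σ) (Lat V') ≤
      Real.exp (t + if x < g then Fintype.card κ * l else 0) * (NG S gr ty R σ).dv V' := by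
  have h0 := H.s0
  have hK' : ∀ k, Sum.inr k ∈ V' ↔ k ∈ V'.toRight := fun k => mem_toRight.symm
  have l0 : 0 ≤ l := by
    have : 1 ≤ Real.exp l := by nlinarith [Real.exp_pos l]
    exact Real.one_le_exp_iff.1 this
  have h2 : (2 : ℝ) ^ V'.toRight.card ≤
      Real.exp (if x < g then Fintype.card κ * l else 0) * σ ^ V'.toRight.card := by
    split_ifs with hx
    · calc _ ≤ (σ * Real.exp l) ^ V'.toRight.card := pow_le_pow_left₀ (by norm_num) hl _
        _ = Real.exp (V'.toRight.card * l) * σ ^ V'.toRight.card := by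
          rw [mul_pow, Real.exp_nat_mul, mul_comm]
        _ ≤ _ := by
          have : (V'.toRight.card : ℝ) ≤ Fintype.card κ := by exact_mod_cast card_le_univ _
          gcongr
    · have : V'.toRight = ∅ := eq_empty_of_forall_notMem fun k hk =>
        hx (hK k ((hK' k).2 hk) ▸ (H.ty k).2.2.1)
      simp [this]
  rw [dv_eq h0 hV hK', Real.exp_add]
  refine (tk_le H.ok.ok h0 h1 hV hK').trans ((mul_le_mul h2 h (Rg.Dem.tk_nonneg _ _)
    (by positivity)).trans (le_of_eq (by ring)))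

theorem wt_eq (x : κ → ℝ) (z : ι ⊕ κ → ℤ) :
    (NS S gr ty R σ fun k => 1 / 2 - x k).wt z = S.wt (fun a => z (Sum.inl a)) *
      Poi.gq (σ⁻¹ • (1 : Matrix κ κ ℝ))
        ((fun k => -eval (cz fun a => z (Sum.inl a)) (R k) - 1 / 2) + x +
          toR fun k => z (Sum.inr k)) := by
  unfold St.wt St.sq Poi.gq qf
  rw [← Real.exp_add, Fintype.sum_sum_type, mul_add]
  congr 3
  · refine sum_congr rfl fun a _ => ?_
    rw [ch_l, eval_rename]
    rfl
  · refine sum_congr rfl fun k _ => ?_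
    rw [ch_r, Matrix.smul_mulVec, Matrix.one_mulVec, map_mul, map_sub, map_sub, eval_C, eval_C,
      eval_X, eval_rename]
    have e : (cz z ∘ Sum.inl) = cz fun a => z (Sum.inl a) := rfl
    rw [e]
    simp only [Pi.smul_apply, Pi.add_apply, smul_eq_mul, toR, cz]
    ring

end AddB

open AddB in
theorem add (hB : BR) : ADD1 := by
  intro s J q gr N δ f ι κ _ _ _ _ S θ θn γ ρ b η x σ l g ty R hI hty h0 h1 hl hη hx hxb
  have H : Hy S gr ty R σ s g := ⟨hI.ok, hty, h0⟩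
  obtain ⟨-, hsum, -⟩ := hB s J q gr ι S hI.ok
  have b0 : 0 < b := (pos_iff_pos_of_mul_pos ((Real.exp_pos _).trans_le hxb)).1 hη
  have hdet : (σ⁻¹ • (1 : Matrix κ κ ℝ)).det = σ⁻¹ ^ Fintype.card κ := by
    rw [Matrix.det_smul, Matrix.det_one, mul_one]
  have hM : (σ⁻¹ • (1 : Matrix κ κ ℝ)).det ≠ 0 := by rw [hdet]; positivity
  have w0 : ∀ z, 0 < S.wt z := fun z => Real.exp_pos _
  have m0 : 0 < S.ms := hsum.tsum_pos (fun z => (w0 z).le) 0 (w0 0)
  have b1 : b ≤ 1 := by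
    have k1 : ∀ z, 0 ≤ S.wt z * f (S.xs z) := fun z => mul_nonneg (w0 z).le (hI.f0 _).1
    have k2 : ∀ z, S.wt z * f (S.xs z) ≤ S.wt z := fun z =>
      mul_le_of_le_one_right (w0 z).le (hI.f0 _).2
    have k3 : S.hit f ≤ S.ms := (Summable.of_nonneg_of_le k1 k2 hsum).tsum_le_tsum k2 hsum
    exact le_of_mul_le_mul_right ((hI.de.trans k3).trans (one_mul _).ge) m0
  obtain ⟨y, y0, y1, y2⟩ := AddA.pick hM (fun z => (w0 z).le) hsum (f := fun z => f (S.xs z))
    (fun z => hI.f0 _) (fun z k => -eval (cz z) (R k) - 1 / 2) b0 hη hxb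
    (hxb.trans (by nlinarith)) m0 hI.de
  have e1 : (NS S gr ty R σ fun k => 1 / 2 - y k).ms =
      AddA.Ph (σ⁻¹ • (1 : Matrix κ κ ℝ)) S.wt (fun z k => -eval (cz z) (R k) - 1 / 2) y := by
    rw [St.ms, AddA.Ph, ← (Equiv.sumArrowEquivProdArrow ι κ ℤ).tsum_eq]
    exact tsum_congr fun z => wt_eq y z
  have e2 : (NS S gr ty R σ fun k => 1 / 2 - y k).hit f =
      AddA.Ph (σ⁻¹ • (1 : Matrix κ κ ℝ)) (fun z => S.wt z * f (S.xs z))
        (fun z k => -eval (cz z) (R k) - 1 / 2) y := by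
    rw [St.hit, AddA.Ph, ← (Equiv.sumArrowEquivProdArrow ι κ ℤ).tsum_eq]
    refine tsum_congr fun z => ?_
    rw [wt_eq, mul_right_comm]
    rfl
  refine ⟨NS S gr ty R σ fun k => 1 / 2 - y k, fun k => 1 / 2 - y k,
    ⟨H.sok _, hI.f0, fun g' => ?_, fun g' => ?_, ?_, hI.nr, hI.ar, hI.na, ?_⟩,
    fun k => abs_le.2 ⟨by linarith [(y0 k).2], by linarith [(y0 k).1]⟩, rfl, fun _ _ => rfl, rfl,
    rfl, fun _ => rfl, rfl, fun _ _ => rfl, fun a => ⟨rfl, ch_l _ a⟩, ch_r _⟩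
  · exact pot H h1 hl (V := gp S.G g') (fun a => by simp [gp, NS, NG])
      (fun k hk => (mem_filter.1 hk).2) (hI.ph g')
  · exact pot H h1 hl (V := gp S.G g' \ S.G.ex) (fun a => by simp [gp, NS, NG])
      (fun k hk => (mem_filter.1 (mem_sdiff.1 hk).1).2) (hI.pn g')
  · rw [e1]
    refine le_trans ?_ y2
    have e3 : (NS S gr ty R σ fun k => 1 / 2 - y k).G.dv univ = S.G.dv univ * σ ^ Fintype.card κ :=
      dv_eq h0 (V := univ) (K := univ) (by simp) (by simp)
    rw [e3, hdet, abs_of_pos (by positivity), inv_pow, inv_inv, neg_add, Real.exp_add,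
      mul_comm (Real.exp (-γ)), mul_assoc, ← mul_assoc (Real.exp (-γ))]
    exact mul_le_mul_of_nonneg_left (mul_le_mul_of_nonneg_right hI.ma (by positivity))
      (Real.exp_pos _).le
  · rw [e1, e2]
    exact y1

end

end Vale.Agent.P057T.Cw
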