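import Vale.Agent.P057T.PoiH52

/-! Averaging over the centre of a window. -/

set_option linter.all false

open MeasureTheory
open Vale.Agent.P267.H775 Vale.Agent.P057T.Poi

namespace Vale.Agent.P057T.Cw.AddA

noncomputable section

variable {κ α : Type} [Fintype κ] [DecidableEq κ] [Countable α]

theorem ibox (g : (κ → ℝ) → ℝ) (n : κ → ℤ) :
    ∫ x in box n, g x = ∫ x in box (0 : κ → ℤ), g (x + toR n) := by
  have h := integral_box (fun x => (g x : ℂ)) n
  simp only [integral_complex_ofReal] at h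
  exact_mod_cast h

theorem per {M : Matrix κ κ ℝ} (hM : M.det ≠ 0) (c : κ → ℝ) :
    HasSum (fun y : κ → ℤ => ∫ x in box (0 : κ → ℤ), gq M (c + x + toR y)) (|M.det|⁻¹) := by
  have hi : Integrable fun x => gq M (c + x) := (integrable_gq hM).comp_add_left c
  have h := hasSum_integral_iUnion (μ := volume) (f := fun x => gq M (c + x))
    (measurableSet_box (ι := κ)) pairwise_disjoint_box hi.integrableOn
  rw [iUnion_box, Measure.restrict_univ, integral_add_left_eq_self (gq M) c, integral_gq hM] at h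
  simp only [ibox (fun x => gq M (c + x)), ← add_assoc] at h
  exact h

/-- the weighted sum of windows -/
def Ph (M : Matrix κ κ ℝ) (a : α → ℝ) (c : α → κ → ℝ) (x : κ → ℝ) : ℝ :=
  ∑' p : α × (κ → ℤ), a p.1 * gq M (c p.1 + x + toR p.2)

theorem sm {M : Matrix κ κ ℝ} (hM : M.det ≠ 0) {a : α → ℝ} (h0 : ∀ z, 0 ≤ a z) (ha : Summable a)
    (c : α → κ → ℝ) (x : κ → ℝ) :
    Summable fun p : α × (κ → ℤ) => a p.1 * gq M (c p.1 + x + toR p.2) := by
  refine (summable_prod_of_nonneg fun p => mul_nonneg (h0 _) (gq_pos _ _).le).2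
    ⟨fun z => (summable_gq hM (c z + x)).mul_left (a z), ?_⟩
  refine Summable.of_nonneg_of_le
    (fun z => tsum_nonneg fun y => mul_nonneg (h0 _) (gq_pos _ _).le) (fun z => ?_)
    (ha.mul_right (th M 0))
  simp only []
  rw [tsum_mul_left]
  exact mul_le_mul_of_nonneg_left (th_le hM (c z + x)) (h0 z)

theorem avg {M : Matrix κ κ ℝ} (hM : M.det ≠ 0) {a : α → ℝ} (h0 : ∀ z, 0 ≤ a z) (ha : Summable a)
    (c : α → κ → ℝ) : ∫ x in box (0 : κ → ℤ), Ph M a c x = (∑' z, a z) * |M.det|⁻¹ := by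
  let F : α × (κ → ℤ) → (κ → ℝ) → ℝ := fun p x => a p.1 * gq M (c p.1 + x + toR p.2)
  have F0 : ∀ p x, 0 ≤ F p x := fun p x => mul_nonneg (h0 _) (gq_pos _ _).le
  have hi : ∀ p, Integrable (F p) (volume.restrict (box (0 : κ → ℤ))) := fun p =>
    ((((integrable_gq hM).comp_add_right (toR p.2)).comp_add_left (c p.1)).const_mul
      (a p.1)).integrableOn
  have e : ∀ z, HasSum (fun y : κ → ℤ => ∫ x in box (0 : κ → ℤ), F (z, y) x) (a z * |M.det|⁻¹) := by
    intro z
    simp only [F, integral_const_mul]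
    exact (per hM (c z)).mul_left (a z)
  have hs : Summable fun p => ∫ x in box (0 : κ → ℤ), F p x := by
    refine (summable_prod_of_nonneg fun p => integral_nonneg fun x => F0 p x).2
      ⟨fun z => (e z).summable, ?_⟩
    simp only [fun z => (e z).tsum_eq]
    exact ha.mul_right _
  have h := hasSum_integral_of_summable_integral_norm hi (by
    simp only [fun p x => Real.norm_of_nonneg (F0 p x)]
    exact hs)
  have h2 := hs.tsum_prod
  simp only [fun z => (e z).tsum_eq] at h2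
  rw [tsum_mul_right, h.tsum_eq] at h2
  exact h2

theorem pick {M : Matrix κ κ ℝ} (hM : M.det ≠ 0) {a f : α → ℝ} (h0 : ∀ z, 0 ≤ a z)
    (ha : Summable a) (f0 : ∀ z, 0 ≤ f z ∧ f z ≤ 1) (c : α → κ → ℝ) {b η u : ℝ} (hb : 0 < b)
    (hη : 0 < η) (hu : u ≤ η * b) (hu1 : u ≤ 1) (hm : 0 < ∑' z, a z)
    (h : b * ∑' z, a z ≤ ∑' z, a z * f z) :
    ∃ x : κ → ℝ, (∀ k, 0 < x k ∧ x k ≤ 1) ∧
      (1 - 2 * η) * b * Ph M a c x ≤ Ph M (fun z => a z * f z) c x ∧
      u * ((∑' z, a z) * |M.det|⁻¹) ≤ Ph M a c x := by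
  have h1 : ∀ z, 0 ≤ a z * f z := fun z => mul_nonneg (h0 z) (f0 z).1
  have h2 : ∀ z, a z * f z ≤ a z := fun z => mul_le_of_le_one_right (h0 z) (f0 z).2
  have haf : Summable fun z => a z * f z := Summable.of_nonneg_of_le h1 h2 ha
  have hd : 0 < |M.det|⁻¹ := inv_pos.2 (abs_pos.2 hM)
  have i1 := avg hM h0 ha c
  have i2 := avg hM h1 haf c
  have m0 : 0 < (∑' z, a z) * |M.det|⁻¹ := mul_pos hm hd
  have m1 : b * ((∑' z, a z) * |M.det|⁻¹) ≤ (∑' z, a z * f z) * |M.det|⁻¹ := by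
    rw [← mul_assoc]
    exact mul_le_mul_of_nonneg_right h hd.le
  have m2 := mul_pos hb m0
  have j1 : Integrable (Ph M a c) (volume.restrict (box (0 : κ → ℤ))) :=
    Integrable.of_integral_ne_zero (by rw [i1]; exact m0.ne')
  have j2 : Integrable (Ph M (fun z => a z * f z) c) (volume.restrict (box (0 : κ → ℤ))) :=
    Integrable.of_integral_ne_zero (by rw [i2]; exact (m2.trans_le m1).ne')
  have p0 : ∀ x, 0 ≤ Ph M (fun z => a z * f z) c x := fun x =>
    tsum_nonneg fun p => mul_nonneg (h1 _) (gq_pos _ _).le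
  have p1 : ∀ x, Ph M (fun z => a z * f z) c x ≤ Ph M a c x := fun x =>
    (sm hM h1 haf c x).tsum_le_tsum
      (fun p => mul_le_mul_of_nonneg_right (h2 _) (gq_pos _ _).le) (sm hM h0 ha c x)
  haveI : IsProbabilityMeasure (volume.restrict (box (0 : κ → ℤ))) := ⟨by
    rw [Measure.restrict_apply_univ, box_eq_pi, Real.volume_pi_Ioc]
    simp⟩
  have hN : (volume.restrict (box (0 : κ → ℤ))) (box (0 : κ → ℤ))ᶜ = 0 := by
    rw [Measure.restrict_apply (measurableSet_box _).compl]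
    simp
  have hx : ∀ x : κ → ℝ, x ∉ (box (0 : κ → ℤ))ᶜ → ∀ k, 0 < x k ∧ x k ≤ 1 := by
    intro x hx k
    have := (not_not.1 hx) k
    simpa using this
  generalize (∑' z, a z) * |M.det|⁻¹ = m at *
  rcases le_or_gt η (1 / 2) with h3 | h3
  · obtain ⟨x, hx1, hx2⟩ := exists_notMem_null_integral_le
      (j2.sub (j1.const_mul ((1 - 2 * η) * b))) hN
    simp only [Pi.sub_apply] at hx2
    rw [integral_sub j2 (j1.const_mul _), integral_const_mul, i1, i2] at hx2
    have h4 : 0 ≤ (1 - 2 * η) * b * Ph M a c x :=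
      mul_nonneg (mul_nonneg (by linarith) hb.le) ((p0 x).trans (p1 x))
    have h5 : 0 < η * (b * m) := mul_pos hη m2
    have h6 := mul_le_mul_of_nonneg_right hu m0.le
    have h7 := p1 x
    refine ⟨x, hx x hx1, by nlinarith, by nlinarith⟩
  · obtain ⟨x, hx1, hx2⟩ := exists_notMem_null_integral_le j1 hN
    rw [i1] at hx2
    refine ⟨x, hx x hx1, le_trans (mul_nonpos_of_nonpos_of_nonneg
      (mul_nonpos_of_nonpos_of_nonneg (by linarith) hb.le) ((p0 x).trans (p1 x))) (p0 x), ?_⟩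
    exact (mul_le_of_le_one_left m0.le hu1).trans hx2

end

end Vale.Agent.P057T.Cw.AddA
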