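import Vale.Agent.P057T.Cw.Defs
import Vale.Agent.P057T.Rg.Br

/-! Row BR of the coloured towers. -/

open MvPolynomial Finset Matrix
open scoped Real

namespace Vale.Agent.P057T.Cw

open Vale.Agent.P057T.Eq Vale.Agent.P057T.Cp

set_option linter.unusedSectionVars false

noncomputable section

variable {ι : Type} [Fintype ι] [DecidableEq ι] {J q : ℕ}

namespace BrP

theorem sub_of_ic {e e' : Finset (Fin J)} (h : ic e ≤ ic e') : e ⊆ e' := by
  intro c hc
  by_contra hn
  have := h c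
  simp [ic, hc, hn] at this

theorem sum_ic (e : Finset (Fin J)) : ∑ c, ic e c = e.card := by
  simp [ic]

theorem wt_apply (col : ι → Finset (Fin J)) (m : ι →₀ ℕ) (c : Fin J) :
    Finsupp.weight (fun a => ic (col a)) m c = ∑ a ∈ m.support, m a * ic (col a) c := by
  rw [Finsupp.weight_apply, Finsupp.sum, Finset.sum_apply]
  simp only [Pi.smul_apply, smul_eq_mul]

/-- colours of the variables of a form -/
theorem vars_col {col : ι → Finset (Fin J)} {e : Finset (Fin J)} {F : MvPolynomial ι ℝ}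
    (h : Ml col e F) {b : ι} (hb : b ∈ F.vars) : col b ⊆ e := by
  obtain ⟨m, hm, hbm⟩ := (mem_vars_iff_mem_support b).1 hb
  refine sub_of_ic (le_trans (fun c => ?_) (h m hm))
  rw [wt_apply]
  refine le_trans ?_ (single_le_sum (f := fun a => m a * ic (col a) c) (fun _ _ => Nat.zero_le _) hbm)
  exact Nat.le_mul_of_pos_left _ (Nat.pos_of_ne_zero (Finsupp.mem_support_iff.1 hbm))

theorem ml_of_mh {col : ι → Finset (Fin J)} {e : Finset (Fin J)} {F : MvPolynomial ι ℝ}
    (h : Mh col e F) : Ml col e F := fun _ hm => (h (mem_support_iff.1 hm)).le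

/-- the weight is the total multidegree -/
theorem weight_eq {col : ι → Finset (Fin J)} {w : ι → ℕ} (hw : ∀ a, w a = (col a).card)
    (m : ι →₀ ℕ) : Finsupp.weight w m = ∑ c, Finsupp.weight (fun a => ic (col a)) m c := by
  simp only [wt_apply]
  rw [sum_comm, Finsupp.weight_apply, Finsupp.sum]
  refine sum_congr rfl fun a _ => ?_
  rw [← mul_sum, sum_ic, hw, smul_eq_mul]

/-- substitution of homogeneous forms -/
theorem hom_aeval {M : Type} [AddCommMonoid M] {w : ι → M} {φ : ι → MvPolynomial ι ℝ}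
    (hφ : ∀ a, IsWeightedHomogeneous w (φ a) (w a)) {F : MvPolynomial ι ℝ} {e : M}
    (h : IsWeightedHomogeneous w F e) : IsWeightedHomogeneous w (aeval φ F) e := by
  rw [F.as_sum, map_sum]
  refine IsWeightedHomogeneous.sum _ _ _ fun m hm => ?_
  rw [aeval_monomial, ← h (mem_support_iff.1 hm), Finsupp.weight_apply, Finsupp.prod, Finsupp.sum]
  exact (IsWeightedHomogeneous.prod _ _ _ fun a _ => (hφ a).pow (m a)).C_mul _

variable {S : St ι J q} {s : ℕ} {gr : Finset (Fin J) → ℕ}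

theorem col_lt (h : S.Ok s gr) {a b : ι} (hb : b ∈ (S.p a).vars) : S.col b ⊂ S.col a := by
  refine Finset.ssubset_iff_subset_ne.2 ⟨vars_col (h.mp a) hb, fun he => ?_⟩
  have h1 := Br.vars_w (h.pd a) hb
  rw [h.wc, h.wc, he] at h1
  exact lt_irrefl _ h1

theorem w_en (h : S.Ok s gr) (c : Fin J) (l : Fin q) : S.G.w (S.en c l) = 1 := by
  rw [h.wc, h.ce, card_singleton]

/-- the analytic data with constant scale -/
def atc (S : St ι J q) (σ : ℝ) : AT ι := ⟨univ, S.p, fun _ => σ⟩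

theorem aok (h : S.Ok s gr) {σ P : ℝ} (h1 : P⁻¹ ≤ σ) (h2 : σ ≤ P) : S.G.AOk (atc S σ) P where
  bk := fun a b _ => by simp [atc]
  qv := fun _ _ => subset_univ _
  pv := fun _ _ => subset_univ _
  pd := fun a _ => h.pd a
  pl := fun a _ b hb => by
    by_cases hb0 : S.G.g b = 0
    · omega
    by_cases ha0 : S.G.g a = 0
    · obtain ⟨c, l, rfl⟩ := (h.g0 a).1 ha0
      have h3 := Br.vars_w (h.pd _) hb
      have h4 := h.ok.w1 b
      rw [w_en h] at h3
      omega
    · have h3 := h.go.mono _ _ (col_lt h hb) (h.pr a)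
      rw [h.gc a ha0, h.gc b hb0]
      omega
  s1 := fun _ => h1
  s2 := fun _ => h2

theorem nu_atc (S : St ι J q) (σ : ℝ) (z : ι → ℤ) :
    S.G.nu (atc S σ) z = Real.exp (-π * (σ ^ 2 * S.sq z)) := by
  simp only [GT.nu, atc, St.sq, mul_pow, Finset.mul_sum]
  rfl

theorem nu_AT (S : St ι J q) (z : ι → ℤ) : S.G.nu S.AT z = S.wt z :=
  (nu_atc S 1 z).trans (by rw [one_pow, one_mul, St.wt])

theorem summ (h : S.Ok s gr) {σ : ℝ} (hσ : 0 < σ) :
    Summable fun z : ι → ℤ => Real.exp (-π * (σ ^ 2 * S.sq z)) := by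
  have hP : 0 < σ + σ⁻¹ := by positivity
  have h1 : (σ + σ⁻¹)⁻¹ ≤ σ := by
    rw [inv_le_comm₀ hP hσ]
    linarith
  have h2 : σ ≤ σ + σ⁻¹ := by
    have := inv_pos.2 hσ
    linarith
  have h3 := (Br.summ_le h.ok hP (aok h h1 h2)).1
  exact ((Rg.BrP.latU.summable_iff.2 h3).congr fun z => nu_atc S σ z)

theorem ms_atc (S : St ι J q) (σ : ℝ) :
    S.G.ms (atc S σ) = ∑' z : ι → ℤ, Real.exp (-π * (σ ^ 2 * S.sq z)) := by
  have h := (Rg.BrP.latU (ι := ι)).tsum_eq fun z => S.G.nu (atc S σ) z.1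
  exact h.symm.trans (tsum_congr fun z => nu_atc S σ z)

theorem sq_nn (S : St ι J q) (z : ι → ℤ) : 0 ≤ S.sq z := sum_nonneg fun _ _ => sq_nonneg _

theorem col_eq (h : S.Ok s gr) {a b : ι} (hab : S.G.A a b ≠ 0 ∨ S.G.B a b ≠ 0) :
    S.col a = S.col b := by
  have h1 := (h.ok.blk a b hab).1
  by_cases ha0 : S.G.g a = 0
  · obtain ⟨c, l, rfl⟩ := (h.g0 a).1 ha0
    by_cases hb : b = S.en c l
    · rw [hb]
    · rw [(h.ae c l b).1, (h.ae c l b).2, if_neg hb, if_neg hb] at hab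
      exact absurd rfl (hab.elim id id)
  · exact h.go.inj ((h.gc a ha0).symm.trans (h1.trans (h.gc b (h1 ▸ ha0))))

theorem mh_th (h : S.Ok s gr) (a : ι) : Mh S.col (S.col a) (S.G.th a) := by
  refine IsWeightedHomogeneous.sum _ _ _ fun b _ => ?_
  by_cases hab : S.G.A a b = 0
  · rw [hab, C_0, zero_mul]
    exact isWeightedHomogeneous_zero _ _ _
  · rw [col_eq h (Or.inl hab)]
    exact ((isWeightedHomogeneous_X ℝ (fun a => ic (S.col a)) b).sub (h.mq b)).C_mul _

theorem hm_of_mh (h : S.Ok s gr) {e : Finset (Fin J)} {F : MvPolynomial ι ℝ} (hF : Mh S.col e F) :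
    S.G.Hm e.card F := fun m hm => by
  rw [weight_eq h.wc, hF hm, sum_ic]

theorem p_en (h : S.Ok s gr) (c : Fin J) (l : Fin q) :
    S.p (S.en c l) = C (coeff 0 (S.p (S.en c l))) := by
  refine vars_eq_empty_iff_eq_C.1 (eq_empty_of_forall_notMem fun b hb => ?_)
  have h3 := Br.vars_w (h.pd _) hb
  have h4 := h.ok.w1 b
  rw [w_en h] at h3
  omega

end BrP

open BrP

theorem br0 : BR := by
  intro s J q gr ι _ _ S h
  refine ⟨fun P hP => aok h (inv_le_one_of_one_le₀ hP) hP, ?_, ?_, ?_,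
    fun V hV => Rg.BrP.dv_pos h.ok hV, fun f => ?_, fun a b => col_eq h, mh_th h,
    fun e F hF => ⟨hm_of_mh h hF, hom_aeval (mh_th h) hF⟩, fun c l => ⟨_, p_en h c l⟩⟩
  · exact (summ h one_pos).congr fun z => by rw [one_pow, one_mul, St.wt]
  · exact (tsum_congr fun z => by rw [one_pow, one_mul, St.wt]).trans (ms_atc S 1).symm
  · simp [GT.mn, St.AT]
  · have h1 := (Rg.BrP.latU (ι := ι)).tsum_eq fun z => S.G.nu S.AT z.1 • f (S.xs z.1)
    refine Eq.trans (tsum_congr fun z => ?_) h1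
    rw [nu_AT, smul_eq_mul]
    rfl

theorem br (_ : SUMM) : BR := br0

end

end Vale.Agent.P057T.Cw
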