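import Vale.Agent.P057T.Cw.Defs2
import Vale.Agent.P057T.Cp.Cpr
import Vale.Agent.P057T.Cp.CpmH97

/-! Row CPD: copies keep widths, regularity and theta bounds. -/

set_option linter.unusedSectionVars false

open MvPolynomial Finset
open scoped Real

namespace Vale.Agent.P057T.Cw

open Vale.Agent.P057T.Eq Vale.Agent.P057T.Cp

noncomputable section

namespace CpdP

variable {ι : Type} [Fintype ι] [DecidableEq ι]

/-- summand of the theta sum -/
def tf (G : GT ι) (V : Finset ι) (x : ι → ℝ) (z : ι → ℤ) : ℝ :=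
  Real.exp (-π * ∑ a ∈ V, (∑ b, G.A a b * (z b : ℝ) - x a) ^ 2)

def ts (G : GT ι) (V : Finset ι) (x : ι → ℝ) : ℝ := ∑' z : Lat V, tf G V x z.1

theorem ts_nn (G : GT ι) (V : Finset ι) (x : ι → ℝ) : 0 ≤ ts G V x :=
  tsum_nonneg fun _ => (Real.exp_pos _).le

/-- splitting of the lattice -/
def sp {U V : Finset ι} (h : V ⊆ U) : Lat V × Lat (U \ V) ≃ Lat U where
  toFun p := ⟨p.1.1 + p.2.1, fun a ha => by
    have h1 := p.1.2 a fun h' => ha (h h')
    have h2 := p.2.2 a fun h' => ha (mem_sdiff.1 h').1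
    simp [h1, h2]⟩
  invFun z := (⟨res V z.1, fun a ha => if_neg ha⟩, ⟨res (U \ V) z.1, fun a ha => if_neg ha⟩)
  left_inv p := by
    refine Prod.ext (Subtype.ext (funext fun a => ?_)) (Subtype.ext (funext fun a => ?_))
    · by_cases ha : a ∈ V
      · have h2 := p.2.2 a fun h' => (mem_sdiff.1 h').2 ha
        simp [res, ha, h2]
      · simp [res, ha, p.1.2 a ha]
    · by_cases ha : a ∈ U \ V
      · have h2 := p.1.2 a (mem_sdiff.1 ha).2
        simp only [res, if_pos ha, Pi.add_apply, h2, zero_add]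
      · simp only [res, if_neg ha, p.2.2 a ha]
  right_inv z := by
    refine Subtype.ext (funext fun a => ?_)
    by_cases ha : a ∈ V
    · simp [res, ha]
    · by_cases hu : a ∈ U
      · simp [res, ha, hu]
      · simp [res, ha, hu, z.2 a hu]

theorem tf_add {G : GT ι} {V : Finset ι} (hV : G.Bk V) (x : ι → ℝ) (y z : ι → ℤ)
    (hz : ∀ b ∈ V, z b = 0) : tf G V x (y + z) = tf G V x y := by
  unfold tf
  congr 2
  refine sum_congr rfl fun a ha => ?_
  congr 2
  refine sum_congr rfl fun b _ => ?_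
  by_cases h : G.A a b = 0
  · simp [h]
  · simp [hz b ((hV a b (Or.inl h)).1 ha)]

theorem bk_sdiff {G : GT ι} {U V : Finset ι} (hU : G.Bk U) (hV : G.Bk V) : G.Bk (U \ V) :=
  fun a b hab => by
    simp only [mem_sdiff]
    rw [hU a b hab, hV a b hab]

theorem ts_split {G : GT ι} {U V : Finset ι} (hU : G.Bk U) (hV : G.Bk V) (h : V ⊆ U) (x : ι → ℝ) :
    ts G U x ≤ ts G V x * ts G (U \ V) x := by
  have e : ∀ p : Lat V × Lat (U \ V), tf G U x (sp h p).1 = tf G V x p.1.1 * tf G (U \ V) x p.2.1 := by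
    intro p
    have h1 := tf_add hV x p.1.1 p.2.1 fun b hb => p.2.2 b fun h' => (mem_sdiff.1 h').2 hb
    have h2 := tf_add (bk_sdiff hU hV) x p.2.1 p.1.1 fun b hb => p.1.2 b (mem_sdiff.1 hb).2
    rw [← h1, ← h2, add_comm p.2.1 p.1.1]
    unfold tf
    rw [← Real.exp_add, ← mul_add, ← sum_sdiff h, add_comm]
    rfl
  unfold ts
  rw [← (sp h).tsum_eq, tsum_congr e]
  by_cases hs : Summable fun p : Lat V × Lat (U \ V) => tf G V x p.1.1 * tf G (U \ V) x p.2.1
  · rw [hs.tsum_prod]
    simp only [tsum_mul_left, tsum_mul_right]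
    exact le_rfl
  · rw [tsum_eq_zero_of_not_summable hs]
    exact mul_nonneg (ts_nn _ _ _) (ts_nn _ _ _)

theorem ts_empty (G : GT ι) (x : ι → ℝ) : ts G ∅ x = 1 := by
  unfold ts
  rw [tsum_eq_single 0]
  · simp [tf]
  · intro z hz
    exact absurd (Subtype.ext (funext fun a => z.2 a (notMem_empty a))) hz

theorem ts_fib {Λ : Type} [DecidableEq Λ] (G : GT ι) (x : ι → ℝ) (lab : ι → Λ)
    (hl : ∀ a b, (G.A a b ≠ 0 ∨ G.B a b ≠ 0) → lab a = lab b) (S : Finset Λ) :
    ∀ U : Finset ι, G.Bk U → (∀ a ∈ U, lab a ∈ S) →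
      ts G U x ≤ ∏ l ∈ S, ts G (U.filter fun a => lab a = l) x := by
  induction S using Finset.induction_on with
  | empty =>
    intro U _ h
    have : U = ∅ := eq_empty_of_forall_notMem fun a ha => by simpa using h a ha
    simp [this, ts_empty]
  | insert l S hl' ih =>
    intro U hU h
    have hb : G.Bk (U.filter fun a => lab a = l) := fun a b hab => by
      simp only [mem_filter]
      rw [hU a b hab, hl a b hab]
    rw [prod_insert hl']
    refine (ts_split hU hb (filter_subset _ _) x).trans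
      (mul_le_mul_of_nonneg_left ((ih _ (bk_sdiff hU hb) fun a ha => ?_).trans (le_of_eq ?_))
        (ts_nn _ _ _))
    · simp only [mem_filter, mem_sdiff] at ha
      rcases mem_insert.1 (h a ha.1) with h1 | h1
      · exact absurd ⟨ha.1, h1⟩ ha.2
      · exact h1
    · refine prod_congr rfl fun l' h' => ?_
      congr 1
      ext a
      simp only [mem_filter, mem_sdiff]
      constructor
      · rintro ⟨⟨h1, -⟩, h2⟩
        exact ⟨h1, h2⟩
      · rintro ⟨h1, h2⟩
        exact ⟨⟨h1, fun h3 => hl' (by rw [← h3.2, h2]; exact h')⟩, h2⟩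

variable {Γ K : Type} [Fintype Γ] [DecidableEq Γ] [Fintype K] [DecidableEq K] [Inhabited K]

theorem ts_img {G : GT ι} {col : ι → Finset Γ} (hc : Col G col) (f : Γ → K) (V : Finset ι)
    (x : CV col K → ℝ) :
    ts (cp G col K) (V.image (vx col f)) x = ts G V fun a => x (vx col f a) := by
  unfold ts
  rw [← (H97.eqv col f V).tsum_eq]
  refine tsum_congr fun z => ?_
  unfold tf
  rw [sum_image fun a _ b _ h => H97.vx_inj col f h]
  congr 2
  refine sum_congr rfl fun a _ => ?_
  congr 2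
  have h := CprP.sum_cv (vx col f a) (fun b => G.A a b * (z.1 (vx col f b) : ℝ))
    fun b hb => hc.blk a b (Or.inl (left_ne_zero_of_mul hb))
  refine Eq.trans ?_ h
  refine sum_congr rfl fun y _ => ?_
  show (if (vx col f a).1.2 = y.1.2 then G.A a y.1.1 else 0) * _ = _
  split_ifs with h1
  · by_cases h2 : G.A a y.1.1 = 0
    · simp [h2]
    · have h3 : vx col f y.1.1 = y := by
        refine Subtype.ext (Prod.ext rfl ?_)
        show rs (col y.1.1) f = y.1.2
        rw [← hc.blk _ _ (Or.inl h2)]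
        exact h1
      rw [h3]
  · simp

theorem tb {G : GT ι} {col : ι → Finset Γ} (hc : Col G col) {ka : ℕ → ℝ} (h : Tb G ka) :
    Tb (cp G col K) ka := by
  intro V g x hV hg
  have hl : ∀ x y : CV col K, ((cp G col K).A x y ≠ 0 ∨ (cp G col K).B x y ≠ 0) → x.1.2 = y.1.2 := by
    intro x y hxy
    by_contra h
    simp [cp, cm, h] at hxy
  let W : (Γ → K) → Finset ι := fun f => univ.filter fun a => vx col f a ∈ V ∧ rs (col a) f = f
  have hW : ∀ f, (V.filter fun y => y.1.2 = f) = (W f).image (vx col f) := by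
    intro f
    ext y
    simp only [W, mem_filter, mem_image, mem_univ, true_and]
    constructor
    · rintro ⟨h1, rfl⟩
      exact ⟨y.1.1, ⟨by rwa [H97.vx_self], y.2⟩, H97.vx_self col y⟩
    · rintro ⟨a, ⟨h1, h2⟩, rfl⟩
      exact ⟨h1, h2⟩
  have hB : ∀ f, G.Bk (W f) := by
    intro f a b hab
    simp only [W, mem_filter, mem_univ, true_and]
    rw [hc.blk a b hab]
    refine and_congr_left fun _ => hV _ _ ?_
    have e : (vx col f a).1.2 = (vx col f b).1.2 := by
      simp only [vx]; rw [hc.blk a b hab]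
    simp only [cp, cm, if_pos e]
    exact hab
  have h1 := ts_fib (cp G col K) x (fun y => y.1.2) hl univ V hV fun _ _ => mem_univ _
  have h2 := H97.mn_fib (cp G col K) (fun _ => 1) (fun y => y.1.2) hl univ V hV fun _ _ => mem_univ _
  have h3 : V.card = ∑ f : Γ → K, (W f).card := by
    rw [card_eq_sum_card_fiberwise (f := fun y : CV col K => y.1.2) (t := univ)
      fun _ _ => mem_coe.2 (mem_univ _)]
    refine sum_congr rfl fun f _ => ?_
    rw [hW, card_image_of_injective _ (H97.vx_inj col f)]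
  have h4 : (cp G col K).dv V = ∏ f : Γ → K, G.dv (W f) := by
    have e : ∀ f, (cp G col K).mn (fun _ => 1) (V.filter fun y => y.1.2 = f) = G.dv (W f) := by
      intro f
      rw [hW]
      have := H97.mn_img (K := K) hc (fun _ => 1) f (W f)
      simpa [GT.mn] using this
    rw [prod_congr rfl fun f _ => e f] at h2
    simpa [GT.mn] using h2
  refine h1.trans ?_
  rw [h3, h4]
  push_cast
  rw [mul_sum, Real.exp_sum, ← prod_mul_distrib]
  refine prod_le_prod (fun f _ => ts_nn _ _ _) fun f _ => ?_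
  rw [hW, ts_img hc]
  exact h (W f) g _ (hB f) fun a ha => hg (vx col f a) (mem_filter.1 ha).2.1

end CpdP

theorem cpd (hP : PULL) (hA : CPA) : CPD := by
  intro s ι Γ K _ _ _ _ _ _ _ G col hG hc
  obtain ⟨h1, h2, -⟩ := hA s ι Γ K G col hG hc
  refine ⟨fun WW h => CprP.wd G hc WW h, fun WW cc Y h g hg =>
    ⟨?_, CprP.small G hc g _ (h g hg).2⟩, fun ka h => CpdP.tb hc h⟩
  refine (hP s ι _ G (cp G col K) 1 hG h1 le_rfl).2 g _ (fun k x hk hx => ?_)
    (by rw [one_pow, one_mul]; exact (h g hg).1)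
  refine ⟨_, _, CprP.pb G hc h2 x.1.2, x.1.1, by simpa [cp] using hx, ?_⟩
  rw [CprP.vx_self, sum_eq_single x]
  · simpa using hk
  · intro y _ hy
    rw [if_neg hy, mul_zero]
  · simp

end

end Vale.Agent.P057T.Cw
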