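import Vale.Agent.P057T.Cw.Defs2
import Vale.Agent.P057T.Cp.Cpa

/-! Copies of one class. -/

set_option linter.all false

open MvPolynomial Finset
open scoped Real BigOperators

namespace Vale.Agent.P057T.Cw

open Vale.Agent.P057T.Eq Vale.Agent.P057L Vale.Agent.P057T.Cp

noncomputable section

namespace Cps

variable {ι : Type} [Fintype ι] [DecidableEq ι] {K : Type} [Fintype K] [DecidableEq K] [Inhabited K]

theorem vW {W : Finset ι} {a : ι} (h : a ∈ W) (f f' : Unit → K) :
    vx (c1 W) f a = vx (c1 W) f' a := by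
  refine Subtype.ext (Prod.ext rfl ?_)
  funext c
  simp [vx, rs, c1, h]

theorem vN {W : Finset ι} {a : ι} (h : a ∉ W) (f : Unit → K) : (vx (c1 W) f a).1.2 = f := by
  funext c
  simp [vx, rs, c1, h]

theorem col2 {Γ Γ' : Type} [Fintype Γ] [DecidableEq Γ] [Fintype Γ'] [DecidableEq Γ'] {G : GT ι}
    (col : ι → Finset Γ) {col' : ι → Finset Γ'} (hc : Col G col') :
    Col (cp G col K) (fun x => col' x.1.1) := by
  refine ⟨fun x y hxy => hc.blk _ _ (Cpa.ne_of hxy).2, fun x y hy => ?_, fun x m hm => ?_⟩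
  · obtain ⟨i, hi, rfl⟩ := mem_vars_rename _ _ hy
    exact hc.sub _ i hi
  · obtain ⟨u, rfl, hu⟩ := coeff_rename_ne_zero _ _ _ (mem_support_iff.1 hm)
    intro c hcx
    obtain ⟨b, hb, hcb⟩ := mem_biUnion.1 (hc.cov _ u (mem_support_iff.2 hu) hcx)
    refine mem_biUnion.2 ⟨vx col x.1.2 b, ?_, hcb⟩
    rw [Finsupp.mapDomain_support_of_injective (Cpa.vx_inj _)]
    exact mem_image_of_mem _ hb

theorem colT2 {Γ Γ' : Type} [Fintype Γ] [DecidableEq Γ] [Fintype Γ'] [DecidableEq Γ'] {T : AT ι}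
    (col : ι → Finset Γ) {col' : ι → Finset Γ'} (hc : ColT T col') :
    ColT (cpT T col (fu T col K)) (fun x => col' x.1.1) := by
  intro x hx y hy
  obtain ⟨i, hi, rfl⟩ := mem_vars_rename _ _ hy
  exact hc _ (mem_filter.1 hx).2 i hi

theorem ite2 {Γ : Type} [Fintype Γ] [DecidableEq Γ] {col : ι → Finset Γ} (x b : CV col K) (r : ℝ) :
    (if x.1.2 = b.1.2 then (if b.1.1 = x.1.1 then r else 0) else 0) = if b = x then r else 0 := by
  by_cases h : b = x
  · subst h
    simp
  · rw [if_neg h]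
    split_ifs with h1 h2
    · exact absurd (Subtype.ext (Prod.ext h2 h1.symm)) h
    · rfl
    · rfl

theorem ex_re (G : GT ι) (T : AT ι) (h : (ι → ℤ) → ℝ) :
    Ex G T (fun z => (h z : ℂ)) = ((Ex G T h : ℝ) : ℂ) := by
  unfold Ex
  rw [Complex.ofReal_tsum]
  simp only [Complex.real_smul, smul_eq_mul, Complex.ofReal_mul]

theorem fs_re (G : GT ι) (T : AT ι) (W : Finset ι) (h : (ι → ℤ) → ℝ) (y : ι → ℤ) :
    Fs G T W (fun z => (h z : ℂ)) y = ((Fs G T W h y : ℝ) : ℂ) := by
  unfold Fs
  rw [Complex.ofReal_tsum]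
  simp only [Complex.real_smul, smul_eq_mul, Complex.ofReal_mul]

variable {J q : ℕ}

/-- the tower of copies -/
def nw (X : Ct ι J q) (i : Fin J) (t : ℕ) : Ct (CV (c1 (Wc X.col i)) (Fin (t + 1))) J q where
  G := cp X.G (c1 (Wc X.col i)) (Fin (t + 1))
  T := cpT X.T (c1 (Wc X.col i)) (fu X.T (c1 (Wc X.col i)) (Fin (t + 1)))
  col := fun x => X.col x.1.1
  en := fun c τ l => vx (c1 (Wc X.col i)) (fun _ => Fin.ofNat (t + 1) τ)
    (X.en c (if c = i then 0 else τ) l)

variable {p : Par J q} {tt : Fin J → ℕ} {X : Ct ι J q} {i : Fin J} {t : ℕ}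

theorem lt_of (h : Cs p tt X) {c : Fin J} {τ : ℕ} (hτ : τ < Function.update tt i (t + 1) c) :
    (if c = i then 0 else τ) < tt c := by
  split_ifs with h1
  · exact h.t1 c
  · rwa [Function.update_of_ne h1] at hτ

theorem enW (h : Cs p tt X) {c : Fin J} {τ : ℕ} (hτ : τ < tt c) (l : Fin q) :
    X.en c τ l ∈ Wc X.col i ↔ c ≠ i := by
  simp [Wc, h.ce c τ l hτ, eq_comm]

theorem card_le (h : Cs p tt X) (h1 : tt i = 1) (e : Finset (Fin J)) :
    ((univ.filter fun x => (nw X i t).col x = e).card : ℝ) ≤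
      p.D * ∏ c ∈ e, (Function.update tt i (t + 1) c : ℝ) := by
  have k := h.cn e
  by_cases hi : i ∈ e
  · have a1 : (univ.filter fun x => (nw X i t).col x = e).card ≤
        ((univ.filter fun a => X.col a = e) ×ˢ (univ : Finset (Fin (t + 1)))).card := by
      refine card_le_card_of_injOn (fun x => (x.1.1, x.1.2 ())) (fun x hx => ?_) fun x _ y _ hxy => ?_
      · exact mem_coe.2 (mem_product.2 ⟨mem_filter.2 ⟨mem_univ _, (mem_filter.1 hx).2⟩, mem_univ _⟩)
      · have k1 : x.1.1 = y.1.1 := (Prod.mk.inj hxy).1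
        have k2 : x.1.2 () = y.1.2 () := (Prod.mk.inj hxy).2
        exact Subtype.ext (Prod.ext k1 (funext fun _ => k2))
    rw [card_product, card_univ, Fintype.card_fin] at a1
    have a2 : ∏ c ∈ e, (Function.update tt i (t + 1) c : ℝ) = (t + 1 : ℕ) * ∏ c ∈ e, (tt c : ℝ) := by
      rw [← mul_prod_erase _ _ hi, ← mul_prod_erase e _ hi, Function.update_self, h1, Nat.cast_one,
        one_mul]
      congr 1
      exact prod_congr rfl fun c hc => by rw [Function.update_of_ne (ne_of_mem_erase hc)]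
    rw [a2, mul_left_comm, mul_comm]
    refine le_trans (Nat.cast_le.2 a1) ?_
    rw [Nat.cast_mul]
    exact mul_le_mul_of_nonneg_right k (Nat.cast_nonneg _)
  · have a1 : (univ.filter fun x => (nw X i t).col x = e).card ≤
        (univ.filter fun a => X.col a = e).card := by
      refine card_le_card_of_injOn (fun x => x.1.1) (fun x hx => ?_) fun x hx y _ hxy => ?_
      · exact mem_coe.2 (mem_filter.2 ⟨mem_univ _, (mem_filter.1 hx).2⟩)
      · have hW : x.1.1 ∈ Wc X.col i := mem_filter.2 ⟨mem_univ _, fun h2 => hi (by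
          rw [← (mem_filter.1 hx).2]; exact h2)⟩
        have hxy' : x.1.1 = y.1.1 := hxy
        rw [← Cpa.vx_self x, ← Cpa.vx_self y, ← hxy']
        exact vW hW _ _
    have a2 : ∏ c ∈ e, (Function.update tt i (t + 1) c : ℝ) = ∏ c ∈ e, (tt c : ℝ) :=
      prod_congr rfl fun c hc => by rw [Function.update_of_ne fun h2 : c = i => hi (h2 ▸ hc)]
    rw [a2]
    exact le_trans (Nat.cast_le.2 a1) k

theorem cs (hD : CPD) (h : Cs p tt X) (h1 : tt i = 1) :
    Cs p (Function.update tt i (t + 1)) (nw X i t) := by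
  have hc := h.cl i
  obtain ⟨d1, d2, d3⟩ := hD p.s ι Unit (Fin (t + 1)) X.G _ h.ok hc.1
  refine ⟨Cpa.ok h.ok hc.1, Cpa.aok hc.1 h.ao hc.2 Cpa.cl_fu, ?_, fun x => h.sg _, fun c => ?_,
    fun c => ?_, ?_, fun x => ⟨fun hx => ?_, ?_⟩, fun x => h.gc _, fun x => h.pr _,
    fun c τ l hτ => h.ce c _ l (lt_of h hτ), fun c τ l hτ => ?_, fun c τ l b hτ => ?_, h.al0,
    card_le h h1, d1 _ h.wd, d2 _ _ _ h.rd, d3 _ h.tb⟩
  · exact eq_univ_of_forall fun x => mem_filter.2 ⟨mem_univ _, h.un ▸ mem_univ _⟩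
  · have e : c1 (Wc (nw X i t).col c) = fun x => c1 (Wc X.col c) x.1.1 := by
      funext x
      refine if_congr ?_ rfl rfl
      exact ⟨fun h2 => mem_filter.2 ⟨mem_univ _, (mem_filter.1 h2).2⟩,
        fun h2 => mem_filter.2 ⟨mem_univ _, (mem_filter.1 h2).2⟩⟩
    rw [e]
    exact ⟨col2 _ (h.cl c).1, colT2 _ (h.cl c).2⟩
  · by_cases h2 : c = i
    · rw [h2, Function.update_self]
      exact Nat.succ_pos t
    · rw [Function.update_of_ne h2]
      exact h.t1 c
  · intro c τ l c' τ' l' hτ hτ' he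
    obtain ⟨rfl, e2, rfl⟩ := h.inj _ _ _ _ _ _ (lt_of h hτ) (lt_of h hτ')
      (congrArg (fun x => x.1.1) he)
    refine ⟨rfl, ?_, rfl⟩
    by_cases h2 : c = i
    · subst h2
      rw [Function.update_self] at hτ hτ'
      have n1 : X.en c (if c = c then 0 else τ) l ∉ Wc X.col c := fun h3 =>
        (enW h (by rw [if_pos rfl]; exact h.t1 c) l).1 h3 rfl
      have n2 : X.en c (if c = c then 0 else τ') l ∉ Wc X.col c := fun h3 =>
        (enW h (by rw [if_pos rfl]; exact h.t1 c) l).1 h3 rfl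
      have e3 := congrArg (fun x => x.1.2) he
      have e4 := ((vN n1 _).symm.trans e3).trans (vN n2 _)
      have e5 := congrArg Fin.val (congrFun e4 ())
      simpa [Fin.ofNat, Nat.mod_eq_of_lt hτ, Nat.mod_eq_of_lt hτ'] using e5
    · rwa [if_neg h2, if_neg h2] at e2
  · obtain ⟨c, τ, l, hτ, e⟩ := (h.g0 _).1 hx
    by_cases h2 : c = i
    · subst h2
      obtain rfl : τ = 0 := by omega
      refine ⟨c, (x.1.2 ()).val, l, by rw [Function.update_self]; exact (x.1.2 ()).2, ?_⟩
      show x = vx _ (fun _ => Fin.ofNat (t + 1) (x.1.2 ()).val) (X.en c (if c = c then 0 else _) l)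
      rw [if_pos rfl, ← e, Fin.ofNat_val_eq_self]
      exact (Cpa.vx_self x).symm
    · refine ⟨c, τ, l, by rwa [Function.update_of_ne h2], ?_⟩
      show x = vx _ _ (X.en c (if c = i then 0 else _) l)
      rw [if_neg h2, vW ((enW h hτ l).2 h2) _ x.1.2, ← e]
      exact (Cpa.vx_self x).symm
  · rintro ⟨c, τ, l, hτ, rfl⟩
    exact (h.g0 _).2 ⟨c, _, l, lt_of h hτ, rfl⟩
  · refine (Cpa.ch hc.1 hc.2 _ _ _ (h.un ▸ mem_univ _)).trans ?_
    rw [h.ch c _ l (lt_of h hτ), map_sub, map_mul, rename_C, rename_C, rename_X]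
    rfl
  · have k := h.ae c _ l b.1.1 (lt_of h hτ)
    rw [← ite2, ← ite2]
    exact ⟨congrArg (fun r => if ((nw X i t).en c τ l).1.2 = b.1.2 then r else 0) k.1,
      congrArg (fun r => if ((nw X i t).en c τ l).1.2 = b.1.2 then r else 0) k.2⟩

theorem ph (h : Cs p tt X) (h1 : tt i = 1) (F : Pt J q → ℝ)
    (z : CV (c1 (Wc X.col i)) (Fin (t + 1)) → ℤ) :
    (nw X i t).Ph (Function.update tt i (t + 1)) F z =
      ∏ k : Fin (t + 1), X.Ph tt F (pt (c1 (Wc X.col i)) (fun _ => k) z) := by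
  unfold Ct.Ph
  rw [← prod_product']
  symm
  refine prod_nbij' (fun u => Function.update u.2 i u.1.val)
    (fun τ => (Fin.ofNat (t + 1) (τ i), Function.update τ i 0)) (fun u hu => ?_) (fun τ hτ => ?_)
    (fun u hu => ?_) (fun τ hτ => ?_) fun u hu => ?_
  · refine Fintype.mem_piFinset.2 fun c => mem_range.2 ?_
    by_cases h2 : c = i
    · rw [h2, Function.update_self, Function.update_self]
      exact u.1.2
    · rw [Function.update_of_ne h2, Function.update_of_ne h2]
      exact mem_range.1 (Fintype.mem_piFinset.1 (mem_product.1 hu).2 c)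
  · refine mem_product.2 ⟨mem_univ _, Fintype.mem_piFinset.2 fun c => mem_range.2 ?_⟩
    by_cases h2 : c = i
    · rw [h2]
      show Function.update τ i 0 i < _
      rw [Function.update_self]
      exact h.t1 i
    · have := mem_range.1 (Fintype.mem_piFinset.1 hτ c)
      show Function.update τ i 0 c < _
      rw [Function.update_of_ne h2] at this ⊢
      exact this
  · have h0 : u.2 i = 0 := by
      have := mem_range.1 (Fintype.mem_piFinset.1 (mem_product.1 hu).2 i)
      omega
    refine Prod.ext ?_ ?_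
    · show Fin.ofNat (t + 1) (Function.update u.2 i u.1.val i) = u.1
      rw [Function.update_self, Fin.ofNat_val_eq_self]
    · show Function.update (Function.update u.2 i u.1.val) i 0 = u.2
      rw [Function.update_idem, ← h0, Function.update_eq_self]
  · have := mem_range.1 (Fintype.mem_piFinset.1 hτ i)
    rw [Function.update_self] at this
    show Function.update (Function.update τ i 0) i (τ i % (t + 1)) = τ
    rw [Function.update_idem, Nat.mod_eq_of_lt this, Function.update_eq_self]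
  · congr 1
    funext c l
    have hc := mem_range.1 (Fintype.mem_piFinset.1 (mem_product.1 hu).2 c)
    show z (vx _ (fun _ => u.1) (X.en c (u.2 c) l)) =
      z (vx _ (fun _ => Fin.ofNat (t + 1) (Function.update u.2 i u.1.val c))
        (X.en c (if c = i then 0 else Function.update u.2 i u.1.val c) l))
    by_cases h2 : c = i
    · subst h2
      have h0 : u.2 c = 0 := by omega
      rw [if_pos rfl, Function.update_self, Fin.ofNat_val_eq_self, h0]
    · rw [if_neg h2, Function.update_of_ne h2, vW ((enW h hc l).2 h2)]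

end Cps

/-- **CPS** -/
theorem cps (hB : DBL) (hD : CPD) : CPS := by
  intro J q p tt ι _ _ X i t h h1 ht
  obtain ⟨t, rfl⟩ : ∃ t0, t = t0 + 1 := ⟨t - 1, by omega⟩
  obtain ⟨-, b1, b2⟩ := hB p.s ι (Fin (t + 1)) X.G X.T 2 (Wc X.col i) h.ok two_pos h.ao (h.cl i).1
    (h.cl i).2
  refine ⟨_, inferInstance, inferInstance, Cps.nw X i t, Cps.cs hD h h1, ?_, fun F B hF => ?_⟩
  · rw [Fintype.card_fin] at b1
    exact b1
  · have k := b2 (fun _ => 1) (fun _ z => (X.Ph tt F z : ℂ))
      (max 1 B ^ (Fintype.piFinset fun c => range (tt c)).card)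
      (fun _ => by rw [norm_one]; exact one_le_pow₀ (le_max_left _ _)) fun _ z => by
        rw [Complex.norm_real, Real.norm_eq_abs, Ct.Ph, abs_prod, ← prod_const]
        exact prod_le_prod (fun _ _ => abs_nonneg _) fun τ _ => by
          rw [abs_of_nonneg (hF _).1]
          exact (hF _).2.trans (le_max_right _ _)
    simp only [one_mul, Cps.fs_re, prod_const, card_univ, Fintype.card_fin, ← Complex.ofReal_pow,
      ← Complex.ofReal_prod, ← Cps.ph h h1 F, Cps.ex_re] at k
    exact Complex.ofReal_injective k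

end

end Vale.Agent.P057T.Cw
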