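import Vale.Agent.P057T.Cw.Defs

/-! The rows with a choice of a window, with the hypothesis `η ≤ 1 / 2`. -/

open MvPolynomial Finset
open scoped Real BigOperators

namespace Vale.Agent.P057T.Cw

open Vale.Agent.P057T.Eq Vale.Agent.P057L Vale.Agent.P057T.Cp
open Vale.Agent.P057T.Rg (gp tk lo at1)

def SHR1 : Prop := ∀ (s J q : ℕ) (gr : Finset (Fin J) → ℕ) (N δ : ℝ) (f : Pt J q → ℝ) (ι : Type)
  [Fintype ι] [DecidableEq ι] (S : St ι J q) (θ θn : ℕ → ℝ) (γ ρ b η x l : ℝ) (g : ℕ),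
    S.Inv s gr N δ f θ θn γ ρ b → 0 < l → 0 < η → η ≤ 1 / 2 → Real.exp (-x) ≤ η * b →
    ∃ S' : St ι J q, S'.Inv s gr N δ f (lo θ g (Fintype.card ι * l)) (lo θn g (Fintype.card ι * l))
        (γ + x) (ρ + l) ((1 - 2 * η) * b) ∧ S.Sa S' ∧ S'.G.q = S.G.q ∧
      (∀ a c, S'.G.A a c = (if S.G.g a < g then Real.exp l else 1) * S.G.A a c) ∧
      ∀ a c, S'.G.B a c = (if S.G.g a < g then Real.exp (-l) else 1) * S.G.B a c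

def DIL1 : Prop := ∀ (s J q : ℕ) (gr : Finset (Fin J) → ℕ) (N δ : ℝ) (f : Pt J q → ℝ) (ι : Type)
  [Fintype ι] [DecidableEq ι] (S : St ι J q) (θ θn : ℕ → ℝ) (γ ρ b η x l : ℝ) (g n : ℕ),
    S.Inv s gr N δ f θ θn γ ρ b → 1 ≤ n → (n : ℝ) ≤ Real.exp l → 0 < η → η ≤ 1 / 2 → Real.exp (-x) ≤ η * b →
    ∃ S' : St ι J q, S'.Inv s gr N δ f (lo θ g (Fintype.card ι * l)) (lo θn g (Fintype.card ι * l))
        (γ + x) (ρ + l) ((1 - 2 * η) * b) ∧ S.Sa S' ∧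
      (∀ a c, S'.G.A a c = (if S.G.g a < g then (n : ℝ) else 1) * S.G.A a c) ∧
      (∀ a c, S'.G.B a c = (if S.G.g a < g then (n : ℝ)⁻¹ else 1) * S.G.B a c) ∧
      ∀ j, S.G.g j = g → IsZ (C (n : ℝ) * S.G.q j) → IsZ (S'.G.q j)

def ADD1 : Prop := ∀ (s J q : ℕ) (gr : Finset (Fin J) → ℕ) (N δ : ℝ) (f : Pt J q → ℝ) (ι κ : Type)
  [Fintype ι] [DecidableEq ι] [Fintype κ] [DecidableEq κ] (S : St ι J q) (θ θn : ℕ → ℝ)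
  (γ ρ b η x σ l : ℝ) (g : ℕ) (ty : κ → Finset (Fin J)) (R : κ → MvPolynomial ι ℝ),
    S.Inv s gr N δ f θ θn γ ρ b → (∀ k, (ty k).Nonempty ∧ ty k ≠ univ ∧ gr (ty k) < g ∧
      Ml S.col (ty k) (R k)) → 0 < σ → σ ≤ 1 → 2 ≤ σ * Real.exp l → 0 < η → η ≤ 1 / 2 →
    Real.exp (-x) ≤ η * b →
    ∃ (S' : St (ι ⊕ κ) J q) (ζ : κ → ℝ),
      S'.Inv s gr N δ f (lo θ g (Fintype.card κ * l)) (lo θn g (Fintype.card κ * l)) (γ + x) ρ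
        ((1 - 2 * η) * b) ∧ (∀ k, |ζ k| ≤ 1 / 2) ∧
      S'.col = Sum.elim S.col ty ∧ (∀ c l, S'.en c l = Sum.inl (S.en c l)) ∧ S'.r = S.r ∧ S'.n = S.n ∧
      (∀ a, S'.G.g (Sum.inl a) = S.G.g a) ∧ S'.G.ex = S.G.ex.map ⟨Sum.inl, Sum.inl_injective⟩ ∧
      (∀ a c, S'.G.A (Sum.inl a) (Sum.inl c) = S.G.A a c) ∧
      (∀ a, S'.p (Sum.inl a) = rename Sum.inl (S.p a) ∧ S'.ch (Sum.inl a) = rename Sum.inl (S.ch a)) ∧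
      ∀ k, S'.ch (Sum.inr k) = C σ⁻¹ * (X (Sum.inr k) - rename Sum.inl (R k) - C (ζ k))

def SLI1 : Prop := ∀ (s J q : ℕ) (gr : Finset (Fin J) → ℕ) (N δ : ℝ) (f : Pt J q → ℝ) (ι : Type)
  [Fintype ι] [DecidableEq ι] (S : St ι J q) (θ θn : ℕ → ℝ) (γ ρ b β o l η x y : ℝ) (j : ι)
  (I : MvPolynomial ι ℝ), S.Inv s gr N δ f θ θn γ ρ b → S.G.g j ≠ 0 →
    S.Pv (gp S.G (S.G.g j) ∩ S.G.ex) j β → β ≤ Real.exp o → 1 + β⁻¹ ≤ Real.exp l → 0 < η → η ≤ 1 / 2 →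
    Real.exp (-x) ≤ η * b → IsZ I → S.p j = C y - C β⁻¹ * I →
    ∃ S' : St {a : ι // a ≠ j} J q,
      S'.Inv s gr N δ f (at1 θ (S.G.g j) o) θn (γ + x + l) ρ ((1 - 2 * η) * b) ∧
      S'.pot + 2 * (J + 1) ^ S.G.w j = S.pot

end Vale.Agent.P057T.Cw
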