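import Vale.Agent.P057T.Cw.Dem
import Vale.Agent.P057T.Cw.Fix

/-! Demotion of a narrow exact pivot, from the corrected rows. -/

set_option linter.all false

open MvPolynomial Finset
open scoped Real

namespace Vale.Agent.P057T.Cw

open Vale.Agent.P057T.Eq Vale.Agent.P057L
open Vale.Agent.P057T.Rg (gp tk lo at1)

open Dem in
theorem dem1 (hA : ADD1) (hR : PRT) (hL : SLI1) : DEM := by
  intro s
  obtain ⟨c, hR⟩ := hR s
  obtain ⟨n, hn⟩ := num s c
  refine ⟨s + n + 1, ?_⟩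
  intro J q gr N δ f ι _ _ S θ θn γ ρ b η P Λ x β o l j hI hSz hΛ hθ hγ hx0 hx hl0 hl hη hη2 hb hj
    hP ho hβ
  have hS := hI.ok
  have hP2 := hSz.P2
  have hη0 : 0 < η := lt_of_lt_of_le (Real.exp_pos _) hη
  have hb0 : 0 < b := by
    by_contra k
    have := mul_nonpos_of_nonneg_of_nonpos hη0.le (not_lt.1 k)
    linarith [Real.exp_pos (-x)]
  have hηb := mul_pos hη0 hb0
  obtain ⟨hjV, hβ0, hAj, hA0⟩ := hP
  obtain ⟨y0, R, hp, hRs⟩ := split (S.p j) _ (miss hS j)
  obtain ⟨L, hL0⟩ : ∃ L, L = P ^ n * (l + Λ) := ⟨_, rfl⟩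
  have hL1 : 1 ≤ L := hL0 ▸ one_le_mul_of_one_le_of_one_le (one_le_pw hP2 n) (by linarith)
  have hκJ : Fintype.card {c : Fin J // c ∈ S.col j ∧ 2 ≤ (S.col j).card} ≤ J :=
    (Fintype.card_subtype_le _).trans (Fintype.card_fin J).le
  have hκ : (Fintype.card {c : Fin J // c ∈ S.col j ∧ 2 ≤ (S.col j).card} : ℝ) ≤ s := by
    exact_mod_cast hκJ.trans hS.go.Js
  have hss : ∀ k : {c : Fin J // c ∈ S.col j ∧ 2 ≤ (S.col j).card}, (S.col j).erase k.1 ⊂ S.col j :=
    fun k => erase_ssubset k.2.1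
  obtain ⟨S1, ζ, hI1, -, hcol, -, -, -, hg1, hex1, hA1, hp1, hch1⟩ :=
    hA s J q gr N δ f ι {c : Fin J // c ∈ S.col j ∧ 2 ≤ (S.col j).card} S θ θn γ ρ b (η / 8)
      (x + (3 : ℕ)) (Real.exp (-L)) (L + 1) (S.G.g j) (fun k => (S.col j).erase k.1)
      (fun k => C (-β) * R k) hI
      (fun k => ⟨card_pos.1 (by rw [card_erase_of_mem k.2.1]; have := k.2.2; omega),
        fun e => (notMem_erase k.1 (S.col j)) (e ▸ mem_univ _),
        by rw [hS.gc j hj]; exact hS.go.mono _ _ (hss k) (hS.pr j), fun m hm => by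
          rw [C_mul'] at hm
          obtain ⟨h1, h2⟩ := hRs k m (support_smul hm)
          intro d
          by_cases hd : d = k.1
          · rw [hd, h2]
            exact Nat.zero_le _
          · refine (hS.mp j m h1 d).trans (le_of_eq ?_)
            simp [ic, hd]⟩)
      (Real.exp_pos _) (Real.exp_le_one_iff.2 (by linarith))
      (by rw [← Real.exp_add]; linarith [Real.add_one_le_exp (-L + (L + 1))]) (by linarith)
      (by linarith) (ex_sub 3 (by linarith))
  have he1 : 1 ≤ Real.exp Λ := Real.one_le_exp (by linarith)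
  have heΛ : Λ ≤ Real.exp Λ := by linarith [Real.add_one_le_exp Λ]
  have hps := nat_le_pw hP2 s
  have hpn := one_le_pw hP2 n
  have hp1s := one_le_pw hP2 s
  have hk0 : (0 : ℝ) ≤ Fintype.card {c : Fin J // c ∈ S.col j ∧ 2 ≤ (S.col j).card} :=
    Nat.cast_nonneg _
  have hkl : (Fintype.card {c : Fin J // c ∈ S.col j ∧ 2 ≤ (S.col j).card} : ℝ) * (L + 1) ≤
      P ^ (s + n + 1) * (l + Λ) := by
    have h1 := two_mul_pw hP2 (s + n)
    calc _ ≤ P ^ s * (2 * L) := mul_le_mul (hκ.trans hps) (by linarith) (by linarith) (by linarith)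
      _ = 2 * P ^ (s + n) * (l + Λ) := by rw [hL0]; ring
      _ ≤ _ := mul_le_mul_of_nonneg_right h1 (by linarith)
  have hΩ : 8 * (Real.exp Λ * P ^ (s + n + 1)) ≤ Real.exp Λ * P ^ (n + s + 4) := by
    have h1 : (8 : ℝ) ≤ P ^ 3 := by
      have := pow_le_pow_left₀ (by norm_num : (0 : ℝ) ≤ 2) hP2 3
      linarith
    calc _ ≤ P ^ 3 * (Real.exp Λ * P ^ (s + n + 1)) :=
        mul_le_mul_of_nonneg_right h1 (mul_nonneg (by linarith) (pw_pos hP2 _).le)
      _ = _ := by ring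
  have hΩ1 : Real.exp Λ ≤ Real.exp Λ * P ^ (s + n + 1) :=
    le_mul_of_one_le_right (by linarith) (one_le_pw hP2 _)
  have hΩ2 : P ^ (s + n + 1) * (l + Λ) ≤ 2 * (Real.exp Λ * P ^ (s + n + 1)) := by
    have := mul_le_mul_of_nonneg_left (by linarith : l + Λ ≤ 2 * Real.exp Λ)
      (pw_pos hP2 (s + n + 1)).le
    linarith
  obtain ⟨hb1, hb2, hb3⟩ := nb hη0 hη2 hb0
  obtain ⟨S2, hI2, hG2, hcol2, hp2⟩ := hR J q gr N δ f _ S1 _ _ _ ρ _ (η / 2) (P ^ (s + 2))
    (Real.exp Λ * P ^ (n + s + 4)) (Sum.inl j)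
    (Sum.elim (fun _ => 0) fun _ => -(Real.exp (-L) * β⁻¹)) hI1
    ⟨by
      rw [Fintype.card_sum]
      push_cast
      have := add_pw_le hP2 s 1
      rw [pow_one] at this
      linarith [hSz.cd], hP2.trans (by simpa using pw_le hP2 (by omega : 1 ≤ s + 2)), le_rfl⟩
    (by linarith)
    (fun g => by
      unfold lo
      split_ifs
      · linarith [hθ g]
      · linarith [hθ g])
    (by push_cast; linarith) (by linarith) (by linarith)
    (le_trans (Real.exp_le_exp.2 (by push_cast; linarith))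
      ((ex_sub (x := x) (y := η * b / 8) 3 (by linarith)).trans hb1))
    (fun a ha => by
      rcases a with a | k
      · exact absurd rfl ha
      · rw [hcol]
        exact hss k)
    (by
      refine le_trans (mul_le_mul_of_nonneg_right ?_ (by positivity))
        ((hn P Λ l hP2 hΛ hl0).trans (by linarith))
      rw [Fintype.sum_sum_type]
      simp only [Sum.elim_inl, Sum.elim_inr, abs_zero, sum_const_zero, zero_add, abs_neg, sum_const,
        card_univ, nsmul_eq_mul]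
      rw [abs_of_pos (by positivity), ← hL0]
      exact mul_le_mul hκ (mul_le_mul_of_nonneg_left (by linarith) (Real.exp_pos _).le)
        (by positivity) (Nat.cast_nonneg s))
  have hg2 : S2.G.g (Sum.inl j) = S.G.g j := by rw [hG2, hg1]
  obtain ⟨S3, hI3, hpot⟩ := hL s J q gr N δ f _ S2 _ _ _ ρ _ β o l (η / 8) (x + (4 : ℕ))
    (y0 + β⁻¹ * ∑ k, ζ k) (Sum.inl j) (∑ k, X (Sum.inr k)) hI2 (hg2 ▸ hj)
    ⟨by
      rw [hg2, hG2, hex1]
      exact mem_inter.2 ⟨mem_filter.2 ⟨mem_univ _, hg1 j⟩, mem_map_of_mem _ (mem_inter.1 hjV).2⟩,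
      hβ0, by rw [hG2, hA1, hAj], fun d hd hdj => by
        rw [hg2, hG2, hex1] at hd
        obtain ⟨h1, h2⟩ := mem_inter.1 hd
        obtain ⟨d0, h3, rfl⟩ := mem_map.1 h2
        rw [hG2]
        refine (hA1 j d0).trans (hA0 d0 (mem_inter.2 ⟨mem_filter.2 ⟨mem_univ _, ?_⟩, h3⟩)
          fun e => hdj (by rw [e]; rfl))
        exact (hg1 d0).symm.trans (mem_filter.1 h1).2⟩
    ho hβ (by linarith) (by linarith) ((ex_sub (x := x) (y := η * b / 16) 4 (by linarith)).trans hb2)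
    (isZ_sum _)
    (by
      rw [hp2, (hp1 j).1, hp, Fintype.sum_sum_type]
      simp only [Sum.elim_inl, Sum.elim_inr, C_0, zero_mul, sum_const_zero, zero_add, hch1, map_add,
        map_sum, map_mul, rename_C, mul_sum, add_assoc]
      rw [add_sub_assoc, ← sum_add_distrib, ← sum_sub_distrib]
      congr 1
      refine sum_congr rfl fun k _ => ?_
      have e1 : (C (Real.exp (-L)) : MvPolynomial (ι ⊕ {c : Fin J // c ∈ S.col j ∧
          2 ≤ (S.col j).card}) ℝ) * C (Real.exp (-L))⁻¹ = 1 := by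
        rw [← C_mul, mul_inv_cancel₀ (Real.exp_pos _).ne', C_1]
      have e2 : (C β : MvPolynomial (ι ⊕ {c : Fin J // c ∈ S.col j ∧
          2 ≤ (S.col j).card}) ℝ) * C β⁻¹ = 1 := by
        rw [← C_mul, mul_inv_cancel₀ hβ0.ne', C_1]
      rw [C_neg, C_neg, C_mul]
      linear_combination (-(C β⁻¹ * (X (Sum.inr k) + C β * rename Sum.inl (R k) - C (ζ k)))) * e1 -
        rename Sum.inl (R k) * e2)
  refine ⟨_, inferInstance, inferInstance, S3, hI3.mono (fun g => ?_) (fun g => lo_le hkl)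
    (by push_cast; linarith) le_rfl hb3, ?_⟩
  · rw [hg2]
    exact add_le_add (lo_le hkl) le_rfl
  · have hw : ∀ a, S1.G.w (Sum.inl a) = S.G.w a := fun a => by
      rw [hI1.ok.wc, hcol, hS.wc]
      rfl
    have h1 := pot_le hG2 hex1 hw (e := S.G.w j - 1) fun k => by
      rw [hI1.ok.wc, hcol, hS.wc]
      exact card_erase_of_mem k.2.1
    rw [hG2, hw] at hpot
    have h2 := npot (w := S.G.w j) hκJ (by
      by_cases h3 : 2 ≤ (S.col j).card
      · exact Or.inr (hS.wc j ▸ h3)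
      · have : IsEmpty {c : Fin J // c ∈ S.col j ∧ 2 ≤ (S.col j).card} := ⟨fun k => h3 k.2.2⟩
        exact Or.inl Fintype.card_eq_zero)
    omega

end Vale.Agent.P057T.Cw
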