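import Vale.Agent.P057T.Cw.Defs2
import Vale.Agent.P057T.Rg.Dem

/-! From the Gaussian law of the entries to a box. -/

set_option linter.all false

open MvPolynomial Finset
open scoped Real BigOperators

namespace Vale.Agent.P057T.Cw

open Vale.Agent.P057T.Eq Vale.Agent.P057L Vale.Agent.P057T.Cp
open Vale.Agent.P057T.Rg (gp)

noncomputable section

namespace EndP

variable {ι : Type} [Fintype ι] [DecidableEq ι] {J q : ℕ} {p : Par J q} {tt : Fin J → ℕ}
  {K : Ct ι J q}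

theorem mem0 (h : Cs p tt K) {a : ι} : a ∈ gp K.G 0 ↔ ∃ c τ l, τ < tt c ∧ a = K.en c τ l := by
  rw [← h.g0]; simp [gp]

theorem card0 (h : Cs p tt K) : (gp K.G 0).card = q * ∑ c, tt c := by
  have e : gp K.G 0 = univ.image
      fun x : (Σ c : Fin J, Fin (tt c) × Fin q) => K.en x.1 x.2.1 x.2.2 := by
    ext a
    rw [mem0 h, mem_image]
    constructor
    · rintro ⟨c, τ, l, h1, rfl⟩
      exact ⟨⟨c, ⟨τ, h1⟩, l⟩, mem_univ _, rfl⟩
    · rintro ⟨⟨c, τ, l⟩, -, rfl⟩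
      exact ⟨c, τ, l, τ.2, rfl⟩
  rw [e, card_image_of_injective, card_univ, Fintype.card_sigma, mul_sum]
  · simp [mul_comm]
  · rintro ⟨c, τ, l⟩ ⟨c', τ', l'⟩ hx
    obtain ⟨rfl, h2, rfl⟩ := h.inj _ _ _ _ _ _ τ.2 τ'.2 hx
    rw [Fin.ext h2]

theorem dv0 (h : Cs p tt K) : K.G.dv (gp K.G 0) = p.al⁻¹ ^ (q * ∑ c, tt c) := by
  have e : K.G.B.submatrix (Subtype.val : gp K.G 0 → ι) (Subtype.val : gp K.G 0 → ι) =
      Matrix.diagonal fun _ => p.al⁻¹ := by
    ext a b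
    obtain ⟨c, τ, l, h1, h2⟩ := (mem0 h).1 a.2
    rw [Matrix.submatrix_apply, Matrix.diagonal_apply, h2, (h.ae c τ l b h1).2, ← h2]
    exact if_congr (by rw [eq_comm, Subtype.ext_iff]) rfl rfl
  unfold GT.dv
  rw [e, Matrix.det_diagonal, prod_const, card_univ, Fintype.card_coe, card0 h,
    abs_of_pos (pow_pos (inv_pos.2 h.al0) _)]

theorem bk0 (h : Cs p tt K) : K.G.Bk (gp K.G 0) := fun a b hab => by
  simp only [gp, mem_filter, mem_univ, true_and, (h.ok.blk a b hab).1]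

theorem ph_bd (F : Pt J q → ℝ) {B : ℝ} (hF : ∀ x, 0 ≤ F x ∧ F x ≤ B) (z : ι → ℤ) :
    0 ≤ K.Ph tt F z ∧ K.Ph tt F z ≤ B ^ ∏ c, tt c := by
  refine ⟨prod_nonneg fun _ _ => (hF _).1, ?_⟩
  refine (prod_le_prod (g := fun _ => B) (fun _ _ => (hF _).1) fun _ _ => (hF _).2).trans ?_
  rw [prod_const, Fintype.card_piFinset]
  simp

theorem ph_res (h : Cs p tt K) (F : Pt J q → ℝ) (z : ι → ℤ) :
    K.Ph tt F z = K.Ph tt F (res (gp K.G 0) z) := by
  refine prod_congr rfl fun τ hτ => ?_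
  congr 1
  funext c l
  exact (if_pos ((mem0 h).2 ⟨c, τ c, l, mem_range.1 (Fintype.mem_piFinset.1 hτ c), rfl⟩)).symm

theorem ex_cx (h : Cs p tt K) : ∃ cx : ι → ℝ, (∀ c τ l, τ < tt c → cx (K.en c τ l) = p.cx c l) ∧
    ∀ z : ι → ℤ, K.G.nu (K.T.rs (gp K.G 0)) z =
      Real.exp (-π * ∑ a ∈ gp K.G 0, (p.al * z a - cx a) ^ 2) := by
  refine ⟨fun a => -eval 0 (K.G.ch K.T a), fun c τ l h1 => by simp [h.ch c τ l h1], fun z => ?_⟩
  unfold GT.nu
  congr 2
  refine sum_congr rfl fun a ha => ?_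
  obtain ⟨c, τ, l, h1, rfl⟩ := (mem0 h).1 ha
  have e : K.G.ch (K.T.rs (gp K.G 0)) (K.en c τ l) = K.G.ch K.T (K.en c τ l) := rfl
  have e2 : (K.T.rs (gp K.G 0)).sg (K.en c τ l) = 1 := h.sg _
  rw [e, e2]
  beta_reduce
  rw [h.ch c τ l h1]
  simp [cz]

/-- the Gaussian sum with half the scale -/
theorem tail (V : Finset ι) {al : ℝ} (h0 : 0 < al) (h1 : al ≤ 1) (cx : ι → ℝ) (s : Finset (Lat V)) :
    ∑ z ∈ s, Real.exp (-(π / 4) * ∑ a ∈ V, (al * z.1 a - cx a) ^ 2) ≤ (3 / al) ^ V.card := by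
  classical
  let r : Lat V → V → ℤ := fun z a => z.1 a
  have hr : Function.Injective r := by
    intro z z' e
    refine Subtype.ext (funext fun a => ?_)
    by_cases ha : a ∈ V
    · exact congrFun e ⟨a, ha⟩
    · rw [z.2 a ha, z'.2 a ha]
  let g : V → ℤ → ℝ := fun a n => Real.exp (-π * ((2 / al)⁻¹ * n + -(cx a / 2)) ^ 2)
  have e1 : ∀ z : Lat V, Real.exp (-(π / 4) * ∑ a ∈ V, (al * z.1 a - cx a) ^ 2) =
      ∏ a : V, g a (r z a) := by
    intro z
    simp only [g, r]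
    rw [← Real.exp_sum, mul_sum, ← sum_coe_sort V]
    congr 1
    refine sum_congr rfl fun a _ => ?_
    field_simp
    ring
  simp_rw [e1]
  rw [← sum_image (f := fun x : V → ℤ => ∏ a, g a (x a)) fun x _ y _ e => hr e]
  calc ∑ x ∈ s.image r, ∏ a, g a (x a)
      ≤ ∑ x ∈ Fintype.piFinset fun a => s.image fun z => r z a, ∏ a, g a (x a) := by
        refine sum_le_sum_of_subset_of_nonneg ?_
          fun _ _ _ => prod_nonneg fun _ _ => (Real.exp_pos _).le
        intro x hx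
        obtain ⟨z, hz, rfl⟩ := mem_image.1 hx
        exact Fintype.mem_piFinset.2 fun a => mem_image_of_mem _ hz
    _ = ∏ a : V, ∑ n ∈ s.image fun z => r z a, g a n := (prod_univ_sum _ _).symm
    _ ≤ ∏ _a : V, 3 / al := by
        refine prod_le_prod (fun _ _ => sum_nonneg fun _ _ => (Real.exp_pos _).le) fun a _ => ?_
        refine (Rg.Dem.th1 (by positivity) _ _).trans ?_
        have : 1 ≤ 1 / al := by rw [le_div_iff₀ h0]; linarith
        have e : 3 / al = 1 / al + 2 / al := by ring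
        linarith
    _ = _ := by rw [prod_const, card_univ, Fintype.card_coe]

theorem card_box (H : ℕ) : (Fintype.piFinset fun c : Fin J =>
    Fintype.piFinset fun _ : Fin (tt c) => bz q H).card = H ^ (q * ∑ c, tt c) := by
  simp only [bz, rg, Fintype.card_piFinset, prod_const, card_univ, Fintype.card_fin, Int.card_Ico,
    sub_zero, Int.toNat_natCast, ← pow_mul]
  rw [prod_pow_eq_pow_sum, mul_sum]

/-- the points inside the box -/
theorem inside (h : Cs p tt K) {H : ℕ} (hH : 1 ≤ H) (F : Pt J q → ℝ) (hF : ∀ x, 0 ≤ F x)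
    (o : Pt J q) (s : Finset (Lat (gp K.G 0)))
    (hs : ∀ z ∈ s, ∀ c τ l, τ < tt c → z.1 (K.en c τ l) - o c l ∈ rg H) :
    ∑ z ∈ s, K.Ph tt F z.1 ≤ (H : ℝ) ^ (q * ∑ c, tt c) *
      gridA (fun _ : Fin J => bz q H) tt (fun _ y => F (o + y)) := by
  classical
  let W : Lat (gp K.G 0) → (c : Fin J) → Fin (tt c) → Vz q :=
    fun z c τ l => z.1 (K.en c τ l) - o c l
  have hW : Function.Injective W := by
    intro z z' e
    refine Subtype.ext (funext fun a => ?_)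
    by_cases ha : a ∈ gp K.G 0
    · obtain ⟨c, τ, l, h1, rfl⟩ := (mem0 h).1 ha
      exact sub_left_injective (congrFun (congrFun (congrFun e c) ⟨τ, h1⟩) l)
    · rw [z.2 a ha, z'.2 a ha]
  let Φ : ((c : Fin J) → Fin (tt c) → Vz q) → ℝ :=
    fun w => ∏ τ : (c : Fin J) → Fin (tt c), F (o + fun c => w c (τ c))
  have e1 : ∀ z, K.Ph tt F z.1 = Φ (W z) := by
    intro z
    refine (prod_bij (fun τ _ c => (τ c : ℕ)) ?_ ?_ ?_ ?_).symm
    · exact fun τ _ => Fintype.mem_piFinset.2 fun c => mem_range.2 (τ c).2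
    · exact fun τ _ τ' _ e => funext fun c => Fin.ext (congrFun e c)
    · exact fun τ hτ => ⟨fun c => ⟨τ c, mem_range.1 (Fintype.mem_piFinset.1 hτ c)⟩, mem_univ _, rfl⟩
    · intro τ _
      congr 1
      funext c l
      simp [W]
  simp_rw [e1]
  rw [← sum_image (f := Φ) fun x _ y _ e => hW e]
  have hc := card_box (J := J) (q := q) (tt := tt) H
  have hp : (0 : ℝ) < (H : ℝ) ^ (q * ∑ c, tt c) := by positivity
  unfold gridA
  rw [expect_eq_sum_div_card, hc]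
  push_cast
  rw [mul_div_cancel₀ _ hp.ne']
  refine sum_le_sum_of_subset_of_nonneg ?_ fun _ _ _ => prod_nonneg fun _ _ => hF _
  intro x hx
  obtain ⟨z, hz, rfl⟩ := mem_image.1 hx
  exact Fintype.mem_piFinset.2 fun c => Fintype.mem_piFinset.2 fun τ =>
    Fintype.mem_piFinset.2 fun l => hs z hz c τ l τ.2

theorem far {al cx Z : ℝ} {H : ℕ} {o n : ℤ} (h0 : 0 < al) (hH : 1 ≤ H) (hZ : 0 ≤ Z)
    (hZH : Z ≤ H * al) (hn : n - (o + H * ⌊(cx / al - H / 2 - o) / H⌋) ∉ rg (2 * H)) :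
    Z ^ 2 / 4 ≤ (al * n - cx) ^ 2 := by
  have hH' : (0 : ℝ) < H := by exact_mod_cast hH
  set k := ⌊(cx / al - H / 2 - o) / H⌋ with hk
  have k1 : (k : ℝ) * H ≤ cx / al - H / 2 - o := (le_div_iff₀ hH').1 (Int.floor_le _)
  have k2 : cx / al - H / 2 - o < (k + 1) * H := (div_lt_iff₀ hH').1 (Int.lt_floor_add_one _)
  have e : al * n - cx = al * (n - cx / al) := by field_simp
  rw [e]
  generalize cx / al = y at *
  unfold rg at hn
  rw [mem_Ico, not_and_or, not_le, not_lt] at hn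
  have key : (H : ℝ) / 2 ≤ |n - y| := by
    rcases hn with hn | hn
    · have : (n : ℝ) - (o + H * k) < 0 := by exact_mod_cast hn
      exact le_abs.2 (Or.inr (by linarith))
    · have : ((2 * H : ℕ) : ℝ) ≤ (n : ℝ) - (o + H * k) := by exact_mod_cast hn
      push_cast at this
      exact le_abs.2 (Or.inl (by linarith))
  have h2 : Z / 2 ≤ |al * (n - y)| := by
    rw [abs_mul, abs_of_pos h0]
    nlinarith
  calc Z ^ 2 / 4 = (Z / 2) ^ 2 := by ring
    _ ≤ |al * (n - y)| ^ 2 := by gcongr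
    _ = _ := sq_abs _

end EndP

open EndP

theorem fin (hF : FSB) (hD : DET) : END := by
  classical
  intro J q p tt ι _ _ K H Z B ρ F o h hal hH hZ hZH hB hFB hρ
  obtain ⟨cx, hcx, hnu⟩ := ex_cx h
  let k : Pt J q := fun c l => ⌊(p.cx c l / p.al - H / 2 - o c l) / H⌋
  refine ⟨k, ?_⟩
  have h0 := h.al0
  set E := q * ∑ c, tt c with hE
  set gA := gridA (fun _ : Fin J => bz q (2 * H)) tt (fun _ y => F (o + (H : ℤ) • k + y)) with hgA
  have hb := ph_bd (K := K) (tt := tt) F hFB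
  have hBp : 0 ≤ B ^ ∏ c, tt c := by positivity
  have hin := inside h (H := 2 * H) (by omega) F (fun x => (hFB x).1) (o + (H : ℤ) • k)
  have hg0 : 0 ≤ ((2 * H : ℕ) : ℝ) ^ E * gA := (sum_empty.symm.le).trans (hin ∅ (by simp))
  have key : Ex K.G (K.T.rs (gp K.G 0)) (K.Ph tt F) ≤ ((2 * H : ℕ) : ℝ) ^ E * gA +
      Real.exp (-(Z ^ 2 / 4)) * (3 / p.al) ^ E * B ^ ∏ c, tt c := by
    refine tsum_le_of_sum_le' (by positivity) fun s => ?_
    let P : Lat (gp K.G 0) → Prop := fun z =>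
      ∀ c τ l, τ < tt c → z.1 (K.en c τ l) - (o + (H : ℤ) • k) c l ∈ rg (2 * H)
    rw [← sum_filter_add_sum_filter_not s P]
    refine add_le_add (le_trans (sum_le_sum fun z _ => ?_)
      (hin (s.filter P) fun z hz => (mem_filter.1 hz).2)) ?_
    · rw [smul_eq_mul, hnu]
      refine mul_le_of_le_one_left (hb _).1 (Real.exp_le_one_iff.2 ?_)
      have : 0 ≤ π * ∑ a ∈ gp K.G 0, (p.al * z.1 a - cx a) ^ 2 :=
        mul_nonneg Real.pi_pos.le (sum_nonneg fun _ _ => sq_nonneg _)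
      linarith
    · have ht := tail (gp K.G 0) h0 hal cx (s.filter fun z => ¬ P z)
      rw [card0 h] at ht
      refine le_trans ?_ (mul_le_mul_of_nonneg_right
        (mul_le_mul_of_nonneg_left ht (Real.exp_pos _).le) hBp)
      rw [mul_sum, sum_mul]
      refine sum_le_sum fun z hz => ?_
      rw [smul_eq_mul, hnu, ← Real.exp_add]
      refine mul_le_mul (Real.exp_le_exp.2 ?_) (hb _).2 (hb _).1 (Real.exp_pos _).le
      have hz2 := (mem_filter.1 hz).2
      simp only [P, not_forall] at hz2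
      obtain ⟨c, τ, l, h1, h2⟩ := hz2
      have f1 := far (cx := p.cx c l) (o := o c l) (n := z.1 (K.en c τ l)) h0 hH hZ hZH h2
      rw [← hcx c τ l h1] at f1
      have f2 := single_le_sum (f := fun a => (p.al * z.1 a - cx a) ^ 2) (fun _ _ => sq_nonneg _)
        ((mem0 h).2 ⟨c, τ, l, h1, rfl⟩)
      have f3 : Z ^ 2 / 4 ≤ ∑ a ∈ gp K.G 0, (p.al * z.1 a - cx a) ^ 2 := f1.trans f2
      have f4 := Real.pi_gt_three
      have f5 := sq_nonneg Z
      nlinarith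
  have hfs := hF p.s ι K.G K.T p.ka (K.Ph tt F) _ h.ok h.ao h.un h.sg h.tb hb (ph_res h F)
  obtain ⟨d1, -, d3, -⟩ := hD p.s ι K.G h.ok
  have bu : K.G.Bk univ := fun a b _ => by simp
  have br : K.G.Bk (univ \ gp K.G 0) := fun a b hab => by
    rw [mem_sdiff, mem_sdiff, bk0 h a b hab]; simp
  have hM : Mn K.G K.T = p.al⁻¹ ^ E * K.G.dv (univ \ gp K.G 0) := by
    unfold Mn GT.mn
    rw [h.un, d3 _ _ bu (bk0 h) (subset_univ _), dv0 h]
    simp [h.sg, hE]
  have hd := d1 _ br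
  set S := ∑ a ∈ univ \ gp K.G 0, p.ka (K.G.g a)
  have h1 : ρ * p.al⁻¹ ^ E ≤ Real.exp S * Ex K.G (K.T.rs (gp K.G 0)) (K.Ph tt F) := by
    refine le_of_mul_le_mul_right ?_ hd
    rw [hM] at hρ
    calc _ = ρ * (p.al⁻¹ ^ E * K.G.dv (univ \ gp K.G 0)) := by ring
      _ ≤ _ := hρ.trans hfs
      _ = _ := by ring
  have h2 := h1.trans (mul_le_mul_of_nonneg_left key (Real.exp_pos _).le)
  have h3 := mul_le_mul_of_nonneg_right h2 (show 0 ≤ p.al ^ E * Real.exp (-S) by positivity)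
  have e1 : ρ * p.al⁻¹ ^ E * (p.al ^ E * Real.exp (-S)) = ρ * Real.exp (-S) := by
    rw [inv_pow]; field_simp
  have e2 : Real.exp S * Real.exp (-S) = 1 := by rw [← Real.exp_add]; simp
  have e3 : (3 / p.al) ^ E * p.al ^ E = 3 ^ E := by rw [← mul_pow]; congr 1; field_simp
  rw [e1] at h3
  refine h3.trans ?_
  calc _ = (Real.exp S * Real.exp (-S)) * (((2 * H : ℕ) : ℝ) ^ E * p.al ^ E * gA +
        ((3 / p.al) ^ E * p.al ^ E) * Real.exp (-(Z ^ 2 / 4)) * B ^ ∏ c, tt c) := by ring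
    _ = (2 * H * p.al) ^ E * gA + 3 ^ E * Real.exp (-(Z ^ 2 / 4)) * B ^ ∏ c, tt c := by
        rw [e2, e3, one_mul, ← mul_pow]; push_cast; rfl
    _ ≤ _ := by gcongr; norm_num

end

end Vale.Agent.P057T.Cw
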