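import Vale.Agent.P057T.Cw.Defs

/-!
Removal of typed faces, second part: the chain of copies and the main statement.
-/

open MvPolynomial Finset
open scoped Real BigOperators

namespace Vale.Agent.P057T.Cw

open Vale.Agent.P057T.Eq Vale.Agent.P057L Vale.Agent.P057T.Cp
open Vale.Agent.P057T.Rg (gp tk lo at1)
open Vale.Agent.P057T.Gkh (Cd Frm Twr Cel)

set_option linter.unusedSectionVars false

noncomputable section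

variable {ι : Type} [Fintype ι] [DecidableEq ι] {J q : ℕ}

/-- the function in `[0, 1]` attached to `h`, zero outside the box -/
def nz (N : ℕ) (B : ℝ) (h : Pt J q → ℝ) (x : Pt J q) : ℝ :=
  if x ∈ bp J q N then 1 / 2 + h x / (2 * B) else 0

/-- the tower of the entries -/
def ENT2 : Prop := ∃ C : ℕ, ∀ (s J q N : ℕ) (gr : Finset (Fin J) → ℕ) (h : Pt J q → ℝ) (Y : ℝ),
  Gr J s gr → 2 ≤ J → (C : ℝ) ≤ Y → (J : ℝ) * q ≤ Y → Y ^ C ≤ Real.log N →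
    (∀ x ∈ bp J q N, |h x| ≤ Real.exp Y) → Real.exp (-Y) ≤ 𝔼 x ∈ bp J q N, h x →
    ∃ S : St (Fin J × Fin q) J q, S.Inv s gr N (Real.exp (-Y)) (nz N (Real.exp Y) h) (fun _ => Y)
      (fun _ => Y) 1 (C * Y) (1 / 2 + Real.exp (-(2 * Y)) / 8)

/-- the weight becomes a function of the classes `≥ 1` -/
def EMB2 : Prop := ∀ j s : ℕ, 1 ≤ j → ∃ C : ℕ, ∀ (q N : ℕ) (gr : Finset (Fin (j + 1)) → ℕ) (κ : Type)
  [Fintype κ] [DecidableEq κ] (Y θ : ℝ) (L : List (Cd (j + 1) q)) (ty : κ → Finset (Fin (j + 1)))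
  (F : κ → Pt (j + 1) q → ℝ) (Ψ : Pt j q → (κ → ℝ) → ℝ) (G : Pt (j + 1) q → ℝ),
    Gr (j + 1) s gr → (C : ℝ) ≤ Y → Y ^ C ≤ Real.log N → Inp Y N L ty F Ψ G θ →
    ∃ (ι : Type) (_ : Fintype ι) (_ : DecidableEq ι) (S : St ι (j + 1) q) (u : Pt j q → ℝ),
      (Fintype.card ι : ℝ) ≤ 3 * Y ∧ (∀ W, 0 ≤ u W ∧ u W ≤ 1) ∧ θ ≤ Real.exp Y ∧
      S.Inv s gr N (Real.exp (-Y)) (nz N (Real.exp Y) fun x => u (Fin.tail x) * (G x - θ))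
        (fun _ => Y ^ C) (fun _ => Y ^ C) (Y ^ C) (Y ^ C) (1 / 2 + Real.exp (-(2 * Y)) / 16)

/-- theta bound for the blocks -/
def Tb (G : GT ι) (ka : ℕ → ℝ) : Prop :=
  ∀ (V : Finset ι) (g : ℕ) (x : ι → ℝ), G.Bk V → (∀ a ∈ V, G.g a = g) →
    ∑' z : Lat V, Real.exp (-π * ∑ a ∈ V, (∑ b, G.A a b * (z.1 b : ℝ) - x a) ^ 2) ≤
      Real.exp (ka g * V.card) * G.dv V

/-- the variables that miss the class `c` -/
def Wc (col : ι → Finset (Fin J)) (c : Fin J) : Finset ι := univ.filter fun a => c ∉ col a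

/-- a tower of copies -/
structure Ct (ι : Type) (J q : ℕ) where
  G : GT ι
  T : AT ι
  col : ι → Finset (Fin J)
  en : Fin J → ℕ → Fin q → ι

/-- the fixed data of the chain -/
structure Par (J q : ℕ) where
  s : ℕ
  gr : Finset (Fin J) → ℕ
  al : ℝ
  cx : Fin J → Fin q → ℝ
  D : ℝ
  WW : ℕ → ℝ
  cc : ℕ → ℝ
  ka : ℕ → ℝ
  Y : ℝ

/-- the product over the grid -/
def Ct.Ph (X : Ct ι J q) (tt : Fin J → ℕ) (F : Pt J q → ℝ) (z : ι → ℤ) : ℝ :=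
  ∏ τ ∈ Fintype.piFinset (fun c => range (tt c)), F fun c l => z (X.en c (τ c) l)

structure Cs (p : Par J q) (tt : Fin J → ℕ) (K : Ct ι J q) : Prop where
  ok : K.G.Ok p.s
  ao : K.G.AOk K.T 2
  un : K.T.U = univ
  sg : ∀ a, K.T.sg a = 1
  cl : ∀ c, Col K.G (c1 (Wc K.col c)) ∧ ColT K.T (c1 (Wc K.col c))
  t1 : ∀ c, 1 ≤ tt c
  inj : ∀ c τ l c' τ' l', τ < tt c → τ' < tt c' → K.en c τ l = K.en c' τ' l' →
    c = c' ∧ τ = τ' ∧ l = l'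
  g0 : ∀ a, K.G.g a = 0 ↔ ∃ c τ l, τ < tt c ∧ a = K.en c τ l
  gc : ∀ a, K.G.g a ≠ 0 → K.G.g a = p.gr (K.col a)
  pr : ∀ a, K.col a ≠ univ
  ce : ∀ c τ l, τ < tt c → K.col (K.en c τ l) = {c}
  ch : ∀ c τ l, τ < tt c → K.G.ch K.T (K.en c τ l) = C p.al * X (K.en c τ l) - C (p.cx c l)
  ae : ∀ c τ l b, τ < tt c → K.G.A (K.en c τ l) b = (if b = K.en c τ l then p.al else 0) ∧
    K.G.B (K.en c τ l) b = if b = K.en c τ l then p.al⁻¹ else 0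
  al0 : 0 < p.al
  cn : ∀ e, ((univ.filter fun a => K.col a = e).card : ℝ) ≤ p.D * ∏ c ∈ e, (tt c : ℝ)
  wd : K.G.Wd p.WW
  rd : Rd K.G p.s p.WW p.cc p.Y
  tb : Tb K.G p.ka

/-- the order of the colours: `lv` is the last class that the group misses -/
def GR : Prop := ∀ J : ℕ, 1 ≤ J → ∃ (s : ℕ) (gr : Finset (Fin J) → ℕ) (lv : ℕ → ℕ), Gr J s gr ∧
  Antitone lv ∧ lv 0 + 1 = J ∧ (∀ e (c : Fin J), c ∉ e → (c : ℕ) ≤ lv (gr e)) ∧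
    ∀ e, e ≠ univ → ∃ c : Fin J, c ∉ e ∧ lv (gr e) = c

def TB0 : Prop := ∀ s : ℕ, ∃ c : ℕ, ∀ (ι : Type) [Fintype ι] [DecidableEq ι] (G : GT ι) (WW : ℕ → ℝ)
  (P : ℝ), G.Ok s → G.Wd WW → Sz ι P 1 → Tb G fun g => P ^ c * (1 + WW g)

/-- the first state -/
def INIT : Prop := ∀ (s J q : ℕ) (gr : Finset (Fin J) → ℕ) (ι : Type) [Fintype ι] [DecidableEq ι]
  (S : St ι J q) (D Y : ℝ) (WW cc ka : ℕ → ℝ), S.Ok s gr → (Fintype.card ι : ℝ) ≤ D → S.G.Wd WW →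
    Rd S.G s WW cc Y → Tb S.G ka →
    ∃ cx, Cs ⟨s, gr, S.al, cx, D, WW, cc, ka, Y⟩ (fun _ => 1)
      ⟨S.G, S.AT, S.col, fun c _ l => S.en c l⟩

/-- copies keep widths, regularity and theta bounds -/
def CPD : Prop := ∀ (s : ℕ) (ι Γ K : Type) [Fintype ι] [DecidableEq ι] [Fintype Γ] [DecidableEq Γ]
  [Fintype K] [DecidableEq K] [Inhabited K] (G : GT ι) (col : ι → Finset Γ), G.Ok s → Col G col →
    (∀ WW, G.Wd WW → (cp G col K).Wd WW) ∧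
    (∀ WW cc Y, Rd G s WW cc Y → Rd (cp G col K) s WW cc Y) ∧
    ∀ ka, Tb G ka → Tb (cp G col K) ka

/-- copies of the class `i` -/
def CPS : Prop := ∀ (J q : ℕ) (p : Par J q) (tt : Fin J → ℕ) (ι : Type) [Fintype ι] [DecidableEq ι]
  (K : Ct ι J q) (i : Fin J) (t : ℕ), Cs p tt K → tt i = 1 → 1 ≤ t →
    ∃ (ι' : Type) (_ : Fintype ι') (_ : DecidableEq ι') (K' : Ct ι' J q),
      Cs p (Function.update tt i t) K' ∧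
      Mn K'.G K'.T = Mn K.G (K.T.rs (K.T.U ∩ Wc K.col i)) * K.G.mn K.T.sg (K.T.U \ Wc K.col i) ^ t ∧
      ∀ (F : Pt J q → ℝ) (B : ℝ), (∀ x, 0 ≤ F x ∧ F x ≤ B) →
        Ex K'.G K'.T (K'.Ph (Function.update tt i t) F) =
          Ex K.G (K.T.rs (K.T.U ∩ Wc K.col i)) fun y => Fs K.G K.T (Wc K.col i) (K.Ph tt F) y ^ t

/-- mass of a closed part whose groups are regular -/
def SUBM : Prop := ∀ s : ℕ, ∃ c : ℕ, ∀ (ι : Type) [Fintype ι] [DecidableEq ι] (G : GT ι) (T : AT ι)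
  (WW cc : ℕ → ℝ) (P Y : ℝ) (W : Finset ι), G.Ok s → Sz ι P Y → G.AOk T P → Cls G T W → G.Wd WW →
    Rd G s WW cc Y → (∀ a ∈ W, P ^ c ≤ cc (G.g a)) →
    Ex G (T.rs (T.U ∩ W)) (fun _ => (1 : ℝ)) ≤ (1 + Real.exp (-Y)) * Mn G (T.rs (T.U ∩ W))

/-- one step of the chain -/
def STEP : Prop := ∀ s : ℕ, ∃ c : ℕ, ∀ (J q : ℕ) (p : Par J q) (tt : Fin J → ℕ) (ι : Type) [Fintype ι]
  [DecidableEq ι] (K : Ct ι J q) (i : Fin J) (t : ℕ) (P B ρ : ℝ) (F : Pt J q → ℝ), p.s = s →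
    Cs p tt K → tt i = 1 → 1 ≤ t → Sz ι P p.Y → (∀ a ∈ Wc K.col i, P ^ c ≤ p.cc (K.G.g a)) →
    (∀ x, 0 ≤ F x ∧ F x ≤ B) → 0 ≤ ρ → ρ * Mn K.G K.T ≤ Ex K.G K.T (K.Ph tt F) →
    ∃ (ι' : Type) (_ : Fintype ι') (_ : DecidableEq ι') (K' : Ct ι' J q),
      Cs p (Function.update tt i t) K' ∧
      (ρ * Real.exp (-Real.exp (-p.Y))) ^ t * Mn K'.G K'.T ≤
        Ex K'.G K'.T (K'.Ph (Function.update tt i t) F)

/-- the first step of the chain -/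
def FST : Prop := ∀ s : ℕ, ∃ c : ℕ, ∀ (j q : ℕ) (p : Par (j + 1) q) (ι : Type) [Fintype ι]
  [DecidableEq ι] (K : Ct ι (j + 1) q) (t : ℕ) (P B κ ε θ : ℝ) (F : Pt (j + 1) q → ℝ)
  (u : Pt j q → ℝ), p.s = s → Cs p (fun _ => 1) K → 1 ≤ t → Sz ι P p.Y → (∀ g, P ^ c ≤ p.cc g) →
    (∀ x, 0 ≤ F x ∧ F x ≤ B) → (∀ W, 0 ≤ u W ∧ u W ≤ 1) → 0 ≤ θ → 0 < ε → ε ≤ 1 → 0 < κ → κ ≤ B →
    8 * B * Real.exp (-p.Y) ≤ κ * ε →
    κ * Ex K.G K.T (fun _ => (1 : ℝ)) ≤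
      Ex K.G K.T (fun z => u (fun c l => z (K.en c.succ 0 l)) * (F (fun c l => z (K.en c 0 l)) - θ)) →
    ∃ (ι' : Type) (_ : Fintype ι') (_ : DecidableEq ι') (K' : Ct ι' (j + 1) q),
      Cs p (Function.update (fun _ => 1) 0 t) K' ∧
      κ / (8 * B) * ((1 - ε) * θ) ^ t * Mn K'.G K'.T ≤
        Ex K'.G K'.T (K'.Ph (Function.update (fun _ => 1) 0 t) F)

/-- drop all windows outside group `0` -/
def FSB : Prop := ∀ (s : ℕ) (ι : Type) [Fintype ι] [DecidableEq ι] (G : GT ι) (T : AT ι) (ka : ℕ → ℝ)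
  (φ : (ι → ℤ) → ℝ) (B : ℝ), G.Ok s → G.AOk T 2 → T.U = univ → (∀ a, T.sg a = 1) → Tb G ka →
    (∀ z, 0 ≤ φ z ∧ φ z ≤ B) → (∀ z, φ z = φ (res (gp G 0) z)) →
    Ex G T φ ≤ Real.exp (∑ a ∈ univ \ gp G 0, ka (G.g a)) * G.dv (univ \ gp G 0) *
      Ex G (T.rs (gp G 0)) φ

/-- from the Gaussian law of the entries to a box -/
def END : Prop := ∀ (J q : ℕ) (p : Par J q) (tt : Fin J → ℕ) (ι : Type) [Fintype ι] [DecidableEq ι]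
  (K : Ct ι J q) (H : ℕ) (Z B ρ : ℝ) (F : Pt J q → ℝ) (o : Pt J q), Cs p tt K → p.al ≤ 1 → 1 ≤ H →
    0 ≤ Z → Z ≤ H * p.al → 1 ≤ B → (∀ x, 0 ≤ F x ∧ F x ≤ B) →
    ρ * Mn K.G K.T ≤ Ex K.G K.T (K.Ph tt F) →
    ∃ k : Pt J q, ρ * Real.exp (-∑ a ∈ univ \ gp K.G 0, p.ka (K.G.g a)) ≤
      (2 * H * p.al) ^ (q * ∑ c, tt c) *
          gridA (fun _ : Fin J => bz q (2 * H)) tt (fun _ y => F (o + (H : ℤ) • k + y)) +
        6 ^ (q * ∑ c, tt c) * Real.exp (-(Z ^ 2 / 4)) * B ^ ∏ c, tt c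

/-- The main statement: a weighted excess with faces of proper types gives a grid on a sub-box of
one of `exp (Y ^ C)` shapes. -/
def CSTW (j : ℕ) : Prop := ∃ C : ℕ, ∀ Y ε : ℝ, (C : ℝ) ≤ Y → Y⁻¹ ≤ ε → ε ≤ 1 / 2 → ∃ t : ℕ, 1 ≤ t ∧
  (t : ℝ) ≤ Y ^ C ∧ ∀ (q N : ℕ) (κ : Type) [Fintype κ] [DecidableEq κ] (θ : ℝ)
    (L : List (Cd (j + 1) q)) (ty : κ → Finset (Fin (j + 1))) (F : κ → Pt (j + 1) q → ℝ)
    (Ψ : Pt j q → (κ → ℝ) → ℝ) (G : Pt (j + 1) q → ℝ), Y ^ C ≤ Real.log N → Real.exp (-Y) ≤ θ →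
    Inp Y N L ty F Ψ G θ →
    ∃ (n M : ℕ) (r k : Pt (j + 1) q), 1 ≤ n ∧ 2 * n ≤ M ∧ (M : ℝ) ≤ Real.exp (Y ^ C) ∧
      (∀ c l, 0 ≤ r c l ∧ r c l < n ∧ |k c l| ≤ 2 * M) ∧
      ((1 - ε) * θ) ^ t ^ (j + 1) ≤ gridA (fun _ : Fin (j + 1) => bz q (2 * (N / M))) (fun _ => t)
        fun _ y => G (r + (n : ℤ) • (((N / M : ℕ) : ℤ) • k + y))

end

end Vale.Agent.P057T.Cw
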