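import Vale.Agent.P057T.Cw.Ent
import Vale.Agent.P057T.Cw.Defs2

/-! The tower of the entries, function cut to the box. -/

set_option linter.all false

open MvPolynomial Finset
open scoped Real BigOperators

namespace Vale.Agent.P057T.Cw

open Vale.Agent.P057T.Eq Vale.Agent.P057L Vale.Agent.P057T.Cp Vale.Agent.P057T.Poi
open Vale.Agent.P057T.Rg (gp tk lo at1)
open Vale.Agent.P267.H775 (qf toR)

noncomputable section

namespace Ent2P

open EntP

variable {J q : ℕ}

theorem hit2 (al : ℝ) (c : Fin J × Fin q → ℤ) (N : ℕ) (B : ℝ) (h : Pt J q → ℝ) :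
    (S0 J q al c).hit (nz N B h) =
      ∑ x ∈ bp J q N, gq (al • 1) (toR ((fun a : Fin J × Fin q => x a.1 a.2) - c)) *
        (1 / 2 + h x / (2 * B)) := by
  let e : Pt J q ≃ (Fin J × Fin q → ℤ) :=
    { toFun := fun x => (fun a => x a.1 a.2) - c
      invFun := fun z => (S0 J q al c).xs z
      left_inv := fun x => by funext i l; simp [St.xs, S0]
      right_inv := fun z => by funext a; simp [St.xs, S0] }
  have s2 : HasSum (fun z => gq (al • 1) (toR z) * nz N B h ((S0 J q al c).xs z))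
      (∑ x ∈ bp J q N, gq (al • 1) (toR ((fun a : Fin J × Fin q => x a.1 a.2) - c)) *
        (1 / 2 + h x / (2 * B))) := by
    rw [← e.hasSum_iff]
    have := hasSum_sum_of_ne_finset_zero (L := SummationFilter.unconditional _) (s := bp J q N)
      (f := fun x => gq (al • 1) (toR (e x)) * nz N B h x)
      (fun b hb => by rw [nz, if_neg hb, mul_zero])
    rw [sum_congr rfl fun z hz => by rw [nz, if_pos hz]] at this
    refine HasSum.congr_fun this fun x => ?_
    have : (S0 J q al c).xs (e x) = x := e.left_inv x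
    simp only [Function.comp, this]
  rw [← s2.tsum_eq]
  exact tsum_congr fun z => by rw [wt_eq]

theorem num (Y N : ℝ) (hY : 20 ≤ Y) (hN : Real.exp (10 * Y) ≤ N) :
    Y * (Real.exp (4 * Y) / N) ≤ 3 / 10 ∧ 1 ≤ N * Real.exp (-(3 * Y)) ∧
      2 * (Y * (4 * Real.exp (-(3 * Y)))) ≤ Real.exp (-(2 * Y)) / 8 := by
  have N0 : 0 < N := (Real.exp_pos _).trans_le hN
  have e1 : Y ^ 3 / 6 ≤ Real.exp Y := by
    have := Real.pow_div_factorial_le_exp Y (by linarith) 3
    simpa [Nat.factorial] using this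
  have e0 := Real.exp_pos Y
  have a3 : 64 * Y ≤ Real.exp Y := by nlinarith [mul_le_mul hY hY (by norm_num) (by linarith)]
  refine ⟨?_, ?_, ?_⟩
  · rw [← mul_div_assoc, div_le_iff₀ N0]
    have a1 : Real.exp (4 * Y) * Real.exp Y ≤ N := by
      rw [← Real.exp_add]; exact (Real.exp_le_exp.2 (by linarith)).trans hN
    have a2 := Real.exp_pos (4 * Y)
    nlinarith
  · rw [Real.exp_neg, ← div_eq_mul_inv, le_div_iff₀ (Real.exp_pos _), one_mul]
    exact (Real.exp_le_exp.2 (by linarith)).trans hN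
  · have : Real.exp (-(2 * Y)) = Real.exp Y * Real.exp (-(3 * Y)) := by
      rw [← Real.exp_add]; ring_nf
    rw [this]
    nlinarith [Real.exp_pos (-(3 * Y))]

theorem tau (Y : ℝ) (D : ℕ) (hY : 20 ≤ Y) (hD' : (D : ℝ) ≤ Y) :
    Real.exp (-(3 / 4 * π * Real.exp (2 * Y))) * 2 ^ D ≤ Real.exp (-(2 * Y)) / 8 := by
  have a1 : (2 : ℝ) ^ D ≤ Real.exp Y := by
    refine (pow_le_pow_left₀ (by norm_num) (show (2 : ℝ) ≤ Real.exp 1 by
      linarith [Real.exp_one_gt_d9]) _).trans ?_
    rw [← Real.exp_nat_mul, mul_one]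
    exact Real.exp_le_exp.2 hD'
  have a2 : Real.exp (-(3 / 4 * π * Real.exp (2 * Y))) ≤ Real.exp (-(3 * Y) - 7) := by
    have := Real.add_one_le_exp (2 * Y)
    have := Real.pi_gt_three
    exact Real.exp_le_exp.2 (by nlinarith)
  have a3 : Real.exp (-(3 * Y) - 7) * Real.exp Y = Real.exp (-(2 * Y)) / Real.exp 7 := by
    rw [← Real.exp_add, ← Real.exp_sub]; ring_nf
  refine (mul_le_mul a2 a1 (by positivity) (by positivity)).trans ?_
  rw [a3]
  exact div_le_div_of_nonneg_left (by positivity) (by norm_num)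
    (by linarith [Real.add_one_le_exp 7])

theorem cardC (Y a : ℝ) (D N R : ℕ) (hD' : (D : ℝ) ≤ Y)
    (R2 : (R : ℝ) ≤ 2 * (N * Real.exp (-(3 * Y))))
    (n3 : 2 * (Y * (4 * Real.exp (-(3 * Y)))) ≤ a) (a1' : a ≤ 1) :
    ((N : ℝ) + 2 * R) ^ D ≤ (1 + a) * (N : ℝ) ^ D := by
  have a1 : (N : ℝ) + 2 * R ≤ Real.exp (4 * Real.exp (-(3 * Y))) * N := by
    have := mul_le_mul_of_nonneg_right (Real.add_one_le_exp (4 * Real.exp (-(3 * Y))))
      (Nat.cast_nonneg N)
    linarith
  refine (pow_le_pow_left₀ (by positivity) a1 _).trans ?_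
  rw [mul_pow, ← Real.exp_nat_mul]
  refine mul_le_mul_of_nonneg_right ?_ (by positivity)
  have a2 : (D : ℝ) * (4 * Real.exp (-(3 * Y))) ≤ a / 2 :=
    (mul_le_mul_of_nonneg_right hD' (by positivity)).trans (by linarith)
  have a0 : 0 ≤ a / 2 := le_trans (by positivity) a2
  refine (Real.exp_le_exp.2 a2).trans ?_
  have := Real.abs_exp_sub_one_le (x := a / 2) (by rw [abs_of_nonneg a0]; linarith)
  rw [abs_of_nonneg a0] at this
  linarith [le_abs_self (Real.exp (a / 2) - 1)]

theorem key {t n a s C : ℝ} (t0 : 0 < t) (n0 : 0 < n) (a0 : 0 < a) (a1 : a ≤ 1 / 8)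
    (hC : C ≤ (1 + a) * n) (hs : (1 / 2 + 4 * a) * n ≤ s) :
    C * ((1 / 2 + a) * t) ≤ (1 - a) * t * s := by
  have b1 := mul_le_mul_of_nonneg_right hC (show 0 ≤ (1 / 2 + a) * t by positivity)
  have b2 := mul_le_mul_of_nonneg_left hs (show 0 ≤ (1 - a) * t by
    apply mul_nonneg <;> linarith)
  have b3 : (1 + a) * (1 / 2 + a) ≤ (1 - a) * (1 / 2 + 4 * a) := by nlinarith
  have b4 := mul_le_mul_of_nonneg_right b3 (mul_pos n0 t0).le
  nlinarith

theorem avg (N : ℕ) (h : Pt J q → ℝ) (Y al : ℝ) (hY' : 20 ≤ Y) (hD' : ((J * q : ℕ) : ℝ) ≤ Y)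
    (N0 : (0 : ℝ) < N) (ha : 0 < al) (haN : al * N = Real.exp (4 * Y))
    (n2 : 1 ≤ N * Real.exp (-(3 * Y)))
    (n3 : 2 * (Y * (4 * Real.exp (-(3 * Y)))) ≤ Real.exp (-(2 * Y)) / 8)
    (hb : ∀ x ∈ bp J q N, |h x| ≤ Real.exp Y) (hE : Real.exp (-Y) ≤ 𝔼 x ∈ bp J q N, h x) :
    ∃ c : Fin J × Fin q → ℤ,
      (1 / 2 + Real.exp (-(2 * Y)) / 8) * th (al • (1 : Matrix (Fin J × Fin q) _ ℝ)) 0 ≤
      ∑ x ∈ bp J q N, gq (al • 1) (toR ((fun a : Fin J × Fin q => x a.1 a.2) - c)) *
        (1 / 2 + h x / (2 * Real.exp Y)) := by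
  have hcard : Fintype.card (Fin J × Fin q) = J * q := by simp
  set M : Matrix (Fin J × Fin q) (Fin J × Fin q) ℝ := al • 1 with hMdef
  have hM : M.det ≠ 0 := det_smul_ne ha.ne' (by simp)
  have t0 : 0 < th M 0 := th_pos hM 0
  have a1 : Real.exp (-(2 * Y)) / 8 ≤ 1 / 8 :=
    div_le_div_of_nonneg_right (Real.exp_le_one_iff.2 (by linarith)) (by norm_num)
  obtain ⟨R, hR⟩ : ∃ R : ℕ, R = ⌈(N : ℝ) * Real.exp (-(3 * Y))⌉₊ := ⟨_, rfl⟩
  have R1 : (N : ℝ) * Real.exp (-(3 * Y)) ≤ R := hR ▸ Nat.le_ceil _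
  have R2 : (R : ℝ) ≤ 2 * (N * Real.exp (-(3 * Y))) := by
    rw [hR]; exact (Nat.ceil_lt_add_one (by positivity)).le.trans (by linarith)
  set Cs : Finset (Fin J × Fin q → ℤ) :=
    Fintype.piFinset fun _ => Ico (-(R : ℤ)) (N + R) with hCs
  have cC : (Cs.card : ℝ) ≤ (1 + Real.exp (-(2 * Y)) / 8) * (N : ℝ) ^ (J * q) := by
    have : Cs.card = (N + 2 * R) ^ (J * q) := by
      rw [hCs, Fintype.card_piFinset, prod_const, card_univ, hcard, Int.card_Ico]
      congr 1; omega
    rw [this]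
    push_cast
    exact cardC Y _ _ N R hD' R2 n3 (by linarith)
  have cne : Cs.Nonempty := ⟨0, by
    rw [hCs, Fintype.mem_piFinset]
    intro a
    have : 0 < N := by exact_mod_cast N0
    simp only [Pi.zero_apply, mem_Ico]; omega⟩
  have eY := Real.exp_pos Y
  have ei : Real.exp (4 * Y) * Real.exp (-(3 * Y)) = Real.exp Y := by
    rw [← Real.exp_add]; ring_nf
  have e2 : Real.exp (2 * Y) = Real.exp Y * Real.exp Y := by rw [← Real.exp_add]; ring_nf
  have cb : (bp J q N).card = N ^ (J * q) := by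
    simp [bp, bz, rg, Fintype.card_piFinset, ← pow_mul, mul_comm]
  have hsum : Real.exp (-Y) * (N : ℝ) ^ (J * q) ≤ ∑ x ∈ bp J q N, h x := by
    rw [expect_eq_sum_div_card, cb, le_div_iff₀ (by push_cast; positivity)] at hE
    exact_mod_cast hE
  have hs2 : (1 / 2 + 4 * (Real.exp (-(2 * Y)) / 8)) * (N : ℝ) ^ (J * q) ≤
      ∑ x ∈ bp J q N, (1 / 2 + h x / (2 * Real.exp Y)) := by
    rw [sum_add_distrib, sum_const, nsmul_eq_mul, cb, ← sum_div]
    have b1 : Real.exp (-(2 * Y)) = Real.exp (-Y) / Real.exp Y := by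
      rw [← Real.exp_sub]; ring_nf
    have b2 := div_le_div_of_nonneg_right hsum (show 0 ≤ 2 * Real.exp Y by positivity)
    refine le_trans (le_of_eq ?_) (add_le_add le_rfl b2)
    rw [b1]; push_cast; field_simp; ring
  obtain ⟨c, -, hc⟩ := exists_le_of_sum_le cne
    (f := fun _ => (1 / 2 + Real.exp (-(2 * Y)) / 8) * th M 0)
    (g := fun c => ∑ x ∈ bp J q N, gq M (toR ((fun a : Fin J × Fin q => x a.1 a.2) - c)) *
      (1 / 2 + h x / (2 * Real.exp Y))) (by
      rw [sum_comm, sum_const, nsmul_eq_mul]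
      have k : ∀ x ∈ bp J q N, (1 - Real.exp (-(2 * Y)) / 8) * th M 0 *
            (1 / 2 + h x / (2 * Real.exp Y)) ≤
          ∑ c ∈ Cs, gq M (toR ((fun a : Fin J × Fin q => x a.1 a.2) - c)) *
            (1 / 2 + h x / (2 * Real.exp Y)) := by
        intro x hx
        obtain ⟨-, w2⟩ := win hM Cs (fun a => x a.1 a.2) (Real.exp (2 * Y)) (fun z hz => by
          rw [hCs, Fintype.mem_piFinset]
          intro a
          have b1 : (al * z a) ^ 2 < Real.exp Y ^ 2 := by
            rw [hMdef, qf_sc] at hz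
            have := single_le_sum (f := fun a => (al * toR z a) ^ 2) (fun _ _ => sq_nonneg _)
              (mem_univ a)
            rw [sq (Real.exp Y), ← e2]
            exact this.trans_lt hz
          have b2 := abs_lt_of_sq_lt_sq b1 eY.le
          rw [abs_mul, abs_of_pos ha] at b2
          have b3 : |(z a : ℝ)| < R := by
            refine lt_of_lt_of_le (lt_of_mul_lt_mul_left ?_ ha.le) R1
            rw [← mul_assoc, haN, ei]; exact b2
          have b4 : |z a| < R := by exact_mod_cast b3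
          have b5 : x a.1 a.2 ∈ rg N := by
            have : ∀ k m, x k m ∈ rg N := by simpa [bp, bz] using hx
            exact this _ _
          rw [rg, mem_Ico] at b5
          rw [abs_lt] at b4
          simp only [Pi.sub_apply, mem_Ico]
          omega)
        rw [hcard] at w2
        rw [← sum_mul]
        have b6 : -(1 / 2) ≤ h x / (2 * Real.exp Y) := by
          rw [le_div_iff₀ (by positivity)]; linarith [(abs_le.1 (hb x hx)).1]
        refine mul_le_mul_of_nonneg_right (le_trans ?_ w2) (by linarith)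
        have := mul_le_mul_of_nonneg_right (tau Y _ hY' hD') t0.le
        linarith
      refine le_trans ?_ (sum_le_sum k)
      rw [← mul_sum]
      exact key t0 (by positivity) (by positivity) a1 cC hs2)
  exact ⟨c, hc⟩

end Ent2P

open EntP in
theorem ent2 : ENT2 := by
  refine ⟨20, fun s J q N gr h Y hg hJ hY hD hN hb hE => ?_⟩
  have hY' : (20 : ℝ) ≤ Y := by exact_mod_cast hY
  have h10 : 10 * Y ≤ Real.log N := by
    refine le_trans ?_ hN
    have : Y ^ 2 ≤ Y ^ 20 := pow_le_pow_right₀ (by linarith) (by norm_num)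
    nlinarith
  have N0 : (0 : ℝ) < N := by
    rcases Nat.eq_zero_or_pos N with h0 | h0
    · rw [h0] at h10; simp at h10; linarith
    · exact_mod_cast h0
  have hN' : Real.exp (10 * Y) ≤ N := (Real.le_log_iff_exp_le N0).1 h10
  obtain ⟨n1, n2, n3⟩ := Ent2P.num Y N hY' hN'
  obtain ⟨al, hal⟩ : ∃ al, al = Real.exp (4 * Y) / N := ⟨_, rfl⟩
  rw [← hal] at n1
  have ha : 0 < al := by rw [hal]; positivity
  have haN : al * N = Real.exp (4 * Y) := by rw [hal]; field_simp
  have hD' : ((J * q : ℕ) : ℝ) ≤ Y := by push_cast; exact hD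
  have hcard : Fintype.card (Fin J × Fin q) = J * q := by simp
  set M : Matrix (Fin J × Fin q) (Fin J × Fin q) ℝ := al • 1 with hMdef
  have hM : M.det ≠ 0 := det_smul_ne ha.ne' (by simp)
  have hdet : |M.det| = al ^ (J * q) := by
    rw [hMdef, Matrix.det_smul]; simp [abs_of_pos ha]
  have pD : 0 < al ^ (J * q) := pow_pos ha _
  have t0 : 0 < th M 0 := th_pos hM 0
  have lo1 : (al ^ (J * q))⁻¹ ≤ th M 0 := by
    have := one_le_th (det_dual hM)
    rw [th_dual hM, hdet] at this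
    rw [inv_le_iff_one_le_mul₀ pD]; linarith
  have up1 : th M 0 ≤ Real.exp Y * (al ^ (J * q))⁻¹ := by
    have := p1 hM ha.le (fun i j => by
      simp only [hMdef, Matrix.smul_apply, Matrix.one_apply, smul_eq_mul]
      split_ifs <;> simp [abs_of_pos ha, ha.le]) 0
    rw [hdet, hcard] at this
    rw [← div_eq_mul_inv, le_div_iff₀ pD, mul_comm]
    refine this.trans ?_
    have a1 : 2 * (1 + ((J * q : ℕ) : ℝ) * al) ≤ Real.exp 1 := by
      have := Real.exp_one_gt_d9
      nlinarith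
    refine (pow_le_pow_left₀ (by positivity) a1 _).trans ?_
    rw [← Real.exp_nat_mul, mul_one]
    exact Real.exp_le_exp.2 hD'
  have eY := Real.exp_pos Y
  obtain ⟨c, hc⟩ := Ent2P.avg N h Y al hY' hD' N0 ha haN n2 n3 hb hE
  have hms : (S0 J q al c).ms = th M 0 := by
    rw [th_zero]; exact tsum_congr fun z => wt_eq al c z
  have one : (1 : ℝ) ≤ Real.exp Y * 1 := by
    rw [mul_one]; exact Real.one_le_exp (by linarith)
  refine ⟨S0 J q al c, ok hg hJ ha c, fun x => ?_, fun g => ?_, fun g => ?_, ?_, ?_, ?_, ?_, ?_⟩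
  · unfold nz
    split_ifs with hx
    · have b := abs_le.1 (hb x hx)
      have b1 : -(1 / 2) ≤ h x / (2 * Real.exp Y) := by
        rw [le_div_iff₀ (by positivity)]; linarith
      have b2 : h x / (2 * Real.exp Y) ≤ 1 / 2 := by
        rw [div_le_iff₀ (by positivity)]; linarith
      constructor <;> linarith
    · norm_num
  · by_cases h0 : g = 0
    · have : gp (S0 J q al c).G g = univ := by ext a; simp [gp, S0, h0]
      rw [this, dv_univ ha]
      refine le_trans (le_of_eq ?_) up1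
      rw [th_zero]
      exact tsum_congr fun z => Set.indicator_of_mem (fun a ha => absurd (mem_univ a) ha) _
    · have : gp (S0 J q al c).G g = ∅ := by ext a; simp [gp, S0, Ne.symm h0]
      rw [this, dv_empty, tk_empty]; exact one
  · have : gp (S0 J q al c).G g \ (S0 J q al c).G.ex = ∅ := by simp [S0]
    rw [this, dv_empty, tk_empty]; exact one
  · rw [hms, dv_univ ha]
    exact (mul_le_of_le_one_left (by positivity) (Real.exp_le_one_iff.2 (by norm_num))).trans lo1
  · show ((1 : ℕ) : ℝ) ≤ _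
    rw [Nat.cast_one]; exact Real.one_le_exp (by positivity)
  · show al * N ≤ _
    rw [haN]; exact Real.exp_le_exp.2 (by push_cast; linarith)
  · show ((1 : ℕ) : ℝ) ≤ _ * (al * N)
    rw [haN, Nat.cast_one, ← Real.exp_add]; exact Real.one_le_exp (by linarith)
  · rw [hms, Ent2P.hit2]
    exact hc

end

end Vale.Agent.P057T.Cw
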