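import Vale.Agent.P057T.Cw.Defs2
import Vale.Agent.P057T.Cp.Fub
import Vale.Agent.P057T.Eq.Det

/-!
Row `FSB`: all windows outside group `0` are dropped, stage by stage.
-/

open MvPolynomial Finset
open scoped Real BigOperators

namespace Vale.Agent.P057T.Cw

open Vale.Agent.P057T.Eq Vale.Agent.P057T.Cp Vale.Agent.P057T.Eq.Br
open Vale.Agent.P057T.Rg (gp)

set_option linter.unusedSectionVars false

noncomputable section

namespace FsbP

variable {ι : Type} [Fintype ι] [DecidableEq ι] {s : ℕ} {G : GT ι} {T : AT ι}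

/-- group `0` and the stages `< n` -/
def UU (G : GT ι) (s n : ℕ) : Finset ι := univ.filter fun a => G.g a = 0 ∨ stg G s a < n

theorem mem_UU {n : ℕ} {a : ι} : a ∈ UU G s n ↔ G.g a = 0 ∨ stg G s a < n := by simp [UU]

theorem mem_gp {g : ℕ} {a : ι} : a ∈ gp G g ↔ G.g a = g := by simp [gp]

theorem bk_UU (hG : G.Ok s) (n : ℕ) : G.Bk (UU G s n) := fun a b h => by
  rw [mem_UU, mem_UU, stg, stg, (hG.blk a b h).1, (hG.blk a b h).2]

theorem bk_gp (hG : G.Ok s) (g : ℕ) : G.Bk (gp G g) := fun a b h => by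
  rw [mem_gp, mem_gp, (hG.blk a b h).1]

theorem cls (hG : G.Ok s) {P : ℝ} (hT : G.AOk T P) (n : ℕ) : Cls G T (UU G s n) where
  bk := bk_UU hG n
  qv a ha b hb := by
    have h1 := hG.ql a b hb
    rcases mem_UU.1 ha with h | h
    · omega
    · exact mem_UU.2 (Or.inr ((stg_lt_of_g hG h1).trans h))
  pv a hU ha b hb := by
    have h1 := hT.pl a hU b hb
    have h2 := vars_w (hT.pd a hU) hb
    rcases mem_UU.1 ha with h | h
    · exact mem_UU.2 (Or.inl (by omega))
    · refine mem_UU.2 (Or.inr (lt_trans ?_ h))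
      have h3 : G.g b * (s + 1) ≤ G.g a * (s + 1) := Nat.mul_le_mul_right _ (by omega)
      unfold stg
      omega

theorem mem_V {n : ℕ} {a : ι} (h : a ∈ UU G s (n + 1) \ UU G s n) :
    G.g a ≠ 0 ∧ stg G s a = n := by
  rw [mem_sdiff, mem_UU, mem_UU] at h
  omega

theorem g_V (hG : G.Ok s) {n : ℕ} {a : ι} (h : a ∈ UU G s (n + 1) \ UU G s n) :
    G.g a = n / (s + 1) := by
  rw [← (mem_V h).2, stg, add_comm, Nat.add_mul_div_right _ _ (Nat.succ_pos s),
    Nat.div_eq_of_lt (Nat.lt_succ_of_le (hG.ws a)), zero_add]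

theorem fib (hG : G.Ok s) (hT : G.AOk T 2) (hU : T.U = univ) (h1 : ∀ a, T.sg a = 1) {ka : ℕ → ℝ}
    (hb : Tb G ka) (n : ℕ) (y : ι → ℤ) :
    ∑' x : Lat (UU G s (n + 1) \ UU G s n), G.nu (T.rs (UU G s (n + 1) \ UU G s n)) (y + x.1) ≤
      Real.exp (∑ a ∈ UU G s (n + 1) \ UU G s n, ka (G.g a)) *
        G.dv (UU G s (n + 1) \ UU G s n) := by
  have hV := bk_sdiff (bk_UU hG (n + 1)) (bk_UU hG n)
  have h := hb _ (n / (s + 1)) (fun a => ∑ b, G.A a b * (eval (cz y) (G.cq T b) - y b)) hV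
    fun a ha => g_V hG ha
  rw [Finset.sum_congr rfl fun a ha => congrArg ka (g_V hG ha), sum_const, nsmul_eq_mul,
    mul_comm _ (ka _)]
  refine le_trans (le_of_eq (tsum_congr fun x => ?_)) h
  refine congrArg (fun r => Real.exp (-π * r)) (Finset.sum_congr rfl fun a ha => ?_)
  change (T.sg a * eval (cz (y + x.1)) (G.ch T a)) ^ 2 = _
  rw [h1, one_mul, ch_eval hG, ← Finset.sum_sub_distrib]
  refine congrArg (· ^ 2) (Finset.sum_congr rfl fun b _ => ?_)
  by_cases e : G.A a b = 0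
  · rw [e, zero_mul, zero_mul, zero_mul, sub_zero]
  · have hb' := (hV a b (Or.inl e)).1 ha
    rw [cq_tri hG hT (hU ▸ mem_univ b) (x := cz (y + x.1)) (y := cz y) fun c hc => by
      have : x.1 c = 0 := x.2 c fun k => by
        rw [(mem_V k).2, (mem_V hb').2] at hc
        exact lt_irrefl _ hc
      simp only [cz, Pi.add_apply, this, add_zero]]
    simp only [cz, Pi.add_apply, Int.cast_add]
    ring

theorem ex_le (hG : G.Ok s) (hT : G.AOk T 2) {f φ : (ι → ℤ) → ℝ} {B c : ℝ} (hc : 0 ≤ c)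
    (hφ : ∀ z, 0 ≤ φ z ∧ φ z ≤ B) (hf : ∀ z, 0 ≤ f z ∧ f z ≤ c * φ z) :
    Ex G T f ≤ c * Ex G T φ := by
  have h0 := (summ_le hG two_pos hT).1
  have h1 : Summable fun z : Lat T.U => G.nu T z.1 • φ z.1 :=
    Summable.of_nonneg_of_le (fun z => mul_nonneg (nu_pos T _).le (hφ _).1)
      (fun z => mul_le_mul_of_nonneg_left (hφ _).2 (nu_pos T _).le) (h0.mul_right B)
  have h2 : ∀ z : Lat T.U, G.nu T z.1 • f z.1 ≤ c * G.nu T z.1 • φ z.1 := fun z => by
    rw [smul_eq_mul, smul_eq_mul, mul_left_comm]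
    exact mul_le_mul_of_nonneg_left (hf _).2 (nu_pos T _).le
  rw [Ex, Ex, ← tsum_mul_left]
  exact (Summable.of_nonneg_of_le (fun z => mul_nonneg (nu_pos T _).le (hf _).1) h2
    (h1.mul_left c)).tsum_le_tsum h2 (h1.mul_left c)

end FsbP

open FsbP in
theorem fsb (hF : FUB) (_ : DET) : FSB := by
  intro s ι _ _ G T ka φ B hG hT hU h1 hb hφ hr
  have ao : ∀ n, G.AOk (T.rs (UU G s n)) 2 := fun n => by
    have := (hF s ι G T 2 _ hG two_pos hT (cls hG hT n)).1
    rwa [hU, univ_inter] at this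
  have key : ∀ n, Ex G (T.rs (UU G s n)) φ ≤ Real.exp (∑ a ∈ UU G s n \ gp G 0, ka (G.g a)) *
      G.dv (UU G s n \ gp G 0) * Ex G (T.rs (gp G 0)) φ := by
    intro n
    induction n with
    | zero =>
      have e : UU G s 0 = gp G 0 := by ext a; simp [mem_UU, mem_gp]
      rw [e, sdiff_self, bot_eq_empty, sum_empty, Real.exp_zero, DetP.dv_empty, one_mul, one_mul]
    | succ n ih =>
      have sub : UU G s n ⊆ UU G s (n + 1) := fun a ha => by
        rw [mem_UU] at ha ⊢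
        omega
      have sub' : UU G s n \ gp G 0 ⊆ UU G s (n + 1) \ gp G 0 := sdiff_subset_sdiff sub Subset.rfl
      have e : (UU G s (n + 1) \ gp G 0) \ (UU G s n \ gp G 0) = UU G s (n + 1) \ UU G s n := by
        ext a
        simp only [mem_sdiff, mem_UU, mem_gp]
        omega
      have h2 := (hF s ι G _ 2 _ hG two_pos (ao (n + 1)) (cls hG (ao (n + 1)) n)).2.2.2.2 ℝ φ B
        fun z => by rw [Real.norm_eq_abs, abs_of_nonneg (hφ z).1]; exact (hφ z).2
      have e2 : (T.rs (UU G s (n + 1))).rs ((T.rs (UU G s (n + 1))).U ∩ UU G s n) =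
          T.rs (UU G s n) := congrArg T.rs (inter_eq_right.2 sub)
      have c0 : 0 ≤ Real.exp (∑ a ∈ UU G s (n + 1) \ UU G s n, ka (G.g a)) *
        G.dv (UU G s (n + 1) \ UU G s n) := mul_nonneg (Real.exp_pos _).le (abs_nonneg _)
      rw [h2, e2, DetP.dv_split G (bk_sdiff (bk_UU hG n) (bk_gp hG 0)) sub', ← sum_sdiff sub', e,
        Real.exp_add]
      refine (ex_le hG (ao n) c0 hφ fun y => ⟨tsum_nonneg fun x =>
        mul_nonneg (nu_pos _ _).le (hφ _).1, ?_⟩).trans
        ((mul_le_mul_of_nonneg_left ih c0).trans (le_of_eq (by ring)))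
      refine le_trans (le_of_eq ?_) (mul_le_mul_of_nonneg_right (fib hG hT hU h1 hb n y) (hφ y).1)
      rw [← tsum_mul_right]
      refine tsum_congr fun x => congrArg₂ (· * ·) rfl ?_
      rw [hr, hr y]
      refine congrArg φ (funext fun a => ?_)
      unfold res
      split_ifs with ha
      · rw [Pi.add_apply, x.2 a fun k => (mem_V k).1 (mem_gp.1 ha), add_zero]
      · rfl
  have e : UU G s (univ.sup (stg G s) + 1) = univ :=
    eq_univ_of_forall fun a => mem_UU.2 (Or.inr (Nat.lt_succ_of_le (le_sup (mem_univ a))))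
  have h := key (univ.sup (stg G s) + 1)
  rw [e] at h
  rwa [show T.rs univ = T from hU ▸ rfl] at h

theorem fsb0 : FSB := fsb (fub det0 summ) det0

end

end Vale.Agent.P057T.Cw
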