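import Vale.Agent.P057T.Cw.Defs2
import Vale.Agent.P057T.Eq.Summ
import Vale.Agent.P057T.Eq.Mono

/-! The first step of the chain. -/

open MvPolynomial Finset
open scoped Real BigOperators

namespace Vale.Agent.P057T.Cw

open Vale.Agent.P057T.Eq Vale.Agent.P057L Vale.Agent.P057T.Cp

namespace FstP

theorem rr_of {ι : Type} [Fintype ι] [DecidableEq ι] {G : GT ι} {s : ℕ} {WW cc : ℕ → ℝ} {c Y : ℝ}
    (hG : G.Ok s) (hW : G.Wd WW) (h : Rd G s WW cc Y) (hc : 0 < c) (hY : 0 < Y)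
    (hcc : ∀ g, c ≤ cc g) : Rr G s WW c Y where
  ok := hG
  wd := hW
  big g hg := (h g hg).1.mono (Real.exp_le_exp.2
    (mul_le_mul_of_nonneg_right (hcc g) (by linarith [hW.nn g])))
  small g hg := by
    have h0 := hW.nn g
    have h1 := hW.nn (g + 1)
    have h2 : 0 < c * (Y + WW g) := mul_pos hc (by linarith)
    have h3 : c * (Y + WW g) ≤ cc g * (Y + WW g) :=
      mul_le_mul_of_nonneg_right (hcc g) (by linarith)
    refine (h g hg).2.mono (mul_le_mul (Real.exp_le_exp.2 (neg_le_neg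
      (mul_le_mul_of_nonneg_right (hcc g) (by linarith)))) (inv_anti₀ h2 h3)
      (inv_nonneg.2 (h2.le.trans h3)) (Real.exp_pos _).le)

theorem ptw {u Φ Θ m θ ε B : ℝ} {t : ℕ} (u0 : 0 ≤ u) (u1 : u ≤ 1) (Φ0 : 0 ≤ Φ) (Φ1 : Φ ≤ B * Θ)
    (Θ0 : 0 ≤ Θ) (m0 : 0 < m) (θ0 : 0 ≤ θ) (ε0 : 0 < ε) (ε1 : ε ≤ 1) (B0 : 0 ≤ B) :
    ((1 - ε) * θ * m) ^ t * (u * (Φ - θ * Θ)) ≤
      2 * B * m * Φ ^ t + ((1 - ε) * θ * m) ^ t * (2 * B / ε * |Θ - m|) := by
  have a0 : 0 ≤ (1 - ε) * θ * m := mul_nonneg (mul_nonneg (by linarith) θ0) m0.le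
  have a1 := pow_nonneg a0 t
  have p1 : 0 ≤ 2 * B * m * Φ ^ t := by positivity
  have p2 : 0 ≤ 2 * B / ε * |Θ - m| := by positivity
  have g1 : θ * Θ ≤ Φ → u * (Φ - θ * Θ) ≤ B * Θ := fun h => by
    nlinarith [mul_nonneg θ0 Θ0]
  rcases lt_or_ge Φ (θ * Θ) with h | h
  · have : u * (Φ - θ * Θ) ≤ 0 := mul_nonpos_of_nonneg_of_nonpos u0 (by linarith)
    nlinarith [mul_nonneg a1 p2, mul_nonpos_of_nonneg_of_nonpos a1 this]
  rcases le_or_gt |Θ - m| (ε * m) with h2 | h2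
  · obtain ⟨h3, h4⟩ := abs_le.1 h2
    have h5 : (1 - ε) * θ * m ≤ Φ := by nlinarith [mul_le_mul_of_nonneg_left h3 θ0]
    have h6 : B * Θ ≤ 2 * B * m := by nlinarith [mul_le_mul_of_nonneg_left h4 B0, mul_nonneg B0 m0.le]
    have h7 := mul_le_mul (pow_le_pow_left₀ a0 h5 t) ((g1 h).trans h6)
      (mul_nonneg u0 (by linarith)) (pow_nonneg Φ0 t)
    nlinarith [mul_nonneg a1 p2]
  · have h3 : Θ ≤ m + |Θ - m| := by linarith [le_abs_self (Θ - m)]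
    have h4 : B * Θ ≤ 2 * B / ε * |Θ - m| := by
      rw [div_mul_eq_mul_div, le_div_iff₀ ε0]
      have h5 : ε * Θ ≤ 2 * |Θ - m| := by nlinarith [abs_nonneg (Θ - m)]
      nlinarith [mul_le_mul_of_nonneg_left h5 B0]
    nlinarith [mul_le_mul_of_nonneg_left ((g1 h).trans h4) a1]

theorem ph_one {ι : Type} {J q : ℕ} (K : Ct ι J q) (F : Pt J q → ℝ) (z : ι → ℤ) :
    K.Ph (fun _ => 1) F z = F fun c l => z (K.en c 0 l) := by
  unfold Ct.Ph
  have : Fintype.piFinset (fun _ : Fin J => range 1) = {fun _ => 0} := by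
    ext τ
    simp [funext_iff]
  rw [this, prod_singleton]

end FstP

open FstP in
theorem fst (hC : CPS) (hFi : FIBR) (hM : MS) (hF : FUB) (hD : DBL) : FST := by
  intro s
  obtain ⟨c1', h1⟩ := hFi s
  obtain ⟨c2, h2⟩ := hM s
  refine ⟨c1' + c2, fun j q p ι _ _ K t P B κ ε θ F u hs hK t1 hz hcc hB hu θ0 ε0 ε1 κ0 κB hε hex => ?_⟩
  subst hs
  obtain ⟨ι', i1, i2, K', hK', hMn, hEx⟩ := hC (j + 1) q p _ ι K 0 t hK rfl t1
  refine ⟨ι', i1, i2, K', hK', ?_⟩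
  rw [hMn, hEx F B hB]
  set W := Wc K.col 0 with hW
  set T0 := K.T.rs (K.T.U ∩ W) with hT0
  set m := K.G.mn K.T.sg (K.T.U \ W) with hm
  have P2 := hz.P2
  have Y1 := hz.Y1
  have B0 : 0 < B := κ0.trans_le κB
  have hT : K.G.AOk K.T P := hK.ao.mono two_pos P2
  have r1 : Rr K.G p.s p.WW (P ^ c1') p.Y := rr_of hK.ok hK.wd hK.rd (pw_pos P2 _) (by linarith)
    fun g => (pw_le P2 (Nat.le_add_right _ _)).trans (hcc g)
  have r2 : Rr K.G p.s p.WW (P ^ c2) p.Y := rr_of hK.ok hK.wd hK.rd (pw_pos P2 _) (by linarith)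
    fun g => (pw_le P2 (Nat.le_add_left _ _)).trans (hcc g)
  obtain ⟨M0, hms⟩ := h2 ι K.G K.T p.WW P p.Y hz hT r2
  obtain ⟨hfi, -⟩ := h1 ι K.G K.T p.WW P p.Y W hz hT r1 (hK.cl 0).1 (hK.cl 0).2
  have hcl : Cls K.G K.T W :=
    (hD p.s ι Unit K.G K.T 2 W hK.ok two_pos hK.ao (hK.cl 0).1 (hK.cl 0).2).1
  obtain ⟨a0, eM, sF, ⟨B1, hB1⟩, fub⟩ := hF p.s ι K.G K.T 2 W hK.ok two_pos hK.ao hcl
  have s0 : Summable fun y : Lat T0.U => K.G.nu T0 y.1 := (Br.summ_le hK.ok two_pos a0).1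
  have m0 : 0 < m := Br.mn_pos hK.ok (Br.bk_sdiff hK.ao.bk hcl.bk) (Br.sg_pos two_pos hK.ao)
  have M00 : 0 < Mn K.G T0 := pos_of_mul_pos_left (eM ▸ M0) m0.le
  set Θ := Fs K.G K.T W (fun _ => (1 : ℝ)) with hΘ
  set Φ := Fs K.G K.T W (K.Ph (fun _ => 1) F) with hΦ
  have sΦ : ∀ y, Summable fun x : Lat (K.T.U \ W) =>
      K.G.nu (K.T.rs (K.T.U \ W)) (y + x.1) * K.Ph (fun _ => 1) F (y + x.1) := fun y =>
    Summable.of_nonneg_of_le
      (fun x => mul_nonneg (Br.nu_pos _ _).le (by rw [ph_one]; exact (hB _).1))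
      (fun x => mul_le_mul_of_nonneg_left (by rw [ph_one]; exact (hB _).2) (Br.nu_pos _ _).le)
      ((sF y).mul_right B)
  have eΘ : ∀ y, Θ y = ∑' x : Lat (K.T.U \ W), K.G.nu (K.T.rs (K.T.U \ W)) (y + x.1) := fun y => by
    simp [hΘ, Fs]
  have Θ0 : ∀ y, 0 ≤ Θ y := fun y => by
    rw [eΘ]; exact tsum_nonneg fun x => (Br.nu_pos _ _).le
  have Φ0 : ∀ y, 0 ≤ Φ y := fun y => tsum_nonneg fun x =>
    mul_nonneg (Br.nu_pos _ _).le (by rw [ph_one]; exact (hB _).1)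
  have Φ1 : ∀ y, Φ y ≤ B * Θ y := fun y => by
    rw [eΘ, ← tsum_mul_left]
    refine Summable.tsum_le_tsum (fun x => ?_) (sΦ y) ((sF y).mul_left B)
    rw [smul_eq_mul, mul_comm B]
    exact mul_le_mul_of_nonneg_left (by rw [ph_one]; exact (hB _).2) (Br.nu_pos _ _).le
  set v : (ι → ℤ) → ℝ := fun z => u fun c l => z (K.en c.succ 0 l) with hv
  have eF : ∀ y, Fs K.G K.T W (fun z => v z * (F (fun c l => z (K.en c 0 l)) - θ)) y =
      v y * (Φ y - θ * Θ y) := fun y => by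
    rw [eΘ, ← tsum_mul_left, hΦ, Fs, Fs]
    simp only [smul_eq_mul]
    rw [← (sΦ y).tsum_sub ((sF y).mul_left θ), ← tsum_mul_left]
    refine tsum_congr fun x => ?_
    have e1 : v (y + x.1) = v y := by
      simp only [hv]
      congr 1
      funext c l
      rw [Pi.add_apply, x.2 _ fun h => (mem_sdiff.1 h).2 ?_, add_zero]
      rw [hW, Wc, mem_filter, hK.ce c.succ 0 l one_pos, mem_singleton]
      exact ⟨mem_univ _, (Fin.succ_ne_zero c).symm⟩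
    rw [e1, ph_one]
    ring
  have e2 := fub ℝ (fun z => v z * (F (fun c l => z (K.en c 0 l)) - θ)) (B + θ) fun z => by
    rw [Real.norm_eq_abs, abs_mul, abs_of_nonneg (hu _).1]
    have h3 := hB fun c l => z (K.en c 0 l)
    have h4 : |F (fun c l => z (K.en c 0 l)) - θ| ≤ B + θ := abs_le.2 ⟨by linarith, by linarith⟩
    exact (mul_le_of_le_one_left (abs_nonneg _) (hu _).2).trans h4
  rw [e2, show Fs K.G K.T W (fun z => v z * (F (fun c l => z (K.en c 0 l)) - θ)) =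
    fun y => v y * (Φ y - θ * Θ y) from funext eF] at hex
  have sb : ∀ (h : (ι → ℤ) → ℝ) (C : ℝ), (∀ y, |h y| ≤ C) →
      Summable fun y : Lat T0.U => K.G.nu T0 y.1 * h y.1 := fun h C hh =>
    Summable.of_norm_bounded (s0.mul_right C) fun y => by
      rw [Real.norm_eq_abs, abs_mul, abs_of_pos (Br.nu_pos _ _)]
      exact mul_le_mul_of_nonneg_left (hh _) (Br.nu_pos _ _).le
  have ΦB : ∀ y, Φ y ≤ B * B1 := fun y =>
    (Φ1 y).trans (mul_le_mul_of_nonneg_left (hB1 y) B0.le)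
  have s1 := sb (fun y => v y * (Φ y - θ * Θ y)) (B * B1 + θ * B1) fun y => by
    rw [abs_mul, abs_of_nonneg (hu _).1]
    have h3 := mul_le_mul_of_nonneg_left (hB1 y) θ0
    have h4 := mul_nonneg θ0 (Θ0 y)
    have h5 : |Φ y - θ * Θ y| ≤ B * B1 + θ * B1 :=
      abs_le.2 ⟨by linarith [Φ0 y, ΦB y], by linarith [ΦB y]⟩
    exact (mul_le_of_le_one_left (abs_nonneg _) (hu _).2).trans h5
  have s2 := sb (fun y => Φ y ^ t) ((B * B1) ^ t) fun y => by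
    rw [abs_of_nonneg (pow_nonneg (Φ0 y) t)]
    exact pow_le_pow_left₀ (Φ0 y) (ΦB y) t
  have s3 := sb (fun y => |Θ y - m|) (B1 + m) fun y => by
    rw [abs_abs]
    exact abs_le.2 ⟨by linarith [Θ0 y, hB1 y], by linarith [hB1 y]⟩
  set a := ((1 - ε) * θ * m) ^ t with ha
  have a0' : 0 ≤ a := pow_nonneg (mul_nonneg (mul_nonneg (by linarith) θ0) m0.le) t
  have key : a * Ex K.G T0 (fun y => v y * (Φ y - θ * Θ y)) ≤
      2 * B * m * Ex K.G T0 (fun y => Φ y ^ t) +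
        a * (2 * B / ε) * Ex K.G T0 fun y => |Θ y - m| := by
    simp only [Ex, smul_eq_mul]
    rw [← tsum_mul_left, ← tsum_mul_left, ← tsum_mul_left,
      ← (s2.mul_left _).tsum_add (s3.mul_left _)]
    refine Summable.tsum_le_tsum (fun y => ?_) (s1.mul_left _) ((s2.mul_left _).add (s3.mul_left _))
    have h3 := mul_le_mul_of_nonneg_left (ptw (t := t) (hu fun c l => y.1 (K.en c.succ 0 l)).1
      (hu _).2 (Φ0 y.1) (Φ1 y.1) (Θ0 y.1) m0 θ0 ε0 ε1 B0.le) (Br.nu_pos (G := K.G) T0 y.1).le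
    calc _ = K.G.nu T0 y.1 * (a * (v y.1 * (Φ y.1 - θ * Θ y.1))) := by ring
      _ ≤ _ := h3
      _ = _ := by ring
  have y2 : Real.exp (-p.Y) ≤ 1 / 2 := by
    have h3 : Real.exp (-p.Y) ≤ Real.exp (-1) := Real.exp_le_exp.2 (by linarith)
    have h4 := Real.exp_neg_one_lt_d9
    linarith
  have l1 : Mn K.G K.T / 2 ≤ Ex K.G K.T fun _ => (1 : ℝ) := by
    have h3 := (abs_le.1 hms).1
    nlinarith
  have l2 : 2 * B / ε * Real.exp (-p.Y) ≤ κ / 4 := by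
    rw [div_mul_eq_mul_div, div_le_iff₀ ε0]
    linarith
  have l3 : 2 * B / ε * Ex K.G T0 (fun y => |Θ y - m|) ≤ κ / 4 * Mn K.G K.T :=
    calc _ ≤ 2 * B / ε * (Real.exp (-p.Y) * Mn K.G K.T) :=
          mul_le_mul_of_nonneg_left hfi (by positivity)
      _ = 2 * B / ε * Real.exp (-p.Y) * Mn K.G K.T := by ring
      _ ≤ _ := mul_le_mul_of_nonneg_right l2 M0.le
  have l4 : κ / 2 * Mn K.G K.T ≤ Ex K.G T0 fun y => v y * (Φ y - θ * Θ y) := by
    nlinarith [mul_le_mul_of_nonneg_left l1 κ0.le]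
  have l5 : a * (κ / 4 * Mn K.G K.T) ≤ 2 * B * m * Ex K.G T0 fun y => Φ y ^ t := by
    nlinarith [mul_le_mul_of_nonneg_left l3 a0', mul_le_mul_of_nonneg_left l4 a0']
  rw [eM, ha, mul_pow] at l5
  refine le_of_mul_le_mul_left (le_of_eq_of_le ?_ l5) (by positivity : 0 < 2 * B * m)
  field_simp
  ring

end Vale.Agent.P057T.Cw
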