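import Vale.Agent.P057T.Cw.Defs
import Vale.Agent.P057T.Rg.Hrm

/-! Row HRM for coloured towers. -/

set_option linter.all false

open MvPolynomial Finset
open scoped Real

namespace Vale.Agent.P057T.Cw

open Vale.Agent.P057T.Eq Vale.Agent.P057T.Herm Vale.Agent.P057L
open Vale.Agent.P057T.Rg (gp)
open Vale.Agent.P057T.Rg.HrmA (ext ext_in ext_l ext_r sum_V ext_mul ext_ne)

namespace HrmA

variable {ι : Type} [Fintype ι] [DecidableEq ι] {J q : ℕ}

/-- the Hermite property on one group -/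
def Hg (S : St ι J q) (g : ℕ) : Prop := ∀ j ∈ S.G.ex, S.G.g j = g → ∀ x : ι → ℝ,
  (∀ c, x c ≠ 0 → c ∈ S.G.ex ∧ S.G.g c = S.G.g j) →
  x j ^ 2 * ∑ a ∈ S.G.ex, S.G.A a j ^ 2 ≤
    2 ^ (Fintype.card ι ^ 2) * ∑ a ∈ S.G.ex, (∑ c, S.G.A a c * x c) ^ 2

theorem zero {s : ℕ} {gr : Finset (Fin J) → ℕ} {S : St ι J q} (h : S.Ok s gr) : Hg S 0 := by
  intro j hj hg x _
  obtain ⟨c, l, rfl⟩ := (h.g0 j).1 hg
  have e1 : ∑ a ∈ S.G.ex, S.G.A a (S.en c l) ^ 2 = S.al ^ 2 := by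
    rw [sum_eq_single (S.en c l) (fun a _ ha => ?_) (fun h => (h hj).elim), (h.ae c l _).1,
      if_pos rfl]
    have : S.G.A a (S.en c l) = 0 := by
      by_contra h0
      obtain ⟨c', l', rfl⟩ := (h.g0 a).1 ((h.ok.blk _ _ (Or.inl h0)).1.trans hg)
      exact h0 ((h.ae c' l' _).1.trans (if_neg ha.symm))
    rw [this]; ring
  have e2 : ∑ b, S.G.A (S.en c l) b * x b = S.al * x (S.en c l) := by
    rw [sum_eq_single (S.en c l) (fun b _ hb => by rw [(h.ae c l b).1, if_neg hb, zero_mul])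
      (fun h => (h (mem_univ _)).elim), (h.ae c l _).1, if_pos rfl]
  have e3 := single_le_sum (f := fun a => (∑ b, S.G.A a b * x b) ^ 2) (fun _ _ => sq_nonneg _) hj
  simp only [e2] at e3
  rw [e1]
  refine le_trans (le_trans (le_of_eq (by ring)) e3) (le_mul_of_one_le_left
    (sum_nonneg fun _ _ => sq_nonneg _) (one_le_pow₀ (by norm_num)))

theorem step (hR : RECO) {s : ℕ} {gr : Finset (Fin J) → ℕ} {N δ : ℝ} {f : Pt J q → ℝ}
    {S : St ι J q} {θ θn : ℕ → ℝ} {γ ρ b : ℝ} (h : S.Inv s gr N δ f θ θn γ ρ b) (g : ℕ)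
    (g0 : g ≠ 0) : ∃ S' : St ι J q, S'.Inv s gr N δ f θ θn γ ρ b ∧ S.Sa S' ∧
      Hg S' g ∧ ∀ g', g' ≠ g → Hg S g' → Hg S' g' := by
  set V := gp S.G g ∩ S.G.ex with hV
  have mV : ∀ a, a ∈ V ↔ S.G.g a = g ∧ a ∈ S.G.ex := fun a => by simp [hV, gp]
  have z1 : ∀ a ∈ V, ∀ c, c ∉ V → S.G.A a c = 0 := fun a ha c hc => by
    by_contra h0
    refine hc ((mV c).2 ⟨(h.ok.ok.blk a c (Or.inl h0)).1 ▸ ((mV a).1 ha).1, ?_⟩)
    by_contra he
    exact h0 (h.ok.tri a ((mV a).1 ha).2 c he).1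
  let M : Matrix V V ℝ := S.G.A.submatrix Subtype.val Subtype.val
  have hM : M * S.G.B.submatrix Subtype.val Subtype.val = (1 : Matrix V V ℝ) := by
    ext a c
    have := congrFun (congrFun h.ok.ok.AB a.1) c.1
    rw [Matrix.mul_apply, sum_V V _ fun b hb => by rw [z1 a.1 a.2 b hb, zero_mul],
      Matrix.one_apply] at this
    rw [Matrix.mul_apply, Matrix.one_apply]
    simp only [Subtype.ext_iff]
    exact this
  have d0 : M.det ≠ 0 := Matrix.det_ne_zero_of_right_inverse hM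
  obtain ⟨U, u1, u2⟩ := hermite M d0
  have d1 : (M * cs U).det ^ 2 = M.det ^ 2 := by
    rw [Matrix.det_mul, mul_pow, det_cs_sq u1, mul_one]
  have d2 : (M * cs U).det ≠ 0 := fun e => by
    rw [e] at d1
    exact pow_ne_zero 2 d0 (by rw [← d1]; ring)
  have cr := cramer_bound (M * cs U) d2 (d1 ▸ u2)
  obtain ⟨S', i1, i2, i3, -⟩ := hR s J q gr N δ f ι S θ θn γ ρ b g V (ext V U) (ext V U⁻¹) h g0
    (Or.inl rfl)
    (ext_mul (Matrix.mul_nonsing_inv U u1)) (fun a b h => h.elim ext_ne ext_ne)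
    (fun a ha => ⟨(ext_l _ ha a).trans (if_pos rfl), (ext_l _ ha a).trans (if_pos rfl)⟩)
  have a0 : ∀ a c, S'.G.A a c = ∑ b, S.G.A a b * (ext V U b c : ℝ) := fun a c => by
    rw [i3, Matrix.mul_apply]; rfl
  have a1 : ∀ a c, c ∉ V → S'.G.A a c = S.G.A a c := fun a c hc => by
    rw [a0, sum_eq_single c (fun b _ hb => by rw [ext_r U b hc, if_neg hb, Int.cast_zero, mul_zero])
      (fun h => (h (mem_univ _)).elim), ext_r U c hc, if_pos rfl, Int.cast_one, mul_one]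
  have a2 : ∀ a c : V, S'.G.A a c = (M * cs U) a c := fun a c => by
    rw [a0, sum_V V _ fun b hb => by rw [z1 a.1 a.2 b hb, zero_mul], Matrix.mul_apply]
    exact sum_congr rfl fun b _ => by rw [ext_in U b c]; rfl
  refine ⟨S', i1, i2, fun j hj hg x hx => ?_, fun g' hg' H j hj hg x hx => ?_⟩
  · rw [i2.2.2.1] at hj ⊢
    rw [i2.1] at hg
    rw [i2.1, i2.2.2.1] at hx
    have jV : j ∈ V := (mV j).2 ⟨hg, hj⟩
    have xV : ∀ c, c ∉ V → x c = 0 := fun c hc => by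
      by_contra h0
      exact hc ((mV c).2 ⟨(hx c h0).2.trans hg, (hx c h0).1⟩)
    have sV : V ⊆ S.G.ex := inter_subset_right
    have e1 : ∑ a ∈ S.G.ex, S'.G.A a j ^ 2 = ∑ a : V, (M * cs U) a ⟨j, jV⟩ ^ 2 := by
      rw [← sum_subset sV fun a ha hn => ?_, ← sum_coe_sort V]
      · exact sum_congr rfl fun a _ => by rw [a2 a ⟨j, jV⟩]
      · have : S'.G.A a j = 0 := by
          by_contra h0
          have := (i1.ok.ok.blk a j (Or.inl h0)).1
          rw [i2.1] at this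
          exact hn ((mV a).2 ⟨this.trans hg, ha⟩)
        rw [this]; ring
    have e2 : ql (M * cs U) (fun c => x c.1) ≤ ∑ a ∈ S.G.ex, (∑ c, S'.G.A a c * x c) ^ 2 := by
      refine le_trans (le_of_eq ?_) (sum_le_sum_of_subset_of_nonneg sV fun _ _ _ => sq_nonneg _)
      rw [← sum_coe_sort V, ql]
      refine sum_congr rfl fun a _ => ?_
      rw [sum_V V _ fun c hc => by rw [xV c hc, mul_zero]]
      exact congrArg (· ^ 2) (sum_congr rfl fun c _ => by rw [a2 a c])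
    rw [e1]
    refine (cr (fun c => x c.1) ⟨j, jV⟩).trans (mul_le_mul ?_ e2
      (sum_nonneg fun _ _ => sq_nonneg _) (by positivity))
    refine pow_le_pow_right₀ (by norm_num) ?_
    rw [sq]
    exact Nat.mul_le_mul (Fintype.card_subtype_le _) (Fintype.card_subtype_le _)
  · rw [i2.2.2.1] at hj ⊢
    rw [i2.1] at hg
    rw [i2.1, i2.2.2.1] at hx
    have nV : ∀ c, S.G.g c = S.G.g j → c ∉ V := fun c hc hv =>
      hg' (hg.symm.trans (hc.symm.trans ((mV c).1 hv).1))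
    rw [sum_congr rfl fun a _ => by rw [a1 a j (nV j rfl)],
      sum_congr (f := fun a => (∑ c, S'.G.A a c * x c) ^ 2)
        (g := fun a => (∑ c, S.G.A a c * x c) ^ 2) rfl fun a _ =>
        congrArg (· ^ 2) (sum_congr rfl fun c _ => by
          by_cases h0 : x c = 0
          · rw [h0, mul_zero, mul_zero]
          · rw [a1 a c (nV c (hx c h0).2)])]
    exact H j hj hg x hx

end HrmA

theorem hrm (hR : RECO) : HRM := by
  intro s J q gr N δ f ι _ _ S θ θn γ ρ b h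
  have key : ∀ n : ℕ, ∃ S' : St ι J q, S'.Inv s gr N δ f θ θn γ ρ b ∧ S.Sa S' ∧
      ∀ g ≤ n, HrmA.Hg S' g := by
    intro n
    induction n with
    | zero => exact ⟨S, h, ⟨rfl, rfl, rfl, rfl, rfl⟩, fun g hg => Nat.le_zero.1 hg ▸ HrmA.zero h.ok⟩
    | succ n ih =>
      obtain ⟨S1, a1, a2, a3⟩ := ih
      obtain ⟨S2, b1, b2, b3, b4⟩ := HrmA.step hR a1 (n + 1) n.succ_ne_zero
      refine ⟨S2, b1, ⟨b2.1.trans a2.1, b2.2.1.trans a2.2.1, b2.2.2.1.trans a2.2.2.1,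
        b2.2.2.2.1.trans a2.2.2.2.1, b2.2.2.2.2.trans a2.2.2.2.2⟩, fun g hg => ?_⟩
      by_cases e : g = n + 1
      · exact e ▸ b3
      · exact b4 g e (a3 g (by omega))
  obtain ⟨S', a1, a2, a3⟩ := key s
  exact ⟨S', a1, a2, fun j hj => a3 _ (a1.ok.ok.gs j).le j hj rfl⟩

end Vale.Agent.P057T.Cw
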