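import Vale.Agent.P057T.Cw.Defs2

/-! Row INIT: the first state of the chain. -/

open MvPolynomial Finset
open scoped Real BigOperators

namespace Vale.Agent.P057T.Cw

open Vale.Agent.P057T.Eq Vale.Agent.P057L Vale.Agent.P057T.Cp

set_option linter.unusedSectionVars false

noncomputable section

namespace InH46

variable {ι : Type} [Fintype ι] [DecidableEq ι] {J : ℕ}

theorem wt_at (col : ι → Finset (Fin J)) (m : ι →₀ ℕ) (c : Fin J) :
    Finsupp.weight (fun a => ic (col a)) m c =
      ∑ b ∈ m.support, m b * if c ∈ col b then 1 else 0 := by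
  rw [Finsupp.weight_apply, Finsupp.sum, Finset.sum_apply]
  rfl

theorem sub_of (col : ι → Finset (Fin J)) (c : Fin J) (a b : ι) (m : ι →₀ ℕ)
    (hm : Finsupp.weight (fun a => ic (col a)) m ≤ ic (col a)) (hb : b ∈ m.support) :
    c1 (Wc col c) b ⊆ c1 (Wc col c) a := by
  by_cases ha : c ∈ col a
  · have : c1 (Wc col c) a = univ := by simp [c1, Wc, ha]
    rw [this]
    exact subset_univ _
  · have h1 := hm c
    rw [wt_at] at h1
    have h2 : ic (col a) c = 0 := by simp [ic, ha]
    rw [h2, Nat.le_zero, Finset.sum_eq_zero_iff] at h1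
    have h3 := h1 b hb
    have h4 : c ∉ col b := by
      intro h5
      rw [if_pos h5, mul_one] at h3
      exact Finsupp.mem_support_iff.1 hb h3
    have : c1 (Wc col c) b = ∅ := by simp [c1, Wc, h4]
    rw [this]
    exact empty_subset _

theorem cov_of (col : ι → Finset (Fin J)) (c : Fin J) (a : ι) (m : ι →₀ ℕ)
    (hm : Finsupp.weight (fun a => ic (col a)) m = ic (col a)) :
    c1 (Wc col c) a ⊆ m.support.biUnion (c1 (Wc col c)) := by
  by_cases ha : c ∈ col a
  · have h1 := congrFun hm c
    rw [wt_at] at h1
    have h2 : ic (col a) c = 1 := by simp [ic, ha]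
    rw [h2] at h1
    obtain ⟨b, hb, h3⟩ := Finset.exists_ne_zero_of_sum_ne_zero (h1.trans_ne one_ne_zero)
    have h4 : c ∈ col b := by
      by_contra h5
      rw [if_neg h5, mul_zero] at h3
      exact h3 rfl
    intro u _
    exact Finset.mem_biUnion.2 ⟨b, hb, by simp [c1, Wc, h4]⟩
  · have : c1 (Wc col c) a = ∅ := by simp [c1, Wc, ha]
    rw [this]
    exact empty_subset _

end InH46

open InH46 in
theorem init (hB : BR) : INIT := by
  intro s J q gr ι _ _ S D Y WW cc ka hO hD hW hR hT
  obtain ⟨hA, -, -, -, -, -, hcol, -, -, hp⟩ := hB s J q gr ι S hO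
  choose x hx using hp
  refine ⟨fun c l => -x c l, ?_⟩
  exact
    { ok := hO.ok
      ao := hA 2 (by norm_num)
      un := rfl
      sg := fun _ => rfl
      cl := fun c => by
        refine ⟨⟨fun a b h => ?_, fun a b hb => ?_, fun a m hm => ?_⟩, fun a _ b hb => ?_⟩
        · have := hcol a b h
          simp [c1, Wc, this]
        · obtain ⟨m, hm, hbm⟩ := (mem_vars_iff_mem_support b).1 hb
          exact sub_of S.col c a b m (hO.mq a (mem_support_iff.1 hm)).le hbm
        · exact cov_of S.col c a m (hO.mq a (mem_support_iff.1 hm))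
        · obtain ⟨m, hm, hbm⟩ := (mem_vars_iff_mem_support b).1 hb
          exact sub_of S.col c a b m (hO.mp a m hm) hbm
      t1 := fun _ => le_rfl
      inj := fun c τ l c' τ' l' h1 h2 h3 => by
        obtain ⟨h4, h5⟩ := hO.inj c l c' l' h3
        exact ⟨h4, by omega, h5⟩
      g0 := fun a => by
        refine (hO.g0 a).trans ⟨?_, ?_⟩
        · rintro ⟨c, l, h⟩
          exact ⟨c, 0, l, Nat.one_pos, h⟩
        · rintro ⟨c, _, l, -, h⟩
          exact ⟨c, l, h⟩
      gc := hO.gc
      pr := hO.pr
      ce := fun c _ l _ => hO.ce c l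
      ch := fun c _ l _ => by
        change S.G.th (S.en c l) + S.p (S.en c l) = C S.al * X (S.en c l) - C (-x c l)
        rw [hx, map_neg, sub_neg_eq_add]
        congr 1
        unfold GT.th
        rw [Finset.sum_eq_single (S.en c l), (hO.ae c l _).1, if_pos rfl,
          hO.ok.qe _ (hO.ee c l), sub_zero]
        · intro b _ hb
          rw [(hO.ae c l b).1, if_neg hb, map_zero, zero_mul]
        · intro h
          exact absurd (Finset.mem_univ _) h
      ae := fun c _ l b _ => hO.ae c l b
      al0 := hO.al0
      cn := fun e => by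
        simp only [Nat.cast_one, Finset.prod_const_one, mul_one]
        refine le_trans ?_ hD
        exact_mod_cast Finset.card_le_univ _
      wd := hW
      rd := hR
      tb := hT }

end

end Vale.Agent.P057T.Cw
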