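import Vale.Agent.P057T.Cw.Defs
import Vale.Agent.P057T.Rg.Pert

/-! Adding a small form to one chart of a coloured tower. -/

set_option linter.all false

open MvPolynomial Finset
open scoped Real

namespace Vale.Agent.P057T.Cw

open Vale.Agent.P057T.Eq Vale.Agent.P057L Vale.Agent.P057T.Cp
open Vale.Agent.P057T.Rg (gp tk lo at1 dv_nonneg)
open Vale.Agent.P057T.Rg.Pe (dl_add dl_mul hm_dl dl_zero Nr dl_aeval ev_aeval num fin1)

noncomputable section

namespace Pe

variable {ι : Type} [Fintype ι] [DecidableEq ι] {J q : ℕ}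

/-- multidegree at most `e` -/
def Mw (w : ι → Fin J → ℕ) (e : Fin J → ℕ) (F : MvPolynomial ι ℝ) : Prop :=
  ∀ m ∈ F.support, Finsupp.weight w m ≤ e

section
variable {w : ι → Fin J → ℕ} {e e' : Fin J → ℕ} {F F' : MvPolynomial ι ℝ}

theorem Mw.mono (h : Mw w e F) (he : e ≤ e') : Mw w e' F := fun m hm => (h m hm).trans he

theorem mw_zero : Mw w e 0 := fun m hm => by simp at hm

theorem Mw.add (h : Mw w e F) (h' : Mw w e F') : Mw w e (F + F') :=
  fun m hm => (mem_union.1 (support_add hm)).elim (h m) (h' m)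

theorem Mw.sub (h : Mw w e F) (h' : Mw w e F') : Mw w e (F - F') := by
  rw [sub_eq_add_neg]
  exact h.add fun m hm => h' m (by rwa [support_neg] at hm)

theorem Mw.mul (h : Mw w e F) (h' : Mw w e' F') : Mw w (e + e') (F * F') := fun m hm => by
  obtain ⟨x, hx, y, hy, rfl⟩ := mem_add.1 (support_mul F F' hm)
  rw [map_add]
  exact add_le_add (h x hx) (h' y hy)

theorem mw_hom (h : IsWeightedHomogeneous w F e) : Mw w e F :=
  fun m hm => (h (mem_support_iff.1 hm)).le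

theorem mw_C (c : ℝ) : Mw w 0 (C c) := mw_hom (isWeightedHomogeneous_C w c)

theorem Mw.cmul (h : Mw w e F) (c : ℝ) : Mw w e (C c * F) := by
  have := (mw_C (w := w) c).mul h
  rwa [zero_add] at this

theorem Mw.pow (h : Mw w e F) (n : ℕ) : Mw w (n • e) (F ^ n) := by
  induction n with
  | zero => simpa using mw_C (w := w) 1
  | succ n ih => rw [pow_succ, succ_nsmul]; exact ih.mul h

theorem mw_sum {κ : Type} (t : Finset κ) {g : κ → MvPolynomial ι ℝ} (h : ∀ k ∈ t, Mw w e (g k)) :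
    Mw w e (∑ k ∈ t, g k) := sum_induction _ (Mw w e) (fun _ _ => Mw.add) mw_zero h

theorem mw_aeval {u : ι → MvPolynomial ι ℝ} (h : ∀ a, Mw w (w a) (u a)) (hF : Mw w e F) :
    Mw w e (aeval u F) := by
  rw [F.as_sum, map_sum]
  refine mw_sum _ fun m hm => ?_
  have h1 : ∀ t : Finset ι, Mw w (∑ a ∈ t, m a • w a) (∏ a ∈ t, u a ^ m a) := fun t => by
    induction t using Finset.induction_on with
    | empty => simpa using mw_C (w := w) 1
    | insert a t ha ih =>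
      rw [sum_insert ha, prod_insert ha]
      exact ((h a).pow (m a)).mul ih
  rw [aeval_monomial]
  refine ((h1 m.support).cmul (coeff m F)).mono ?_
  have h2 := hF m hm
  rwa [Finsupp.weight_apply] at h2

end

variable {S S' : St ι J q} {s : ℕ} {gr : Finset (Fin J) → ℕ} {j : ι} {F : MvPolynomial ι ℝ}

theorem ch_ml (hB : BR) (h : S.Ok s gr) (a : ι) : Ml S.col (S.col a) (S.ch a) :=
  Mw.add (mw_hom ((hB s J q gr ι S h).2.2.2.2.2.2.2.1 a)) (h.mp a)

theorem ch_dl (h : S.Ok s gr) (a : ι) : S.G.Dl (S.G.w a + 1) (S.ch a) :=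
  dl_add (hm_dl (th_hm h.ok a)) ((h.pd a).mono (by omega))

/-- the perturbed tower -/
def ns (S : St ι J q) (j : ι) (F : MvPolynomial ι ℝ) : St ι J q :=
  { S with
    G := { S.G with q := fun a => S.G.q a - C (S.G.B a j) * aeval S.G.th F }
    p := fun a => S.p a + if a = j then aeval S.ch F - aeval S.G.th F else 0 }

theorem ns_ch (h : S.Ok s gr) (a : ι) :
    (ns S j F).ch a = S.ch a + if a = j then aeval S.ch F else 0 := by
  have e : (ns S j F).G.th a = S.G.th a + if a = j then aeval S.G.th F else 0 := by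
    have h1 := congrFun (congrFun h.ok.AB a) j
    rw [Matrix.mul_apply, Matrix.one_apply] at h1
    have h2 : (if a = j then aeval S.G.th F else 0) =
        C (∑ b, S.G.A a b * S.G.B b j) * aeval S.G.th F := by
      rw [h1]; split_ifs <;> simp
    rw [h2, map_sum, sum_mul]
    show ∑ b, C (S.G.A a b) * (X b - (S.G.q b - C (S.G.B b j) * aeval S.G.th F)) = _
    rw [GT.th, ← sum_add_distrib]
    exact sum_congr rfl fun b _ => by rw [map_mul]; ring
  rw [St.ch, e, St.ch]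
  show _ + (S.p a + if a = j then aeval S.ch F - aeval S.G.th F else 0) = _
  split_ifs <;> ring

theorem ns_ok (hB : BR) (h : S.Ok s gr) (hj : j ∉ S.G.ex) (hl : S.G.Lo (S.G.g j) F)
    (hm : Mh S.col (S.col j) F) : (ns S j F).Ok s gr := by
  have hG := h.ok
  obtain ⟨-, -, -, -, -, -, b1, -, b3, -⟩ := hB s J q gr ι S h
  have hh : S.G.Hm (S.G.w j) F := by rw [h.wc]; exact (b3 _ _ hm).1
  refine ⟨h.go, ⟨hG.w1, hG.ws, hG.gs, hG.AB, hG.blk, fun a => ?_, fun a => ?_, fun a ha => ?_⟩,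
    h.wc, h.pr, fun a => ?_, h.tri, h.inj, h.g0, h.gc, h.ce, h.ee, h.ae, fun a => ?_, fun a => ?_,
    h.al0, h.n1⟩
  · show S.G.Hm (S.G.w a) (S.G.q a - C (S.G.B a j) * aeval S.G.th F)
    by_cases hb : S.G.B a j = 0
    · rw [hb, map_zero, zero_mul, sub_zero]; exact hG.qh a
    · refine (weightedHomogeneousSubmodule ℝ S.G.w _).sub_mem (hG.qh a) ?_
      rw [C_mul', (hG.blk a j (Or.inr hb)).2]
      exact (weightedHomogeneousSubmodule ℝ S.G.w _).smul_mem _ ((hm_iff hG _ F).1 hh)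
  · show S.G.Lo (S.G.g a) (S.G.q a - C (S.G.B a j) * aeval S.G.th F)
    by_cases hb : S.G.B a j = 0
    · rw [hb, map_zero, zero_mul, sub_zero]; exact hG.ql a
    · refine Chart.vars_sub' (hG.ql a) (Chart.vars_mul' (Chart.vars_C' _) ?_)
      rw [(hG.blk a j (Or.inr hb)).1]
      exact (lo_iff hG _ F).1 hl
  · show S.G.q a - C (S.G.B a j) * aeval S.G.th F = 0
    rw [hG.qe a ha, (h.tri a ha j hj).2, map_zero, zero_mul, sub_zero]
  · show S.G.Dl (S.G.w a) (S.p a + if a = j then aeval S.ch F - aeval S.G.th F else 0)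
    refine dl_add (h.pd a) ?_
    split_ifs with ha
    · rw [ha]
      exact dl_aeval (fun c => ⟨hm_dl (th_hm hG c), by rw [St.ch, add_sub_cancel_left]; exact h.pd c⟩) hh
    · exact dl_zero _
  · show Mh S.col (S.col a) (S.G.q a - C (S.G.B a j) * aeval S.G.th F)
    by_cases hb : S.G.B a j = 0
    · rw [hb, map_zero, zero_mul, sub_zero]; exact h.mq a
    · refine (weightedHomogeneousSubmodule ℝ _ _).sub_mem (h.mq a) ?_
      rw [C_mul', b1 a j (Or.inr hb)]
      exact (weightedHomogeneousSubmodule ℝ _ _).smul_mem _ (b3 _ _ hm).2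
  · show Ml S.col (S.col a) (S.p a + if a = j then aeval S.ch F - aeval S.G.th F else 0)
    refine Mw.add (h.mp a) ?_
    split_ifs with ha
    · rw [ha]
      exact (mw_aeval (ch_ml hB h) (mw_hom hm)).sub (mw_hom (b3 _ _ hm).2)
    · exact mw_zero

/-- new lower order term -/
def np (S : St ι J q) (j : ι) (u : ι → ℝ) : St ι J q :=
  { S with p := fun a => S.p a + if a = j then ∑ c, C (u c) * S.ch c else 0 }

theorem np_ch (u : ι → ℝ) (a : ι) :
    (np S j u).ch a = S.ch a + if a = j then aeval S.ch (lin u) else 0 := by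
  have e : aeval S.ch (lin u) = ∑ c, C (u c) * S.ch c := by
    rw [lin, map_sum]
    exact sum_congr rfl fun c _ => by rw [map_mul, aeval_X, aeval_C]; rfl
  rw [e]
  show S.G.th a + (S.p a + _) = S.G.th a + S.p a + _
  rw [add_assoc]

theorem np_ok (hB : BR) (h : S.Ok s gr) {u : ι → ℝ} (hu : ∀ a, u a ≠ 0 → S.col a ⊂ S.col j) :
    (np S j u).Ok s gr := by
  refine ⟨h.go, h.ok, h.wc, h.pr, fun a => ?_, h.tri, h.inj, h.g0, h.gc, h.ce, h.ee, h.ae, h.mq,
    fun a => ?_, h.al0, h.n1⟩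
  · show S.G.Dl (S.G.w a) (S.p a + if a = j then ∑ c, C (u c) * S.ch c else 0)
    refine dl_add (h.pd a) ?_
    split_ifs with ha
    · rw [ha]
      refine sum_induction _ (S.G.Dl _) (fun _ _ => dl_add) (dl_zero _) fun c _ => ?_
      by_cases hc : u c = 0
      · rw [hc, map_zero, zero_mul]; exact dl_zero _
      · have h1 : S.G.w c < S.G.w j := by rw [h.wc, h.wc]; exact card_lt_card (hu c hc)
        rw [mul_comm]
        exact (dl_mul (ch_dl h c) (hm_dl (isWeightedHomogeneous_C S.G.w (u c)))).mono (by omega)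
    · exact dl_zero _
  · show Ml S.col (S.col a) (S.p a + if a = j then ∑ c, C (u c) * S.ch c else 0)
    refine Mw.add (h.mp a) ?_
    split_ifs with ha
    · rw [ha]
      refine mw_sum _ fun c _ => ?_
      by_cases hc : u c = 0
      · rw [hc, map_zero, zero_mul]; exact mw_zero
      · refine (Mw.cmul (ch_ml hB h c) _).mono fun i => ?_
        unfold ic
        split_ifs with h1 h2
        exacts [le_rfl, absurd ((hu c hc).1 h1) h2, zero_le_one, le_rfl]
    · exact mw_zero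

theorem sq_near (hc : ∀ a, S'.ch a = S.ch a + if a = j then aeval S.ch F else 0) {Z ε : ℝ}
    (hZ : 1 ≤ Z) (h1 : ε ≤ 1) (hφ : ∀ x : ι → ℝ, (∀ a, a ≠ j → |x a| ≤ Z) → |eval x F| ≤ ε)
    (z : ι → ℤ) (hz : S.sq z ≤ Z ∨ S'.sq z ≤ Z) : |S'.sq z - S.sq z| ≤ 3 * Z * ε := by
  obtain ⟨u, hu⟩ : ∃ u : ι → ℝ, u = fun a => eval (cz z) (S.ch a) := ⟨_, rfl⟩
  obtain ⟨φ, hφ'⟩ : ∃ φ, φ = eval u F := ⟨_, rfl⟩
  have e1 : S.sq z = u j ^ 2 + ∑ a ∈ univ.erase j, u a ^ 2 := by
    rw [hu, St.sq, ← add_sum_erase univ _ (mem_univ j)]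
  have e2 : S'.sq z = (u j + φ) ^ 2 + ∑ a ∈ univ.erase j, u a ^ 2 := by
    rw [hφ', hu, St.sq, ← add_sum_erase univ _ (mem_univ j), hc, if_pos rfl, map_add, ev_aeval]
    exact congrArg₂ (· + ·) rfl (sum_congr rfl fun a ha => by
      rw [hc, if_neg (ne_of_mem_erase ha), add_zero])
  have r0 : 0 ≤ ∑ a ∈ univ.erase j, u a ^ 2 := sum_nonneg fun _ _ => sq_nonneg _
  rw [e1, e2] at hz ⊢
  have r1 : ∑ a ∈ univ.erase j, u a ^ 2 ≤ Z :=
    hz.elim (fun hz => (le_add_of_nonneg_left (sq_nonneg _)).trans hz)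
      fun hz => (le_add_of_nonneg_left (sq_nonneg _)).trans hz
  have ab : ∀ x : ℝ, x ^ 2 ≤ Z → |x| ≤ Z := fun x hx =>
    abs_le_of_sq_le_sq' (by nlinarith) (by linarith) |> abs_le.2
  have b1 : |φ| ≤ ε := by
    rw [hφ']
    exact hφ u fun i hi => ab _ ((single_le_sum (f := fun a => u a ^ 2) (fun _ _ => sq_nonneg _)
      (mem_erase.2 ⟨hi, mem_univ i⟩)).trans r1)
  have b2 : |2 * u j + φ| ≤ 3 * Z := by
    have c1 := abs_le.1 (b1.trans h1)
    rcases hz with hz | hz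
    · have c2 := abs_le.1 (ab (u j) (by linarith))
      exact abs_le.2 ⟨by linarith, by linarith⟩
    · have c2 := abs_le.1 (ab (u j + φ) (by linarith))
      exact abs_le.2 ⟨by linarith, by linarith⟩
  rw [show (u j + φ) ^ 2 + ∑ a ∈ univ.erase j, u a ^ 2 -
    (u j ^ 2 + ∑ a ∈ univ.erase j, u a ^ 2) = (2 * u j + φ) * φ by ring, abs_mul]
  exact mul_le_mul b2 b1 (abs_nonneg _) (by linarith)

/-- mass and density after a small change of one chart -/
theorem cmp {c : ℕ} {N δ : ℝ} {f : Pt J q → ℝ} {θ θn : ℕ → ℝ} {γ ρ b η P Ω L : ℝ}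
    (h : S.Inv s gr N δ f θ θn γ ρ b) (P2 : 2 ≤ P) (Ω1 : 1 ≤ Ω) (hγ : γ ≤ Ω) (η0 : 0 < η)
    (η1 : η ≤ 1 / 2) (hb : Real.exp (-Ω) ≤ η * b) (l0 : 0 ≤ L)
    (hf : L * (P * Ω) ^ ((c + 5) * (s + 1) + 7) ≤ η)
    (hc : ∀ a, S'.ch a = S.ch a + if a = j then aeval S.ch F else 0)
    (hφ : ∀ Z : ℝ, 1 ≤ Z → ∀ x : ι → ℝ, (∀ a, a ≠ j → |x a| ≤ Z) → |eval x F| ≤ L * Z ^ s)
    (hx : ∀ z, S'.xs z = S.xs z) (s1 : Summable S.wt) (s2 : Summable S'.wt)
    (T1 : ∀ Z, ∑' z : ι → ℤ, (if Z ≤ S.sq z then S.wt z else 0) ≤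
      Real.exp (P ^ c * (1 + (Ω + P + 5 + P ^ 2)) - Z) * S.G.dv univ)
    (T2 : ∀ Z, ∑' z : ι → ℤ, (if Z ≤ S'.sq z then S'.wt z else 0) ≤
      Real.exp (P ^ c * (1 + (Ω + P + 5 + P ^ 2)) - Z) * S.G.dv univ) :
    Real.exp (-(γ + 1)) * S.G.dv univ ≤ S'.ms ∧ (1 - η) * b * S'.ms ≤ S'.hit f := by
  obtain ⟨Z, hZ⟩ : ∃ Z, Z = P ^ c * (1 + (Ω + P + 5 + P ^ 2)) + (2 * Ω + 3) := ⟨_, rfl⟩
  have Z1 : 1 ≤ Z := by
    have : 0 ≤ P ^ c * (1 + (Ω + P + 5 + P ^ 2)) := by positivity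
    linarith
  have PΩ : 2 ≤ P * Ω := by nlinarith
  have f1 : 128 * (Z * (L * Z ^ s)) ≤ η := by
    refine le_trans ?_ hf
    have h1 : Z ^ (s + 1) ≤ (P * Ω) ^ ((c + 5) * (s + 1)) := by
      rw [pow_mul]
      exact pow_le_pow_left₀ (by linarith) (hZ ▸ num P2 Ω1 c) _
    have h2 : (2 : ℝ) ^ 7 ≤ (P * Ω) ^ 7 := pow_le_pow_left₀ (by norm_num) PΩ 7
    rw [pow_add, show 128 * (Z * (L * Z ^ s)) = L * (Z ^ (s + 1) * 2 ^ 7) by ring]
    exact mul_le_mul_of_nonneg_left (mul_le_mul h1 h2 (by norm_num) (by positivity)) l0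
  have f0 : 0 ≤ L * Z ^ s := by positivity
  have f2 : L * Z ^ s ≤ 1 := by nlinarith
  have nr : ∀ z, S.sq z ≤ Z ∨ S'.sq z ≤ Z → |π * (S'.sq z - S.sq z)| ≤ η / 8 := fun z hz => by
    have h1 := sq_near hc Z1 f2 (hφ Z Z1) z hz
    rw [abs_mul, abs_of_pos Real.pi_pos]
    refine (mul_le_mul Real.pi_le_four h1 (abs_nonneg _) (by norm_num)).trans ?_
    nlinarith [mul_nonneg (zero_le_one.trans Z1) f0]
  have w0 : ∀ (S : St ι J q) z, 0 < S.wt z := fun _ _ => Real.exp_pos _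
  have lo1 : ∀ z, (1 - η / 8) * S.wt z - (if Z ≤ S.sq z then S.wt z else 0) ≤ S'.wt z := fun z => by
    split_ifs with hz
    · nlinarith [w0 S z, w0 S' z]
    · have h1 := (abs_le.1 (nr z (Or.inl (not_le.1 hz).le))).2
      rw [sub_zero, St.wt, St.wt, show -π * S'.sq z =
        -(π * (S'.sq z - S.sq z)) + -π * S.sq z by ring, Real.exp_add]
      exact mul_le_mul_of_nonneg_right
        (by linarith [Real.add_one_le_exp (-(π * (S'.sq z - S.sq z)))]) (Real.exp_pos _).le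
  have up1 : ∀ z, (1 - η / 8) * S'.wt z - (if Z ≤ S'.sq z then S'.wt z else 0) ≤ S.wt z := fun z => by
    split_ifs with hz
    · nlinarith [w0 S z, w0 S' z]
    · have h1 := (abs_le.1 (nr z (Or.inr (not_le.1 hz).le))).1
      rw [sub_zero, St.wt, St.wt, show -π * S.sq z =
        π * (S'.sq z - S.sq z) + -π * S'.sq z by ring, Real.exp_add]
      exact mul_le_mul_of_nonneg_right
        (by linarith [Real.add_one_le_exp (π * (S'.sq z - S.sq z))]) (Real.exp_pos _).le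
  have st : ∀ S : St ι J q, Summable S.wt → Summable fun z => if Z ≤ S.sq z then S.wt z else 0 :=
    fun S hs => hs.of_nonneg_of_le (fun z => by split_ifs; exacts [(w0 S z).le, le_rfl])
      fun z => by split_ifs; exacts [le_rfl, (w0 S z).le]
  have i0 : ∀ z, 0 ≤ f (S.xs z) ∧ f (S.xs z) ≤ 1 := fun z => h.f0 _
  have si : ∀ S' : St ι J q, Summable S'.wt → Summable fun z => S'.wt z * f (S.xs z) := fun S' hs =>
    hs.of_nonneg_of_le (fun z => mul_nonneg (w0 S' z).le (i0 z).1)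
      fun z => mul_le_of_le_one_right (w0 S' z).le (i0 z).2
  have m0 := ms_nonneg S
  have tl : Real.exp (P ^ c * (1 + (Ω + P + 5 + P ^ 2)) - Z) * S.G.dv univ ≤ η * b / 8 * S.ms := by
    have h1 : Real.exp (-3) ≤ 1 / 8 := by
      rw [Real.exp_neg, one_div]
      refine inv_anti₀ (by norm_num) ?_
      have h2 : (2 : ℝ) ≤ Real.exp 1 := by linarith [Real.add_one_le_exp 1]
      have h3 := pow_le_pow_left₀ (by norm_num) h2 3
      rw [← Real.exp_nat_mul] at h3
      norm_num at h3 ⊢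
      exact h3
    have h2 := (mul_le_mul_of_nonneg_right (Real.exp_le_exp.2 (neg_le_neg hγ))
      (dv_nonneg S.G univ)).trans h.ma
    rw [hZ, show P ^ c * (1 + (Ω + P + 5 + P ^ 2)) - (P ^ c * (1 + (Ω + P + 5 + P ^ 2)) +
      (2 * Ω + 3)) = -Ω + -3 + -Ω by ring, Real.exp_add, Real.exp_add, mul_assoc]
    refine mul_le_mul ?_ h2 (mul_nonneg (Real.exp_pos _).le (dv_nonneg _ _))
      (by linarith [Real.exp_pos (-Ω)])
    nlinarith [Real.exp_pos (-Ω), Real.exp_pos (-3 : ℝ)]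
  have t1 := (T1 Z).trans tl
  have t2 := (T2 Z).trans tl
  have a1 : (1 - η / 8) * S.ms - η * b / 8 * S.ms ≤ S'.ms := by
    have := ((s1.mul_left _).sub (st S s1)).tsum_le_tsum lo1 s2
    rw [(s1.mul_left _).tsum_sub (st S s1), tsum_mul_left] at this
    exact le_trans (sub_le_sub_left t1 _) this
  have a2 : (1 - η / 8) * S'.ms - η * b / 8 * S.ms ≤ S.ms := by
    have := ((s2.mul_left _).sub (st _ s2)).tsum_le_tsum up1 s1
    rw [(s2.mul_left _).tsum_sub (st _ s2), tsum_mul_left] at this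
    exact le_trans (sub_le_sub_left t2 _) this
  have a3 : (1 - η / 8) * S.hit f - η * b / 8 * S.ms ≤ S'.hit f := by
    have := (((si S s1).mul_left (1 - η / 8)).sub (st S s1)).tsum_le_tsum (fun z => by
      have h1 := mul_le_mul_of_nonneg_right (lo1 z) (i0 z).1
      have h2 : 0 ≤ (if Z ≤ S.sq z then S.wt z else 0) := by
        split_ifs; exacts [(w0 S z).le, le_rfl]
      have h3 := mul_le_mul_of_nonneg_left (i0 z).2 h2
      show _ ≤ S'.wt z * f (S.xs z)
      nlinarith) (si _ s2)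
    rw [((si S s1).mul_left _).tsum_sub (st S s1), tsum_mul_left] at this
    have e : S'.hit f = ∑' z, S'.wt z * f (S.xs z) := by simp only [St.hit, hx]
    rw [e]
    exact le_trans (sub_le_sub_left t1 _) this
  have a4 : S.hit f ≤ S.ms := (si S s1).tsum_le_tsum
    (fun z => mul_le_of_le_one_right (w0 S z).le (i0 z).2) s1
  have a5 := h.de
  have b0 : 0 < b := by
    by_contra h1
    nlinarith [Real.exp_pos (-Ω), mul_nonneg η0.le (neg_nonneg.2 (not_lt.1 h1))]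
  have a6 : η * b / 8 * S.ms ≤ η / 8 * S.ms := by nlinarith
  constructor
  · have h1 : Real.exp (-1) ≤ 1 / 2 := by
      rw [Real.exp_neg, one_div]
      exact inv_anti₀ (by norm_num) (by linarith [Real.add_one_le_exp 1])
    have h2 := h.ma
    rw [show -(γ + 1) = -1 + -γ by ring, Real.exp_add, mul_assoc]
    have h3 := mul_le_mul h1 h2 (mul_nonneg (Real.exp_pos _).le (dv_nonneg _ _)) (by norm_num)
    nlinarith
  · have m1 := ms_nonneg S'
    have h1 : (1 - η / 8) * S'.ms ≤ (1 + η / 8) * S.ms := by linarith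
    have h2 : (1 - η) * S'.ms ≤ (1 - η / 4) * S.ms := fin1 η0 η1 m0 m1 h1
    have h3 := mul_le_mul_of_nonneg_left h2 b0.le
    have h4 := mul_le_mul_of_nonneg_left a5 (show 0 ≤ 1 - η / 8 by linarith)
    refine le_trans ?_ a3
    calc (1 - η) * b * S'.ms = b * ((1 - η) * S'.ms) := by ring
      _ ≤ b * ((1 - η / 4) * S.ms) := h3
      _ = (1 - η / 8) * (b * S.ms) - η * b / 8 * S.ms := by ring
      _ ≤ _ := sub_le_sub_right h4 _

end Pe

open Pe

theorem pert (hB : BR) (hT : TAILW) : PERT := by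
  intro s
  obtain ⟨c, hT⟩ := hT s
  refine ⟨(c + 5) * (s + 1) + 7, fun J q gr N δ f ι _ _ S θ θn γ ρ b η P Ω j F h hP Ω1 hθ hγ η0 η1
    hb hj hl hm hf => ?_⟩
  have P2 := hP.P2
  have k1 := ns_ok hB h.ok hj hl hm
  have hh : S.G.Hm (S.G.w j) F := by
    rw [h.ok.wc]; exact ((hB s J q gr ι S h.ok).2.2.2.2.2.2.2.2.1 _ _ hm).1
  have o0 : 0 ≤ Ω + P + 5 + P ^ 2 := by positivity
  have o1 : ∀ g, θ g ≤ Ω + P + 5 + P ^ 2 := fun g => by nlinarith [hθ g]
  obtain ⟨m1, m2⟩ := cmp (c := c) h P2 Ω1 hγ η0 η1 hb (sum_nonneg fun _ _ => abs_nonneg _) hf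
    (ns_ch h.ok) (fun Z hZ x hx => by
      have e3 : eval x F = eval (Function.update x j 0) F :=
        hom_congr_vars (f₁ := eval x) (f₂ := eval (Function.update x j 0)) (by ext r; simp)
          (fun i hi _ => by
            have : i ≠ j := fun e => lt_irrefl _ (e ▸ hl i hi)
            simp [Function.update_of_ne this]) rfl
      rw [e3]
      refine L1.abs_eval_le hZ (fun i => ?_)
        ((Chart.totalDegree_le_of_hom h.ok.ok.w1 hh).trans (h.ok.ok.ws j))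
      by_cases hi : i = j
      · rw [hi, Function.update_self, abs_zero]; linarith
      · rw [Function.update_of_ne hi]
        exact hx i hi) (fun _ => rfl) (hB s J q gr ι S h.ok).2.1 (hB s J q gr ι _ k1).2.1
    (fun Z => (hT J q gr ι S θ P h.ok hP h.ph).2 _ Z o0 o1)
    (fun Z => (hT J q gr ι (ns S j F) θ P k1 hP h.ph).2 _ Z o0 o1)
  exact ⟨ns S j F, ⟨k1, h.f0, h.ph, h.pn, m1, h.nr, h.ar, h.na, m2⟩, ⟨rfl, rfl, rfl, rfl, rfl⟩,
    rfl, rfl, fun a => rfl⟩

theorem prt (hB : BR) (hT : TAILW) : PRT := by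
  intro s
  obtain ⟨c, hT⟩ := hT s
  refine ⟨(c + 5) * (s + 1) + 7, fun J q gr N δ f ι _ _ S θ θn γ ρ b η P Ω j u h hP Ω1 hθ hγ η0 η1
    hb hu hf => ?_⟩
  have P2 := hP.P2
  have k1 := np_ok hB h.ok hu
  have o0 : 0 ≤ Ω + P + 5 + P ^ 2 := by positivity
  have o1 : ∀ g, θ g ≤ Ω + P + 5 + P ^ 2 := fun g => by nlinarith [hθ g]
  have s1 : 1 ≤ s := (h.ok.ok.w1 j).trans (h.ok.ok.ws j)
  obtain ⟨m1, m2⟩ := cmp (c := c) h P2 Ω1 hγ η0 η1 hb (sum_nonneg fun _ _ => abs_nonneg _) hf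
    (np_ch u) (fun Z hZ x hx => by
      rw [lin, map_sum, sum_mul]
      refine (abs_sum_le_sum_abs _ _).trans (sum_le_sum fun a _ => ?_)
      rw [map_mul, eval_C, eval_X, abs_mul]
      by_cases ha : u a = 0
      · rw [ha, abs_zero, zero_mul, zero_mul]
      · refine mul_le_mul_of_nonneg_left ((hx a fun e => ?_).trans
          (le_self_pow₀ hZ (by omega))) (abs_nonneg _)
        exact (hu a ha).ne (by rw [e])) (fun _ => rfl) (hB s J q gr ι S h.ok).2.1
    (hB s J q gr ι _ k1).2.1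
    (fun Z => (hT J q gr ι S θ P h.ok hP h.ph).2 _ Z o0 o1)
    (fun Z => (hT J q gr ι (np S j u) θ P k1 hP h.ph).2 _ Z o0 o1)
  exact ⟨np S j u, ⟨k1, h.f0, h.ph, h.pn, m1, h.nr, h.ar, h.na, m2⟩, rfl, rfl,
    by show S.p j + (if j = j then _ else 0) = _; rw [if_pos rfl]⟩

end

end Vale.Agent.P057T.Cw
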