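import Vale.Agent.P057T.Cw.Fix
import Vale.Agent.P057T.Cw.Br
import Vale.Agent.P057T.Rg.Ra

/-! Round of type A for coloured towers. -/

open MvPolynomial Finset

namespace Vale.Agent.P057T.Cw.RaH6

open Vale.Agent.P057T.Eq Vale.Agent.P057T.L1
open Vale.Agent.P057T.Rg (gp tk lo at1 l1_scale ra_num ra_eta e3le)

set_option linter.unusedSectionVars false

theorem ra1 (hR : REL) (hS : SHR1) (hP : PERT) (hD : DIL1) (hH : SHEAR) : RA := by
  intro s
  obtain ⟨c, hP⟩ := hP s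
  obtain ⟨c2, hnum⟩ := ra_num c
  refine ⟨c2, ?_⟩
  intro J q gr N δ₀ f₀ ι _ _ S θ θn γ ρ b η P Λ x h g hI hz hΛ hθ hγ hx0 hx hh0 hh hn0 hn hη hη2 hxb hB
  have P2 := hz.P2
  have hD' := hz.cd
  have hD0 : (0 : ℝ) ≤ Fintype.card ι := Nat.cast_nonneg _
  have η0 : 0 < η := (Real.exp_pos _).trans_le hη
  have b0 : 0 < b := by
    have := (Real.exp_pos _).trans_le hxb
    exact (pos_iff_pos_of_mul_pos this).1 η0
  obtain ⟨S1, j, δ, n, f, I1, sa1, hj, pv1, n1, nδ, δl, rl, lf⟩ :=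
    hR s J q gr N δ₀ f₀ ι S θ θn γ ρ b (Real.exp h) g hI hB
  obtain ⟨l, Ω, l0, hlb, Ω8, lΩ, hsm0, hL⟩ := hnum P Λ h (θn g) _ η P2 hΛ hh0 hh hn0 hn hD0 hD' hη
  obtain ⟨η1, η2, η3⟩ := ra_eta η0 hη2 b0
  have e3 := e3le
  have hx3 : Real.exp (-(x + 3)) ≤ η * b / 10 := by
    rw [neg_add, Real.exp_add]
    have := mul_le_mul hxb e3 (Real.exp_pos _).le (by positivity)
    linarith
  have ηb : 0 < η * b := by positivity
  obtain ⟨S2, I2, sa2, q2, A2, B2⟩ := hS s J q gr N δ₀ f₀ ι S1 θ θn γ ρ b (η / 5) (x + 3) l g I1 l0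
    (by positivity) (by linarith) (by linarith)
  have δ0 : 0 < δ := pv1.2.1
  have n1' : (1 : ℝ) ≤ n := by exact_mod_cast n1
  have nδ0 : 0 < n * δ := by positivity
  have g1 : S1.G.g = S.G.g := sa1.1
  have g2 : S2.G.g = S.G.g := sa2.1.trans g1
  have x2 : S2.G.ex = S.G.ex := sa2.2.2.1.trans sa1.2.2.1
  have jV := pv1.1
  have jx : j ∉ S.G.ex := (mem_sdiff.1 jV).2
  set f1 : MvPolynomial ι ℝ :=
    C (n * δ)⁻¹ * aeval (fun a => (C (Real.exp (-l)) * X a : MvPolynomial ι ℝ)) f with hf1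
  have th2 : ∀ a, S.G.g a < g → C (Real.exp (-l)) * S2.G.th a = S1.G.th a := by
    intro a ha
    simp only [GT.th, q2, A2, g1, ha, if_true, Finset.mul_sum]
    refine Finset.sum_congr rfl fun d _ => ?_
    rw [← mul_assoc, ← C_mul, ← mul_assoc, ← Real.exp_add]
    simp
  have lof : ∀ a ∈ f.vars, S.G.g a < g := fun a ha => by
    have := rl.1 a ha
    rwa [g1, hj] at this
  have ev1 : aeval S2.G.th f1 = C (n * δ)⁻¹ * aeval S1.G.th f := by
    rw [hf1, map_mul, aeval_C, algebraMap_eq, ← AlgHom.comp_apply, comp_aeval]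
    congr 1
    refine Chart.aeval_congr_vars fun a ha => ?_
    rw [map_mul, aeval_C, algebraMap_eq, aeval_X]
    exact th2 a (lof a ha)
  have w2 : S2.G.w = S1.G.w := sa2.2.1
  have hm1 : f.IsWeightedHomogeneous S1.G.w (S1.G.w j) := by
    have e := BrP.hm_of_mh I1.ok rl.2.1
    rw [← I1.ok.wc j] at e
    exact e
  have hl1 : l ≤ Fintype.card ι * l :=
    le_mul_of_one_le_left l0.le (by exact_mod_cast Fintype.card_pos_iff.2 ⟨j⟩)
  have hσ : Real.exp (-l) ≤ 1 := Real.exp_le_one_iff.2 (by linarith)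
  have lf1 : l1 f1 ≤ Real.exp (θn g + P + 4 - l + h) := by
    have e1 : l1 f1 = |(n * δ)⁻¹| * l1 (aeval
        (fun a => (C (Real.exp (-l)) * X a : MvPolynomial ι ℝ)) f) := nrm_C_mul _ _
    have e2 := l1_scale (I1.ok.ok.w1 j) hm1 (Real.exp_pos (-l)).le hσ
    have e4 : (n * δ)⁻¹ ≤ Real.exp (θn g + P + 4) := by
      rw [inv_le_comm₀ nδ0 (Real.exp_pos _), ← Real.exp_neg]
      refine le_trans (Real.exp_le_exp.2 (by linarith)) (δl.trans ?_)
      exact le_mul_of_one_le_left δ0.le n1'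
    rw [e1, abs_of_pos (inv_pos.2 nδ0)]
    refine (mul_le_mul e4 (e2.trans (mul_le_mul_of_nonneg_left lf (Real.exp_pos _).le))
      (nrm_nonneg _) (Real.exp_pos _).le).trans ?_
    rw [← Real.exp_add, ← Real.exp_add]
    exact le_of_eq (by congr 1; ring)
  have EΛ : Λ + 1 ≤ Real.exp Λ := Real.add_one_le_exp Λ
  have hsm : l1 f1 * (P * Ω) ^ c ≤ η / 5 :=
    (mul_le_mul_of_nonneg_right lf1 (pow_nonneg (mul_nonneg (by linarith) (by linarith)) c)).trans hsm0
  obtain ⟨S3, I3, sa3, A3, B3, q3⟩ := hP J q gr N δ₀ f₀ ι S2 _ _ _ _ _ (η / 5) P Ω j f1 I2 hz (by linarith)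
    (fun g' => by
      have := hθ g'
      have e : (if g' < g then (Fintype.card ι : ℝ) * l else 0) ≤ Fintype.card ι * l := by
        split_ifs
        · exact le_rfl
        · positivity
      simp only [lo]
      linarith) (by linarith) (by positivity) (by linarith)
    ((Real.exp_le_exp.2 (by linarith : -Ω ≤ -(x + 3))).trans (hx3.trans η1))
    (by rw [x2]; exact jx)
    (by
      rw [g2, hj]
      intro a ha
      rw [g2]
      refine Chart.vars_mul' (P := fun a => S.G.g a < g) (Chart.vars_C' _)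
        (Chart.vars_aeval fun i hi => Chart.vars_mul' (Chart.vars_C' _)
          (Chart.vars_X' (lof i hi))) a ha)
    (by
      have c2' : S2.col = S1.col := sa2.2.2.2.1
      rw [c2', hf1]
      refine (BrP.hom_aeval (fun i => ?_) rl.2.1).C_mul _
      exact (isWeightedHomogeneous_X ℝ (fun a => ic (S1.col a)) i).C_mul _)
    hsm
  have Bjj : S1.G.B j j = δ := by
    have e := congrFun (congrFun I1.ok.ok.AB j) j
    rw [Matrix.mul_apply, Matrix.one_apply_eq, Finset.sum_eq_single j, pv1.2.2.1] at e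
    · field_simp at e; exact e
    · intro d _ hd
      by_cases h1 : d ∈ S.G.ex
      · rw [(I1.ok.tri d (sa1.2.2.1 ▸ h1) j (sa1.2.2.1 ▸ jx)).2, mul_zero]
      · by_cases h2 : S.G.g d = g
        · rw [pv1.2.2.2 d (by simp [gp, h1, h2]) hd, zero_mul]
        · have : S1.G.A j d = 0 := by
            by_contra h3
            have := (I1.ok.ok.blk j d (Or.inl h3)).1
            rw [g1, hj] at this
            exact h2 this.symm
          rw [this, zero_mul]
    · simp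
  have jl : ¬ S.G.g j < g := by omega
  have z3 : IsZ (C (n : ℝ) * S3.G.q j) := by
    have e : C (n : ℝ) * S3.G.q j = C (n : ℝ) * S1.G.q j - aeval S1.G.th f := by
      rw [q3, ev1, B2, g1, if_neg jl, one_mul, Bjj, q2, mul_sub, ← mul_assoc, ← mul_assoc,
        ← C_mul, ← C_mul, mul_inv_cancel₀ nδ0.ne', C_1, one_mul]
    rw [e]
    exact rl.2.2
  have g3 : S3.G.g = S.G.g := sa3.1.trans g2
  have nl : (n : ℝ) ≤ Real.exp l := by
    have e1 : Real.exp (-(θn g + P + 4)) ≤ δ := le_trans (Real.exp_le_exp.2 (by linarith)) δl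
    have e2 : n * Real.exp (-(θn g + P + 4)) ≤ Real.exp h :=
      (mul_le_mul_of_nonneg_left e1 (by linarith)).trans nδ
    rw [Real.exp_neg, ← div_eq_mul_inv, div_le_iff₀ (Real.exp_pos _), ← Real.exp_add] at e2
    exact e2.trans (Real.exp_le_exp.2 hlb)
  obtain ⟨S4, I4, sa4, A4, B4, q4⟩ := hD s J q gr N δ₀ f₀ ι S3 _ _ _ _ _ (η / 5) (x + 3) l g n I3 n1 nl
    (by positivity) (by linarith) (hx3.trans η2)
  have g4 : S4.G.g = S.G.g := sa4.1.trans g3
  have x4 : S4.G.ex = S.G.ex := sa4.2.2.1.trans (sa3.2.2.1.trans x2)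
  have w4 : S4.G.w = S.G.w := sa4.2.1.trans (sa3.2.1.trans (w2.trans sa1.2.1))
  have row : ∀ d, S4.G.A j d = S1.G.A j d := fun d => by
    rw [A4, g3, if_neg jl, one_mul, A3, A2, g1, if_neg jl, one_mul]
  have j4 : S4.G.g j = g := by rw [g4, hj]
  obtain ⟨S5, I5, p5⟩ := hH s J q gr N δ₀ f₀ ι S4 _ _ _ _ _ δ h j I4 (by
      have e : gp S4.G (S4.G.g j) \ S4.G.ex = gp S.G g \ S.G.ex := by
        rw [j4, x4, gp, gp, g4]
      rw [e]
      exact ⟨jV, δ0, (row j).trans pv1.2.2.1, fun d hd hne => (row d).trans (pv1.2.2.2 d hd hne)⟩)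
    ((le_mul_of_one_le_left δ0.le n1').trans nδ) (q4 j (by rw [g3, hj]) z3)
  refine ⟨S5, I5.mono ?_ ?_ (by linarith) (by linarith) ?_, ?_⟩
  · intro g'
    simp only [lo]
    split_ifs <;> linarith
  · intro g'
    simp only [lo, at1, j4]
    split_ifs <;> linarith
  · exact η3
  · have : S4.pot = S.pot := by rw [St.pot, St.pot, w4, x4]
    exact this ▸ p5

end Vale.Agent.P057T.Cw.RaH6
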