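import Vale.Agent.P057T.Cw.Defs
import Vale.Agent.P057T.Rg.Reco

/-! Change of basis inside the exact or the non exact part of a group, coloured towers. -/

set_option linter.all false

open MvPolynomial Finset

namespace Vale.Agent.P057T.Cw

open Vale.Agent.P057T.Eq Vale.Agent.P057T.Cp
open Vale.Agent.P057T.Rg (gp tk lo at1)

namespace Reco

variable {ι τ M : Type} [AddCommMonoid M]

/-- the weights of a substitution by homogeneous polynomials -/
theorem wt_aeval {w : ι → M} {v : τ → M} {f : ι → MvPolynomial τ ℝ}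
    (hf : ∀ i, (f i).IsWeightedHomogeneous v (w i)) (p : MvPolynomial ι ℝ) :
    ∀ m' ∈ (aeval f p).support, ∃ m ∈ p.support, Finsupp.weight v m' = Finsupp.weight w m := by
  classical
  intro m' hm'
  rw [p.as_sum, map_sum] at hm'
  obtain ⟨m, hm, h⟩ := mem_biUnion.1 (support_sum hm')
  refine ⟨m, hm, ?_⟩
  have k : IsWeightedHomogeneous v (aeval f (monomial m (coeff m p))) (Finsupp.weight w m) := by
    rw [aeval_monomial, Finsupp.weight_apply, Finsupp.prod, Finsupp.sum]
    have h1 := (isWeightedHomogeneous_C v (coeff m p)).mul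
      (IsWeightedHomogeneous.prod m.support (fun i => f i ^ m i) (fun i => m i • w i)
        fun i _ => (hf i).pow (m i))
    rw [zero_add] at h1
    exact h1
  exact k (mem_support_iff.1 h)

theorem sb_hm [Fintype ι] [DecidableEq ι] {w : ι → M} {U : Matrix ι ι ℤ}
    (hw : ∀ a c, U a c ≠ 0 → w a = w c) (a : ι) : (Cp.sb U a).IsWeightedHomogeneous w (w a) := by
  refine IsWeightedHomogeneous.sum _ _ _ fun c _ => ?_
  by_cases k : U a c = 0
  · simp only [cz, k, Int.cast_zero, map_zero, zero_mul]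
    exact isWeightedHomogeneous_zero _ _ _
  · have := (isWeightedHomogeneous_C w (cz (U a) c)).mul (isWeightedHomogeneous_X ℝ w c)
    rwa [zero_add, ← hw a c k] at this

end Reco

open Reco Vale.Agent.P057T.Rg.Reco in
theorem reco0 : RECO := by
  intro s J q gr N δ f ι _ _ S θ θn γ ρ b g V U U' hI hg0 hV h hU hD
  have hO := hI.ok
  have hVg : ∀ a ∈ V, S.G.g a = g := by
    intro a ha
    rcases hV with rfl | rfl
    · exact (mem_filter.1 (mem_inter.1 ha).1).2
    · exact (mem_filter.1 (mem_sdiff.1 ha).1).2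
  have hg : ∀ a c, (U a c ≠ 0 ∨ U' a c ≠ 0) → S.G.g a = S.G.g c := by
    intro a c k
    rcases hU a c k with rfl | k
    · rfl
    · rw [hVg a k.1, hVg c k.2]
  have hcol : ∀ a c, (U a c ≠ 0 ∨ U' a c ≠ 0) → S.col a = S.col c := by
    intro a c k
    rcases hU a c k with rfl | k
    · rfl
    · apply hO.go.inj
      rw [← hO.gc a (by rw [hVg a k.1]; exact hg0), ← hO.gc c (by rw [hVg c k.2]; exact hg0),
        hVg a k.1, hVg c k.2]
  have hw : ∀ a c, (U a c ≠ 0 ∨ U' a c ≠ 0) → S.G.w a = S.G.w c := fun a c k => by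
    rw [hO.wc, hO.wc, hcol a c k]
  have hen : ∀ c l, S.en c l ∉ V := fun c l k =>
    hg0 ((hVg _ k).symm.trans ((hO.g0 _).2 ⟨c, l, rfl⟩))
  have hrow : ∀ a, a ∉ V → ∀ d, U a d = (if d = a then 1 else 0) ∧
      U' a d = if d = a then 1 else 0 := by
    intro a ha d
    by_cases k : d = a
    · subst k
      simpa using hD d ha
    · rw [if_neg k]
      constructor
      · by_contra k1
        rcases hU a d (Or.inl k1) with k2 | k2
        · exact k k2.symm
        · exact ha k2.1
      · by_contra k1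
        rcases hU a d (Or.inr k1) with k2 | k2
        · exact k k2.symm
        · exact ha k2.1
  have hsb := sb_hm (w := fun a => ic (S.col a)) (U := U) fun a c k => by
    rw [hcol a c (Or.inl k)]
  have he : ∀ a c, (U a c ≠ 0 ∨ U' a c ≠ 0) → (a ∈ S.G.ex ↔ c ∈ S.G.ex) := by
    intro a c k
    rcases hU a c k with rfl | k
    · rfl
    · rcases hV with rfl | rfl
      · exact iff_of_true (mem_inter.1 k.1).2 (mem_inter.1 k.2).2
      · exact iff_of_false (mem_sdiff.1 k.1).2 (mem_sdiff.1 k.2).2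
  have hC : Co S.G U U' (∑ c, ∑ a, |(U a c : ℝ)|) :=
    ⟨h, fun a c k => ⟨hg a c k, hw a c k⟩, fun a c k => (he a c k).1, fun c =>
      single_le_sum (f := fun c => ∑ a, |(U a c : ℝ)|)
        (fun _ _ => sum_nonneg fun _ _ => abs_nonneg _) (mem_univ c)⟩
  have h1 : ∀ g' a c, (U a c ≠ 0 ∨ U' a c ≠ 0) → (a ∈ gp S.G g' ↔ c ∈ gp S.G g') := by
    intro g' a c k
    simp only [gp, mem_filter, mem_univ, true_and, hg a c k]
  have h2 : ∀ g' a c, (U a c ≠ 0 ∨ U' a c ≠ 0) →
      (a ∈ gp S.G g' \ S.G.ex ↔ c ∈ gp S.G g' \ S.G.ex) := by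
    intro g' a c k
    rw [mem_sdiff, mem_sdiff, h1 g' a c k, he a c k]
  have hX : ∀ c, c ∉ V → Cp.sb U c = X c := by
    intro c hc
    unfold Cp.sb lin
    rw [sum_eq_single c]
    · simp [cz, (hD c hc).1]
    · intro a _ ha
      have : U c a = 0 := by
        by_contra k
        rcases hU c a (Or.inl k) with k | k
        · exact ha k.symm
        · exact hc k.1
      simp [cz, this]
    · simp
  have hF : ∀ F : MvPolynomial ι ℝ, (∀ c ∈ F.vars, S.G.g c < g) → aeval (Cp.sb U) F = F := by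
    intro F hF
    conv_rhs => rw [← aeval_X_left_apply F]
    exact Chart.aeval_congr_vars fun c hc => hX c fun k => (hF c hc).ne (hVg c k)
  let S' : St ι J q := ⟨co S.G U U', fun a => aeval (Cp.sb U) (S.p a), S.col, S.en, S.al, S.r, S.n⟩
  have hch : ∀ a, S'.ch a = aeval (Cp.sb U) (S.ch a) := by
    intro a
    unfold St.ch
    rw [map_add, ← Ca.th (M' := U') h]
  have hwt : ∀ z, S'.wt z = S.wt (U.mulVec z) := by
    intro z
    simp only [St.wt, St.sq, hch, Ca.ev]
  have hms : S'.ms = S.ms := by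
    unfold St.ms
    rw [← (eqv h).tsum_eq S.wt]
    exact tsum_congr hwt
  have hhit : S'.hit f = S.hit f := by
    unfold St.hit
    rw [← (eqv h).tsum_eq fun z => S.wt z * f (S.xs z)]
    refine tsum_congr fun z => ?_
    have : S'.xs z = S.xs (U.mulVec z) := by
      funext c l
      have e : U.mulVec z (S.en c l) = z (S.en c l) := by
        simp [Matrix.mulVec, dotProduct, (hrow _ (hen c l) _).1]
      simp only [St.xs, e]
      rfl
    rw [hwt, this]
    rfl
  refine ⟨S', ⟨⟨hO.go, Ca.ok hO.ok hC, hO.wc, hO.pr, fun a => ?_, fun a ha c hc => ⟨?_, ?_⟩,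
    hO.inj, hO.g0, hO.gc, hO.ce, hO.ee, fun c l d => ⟨?_, ?_⟩, fun a => ?_, fun a => ?_, hO.al0,
    hO.n1⟩, hI.f0, fun g' => ?_, fun g' => ?_, ?_, hI.nr, hI.ar, hI.na, ?_⟩,
    ⟨rfl, rfl, rfl, rfl, rfl⟩, rfl, rfl, fun a ha => ?_, fun a ha => ?_⟩
  · exact Ca.sb_dl (fun a c k => hw a c (Or.inl k)) (hO.pd a)
  · by_contra k
    obtain ⟨d, k1, k2⟩ := Ca.mul_ne k
    exact k1 (hO.tri a ha d fun k3 => hc ((he d c (Or.inl (Ca.map_ne k2))).1 k3)).1
  · by_contra k
    obtain ⟨d, k1, k2⟩ := Ca.mul_ne k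
    exact k2 (hO.tri d ((he a d (Or.inr (Ca.map_ne k1))).1 ha) c hc).2
  · show (S.G.A * U.map (Int.cast : ℤ → ℝ)) (S.en c l) d = if d = S.en c l then S.al else 0
    simp [Matrix.mul_apply, (hO.ae c l _).1, (hrow _ (hen c l) _).1]
  · show (U'.map (Int.cast : ℤ → ℝ) * S.G.B) (S.en c l) d = if d = S.en c l then S.al⁻¹ else 0
    simp [Matrix.mul_apply, (hO.ae c l _).2, (hrow _ (hen c l) _).2]
  · show IsWeightedHomogeneous (fun a => ic (S.col a))
      (∑ c, C (U' a c : ℝ) * aeval (Cp.sb U) (S.G.q c)) (ic (S.col a))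
    refine IsWeightedHomogeneous.sum _ _ _ fun c _ => ?_
    by_cases k : U' a c = 0
    · simp only [k, Int.cast_zero, map_zero, zero_mul]
      exact isWeightedHomogeneous_zero _ _ _
    · have k1 : IsWeightedHomogeneous (fun a => ic (S.col a)) (aeval (Cp.sb U) (S.G.q c))
          (ic (S.col c)) := by
        intro m' hm'
        obtain ⟨m, hm, e⟩ := wt_aeval hsb _ m' (mem_support_iff.2 hm')
        rw [e]
        exact hO.mq c (mem_support_iff.1 hm)
      have := (isWeightedHomogeneous_C _ (U' a c : ℝ)).mul k1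
      rwa [zero_add, ← hcol a c (Or.inr k)] at this
  · intro m' hm'
    obtain ⟨m, hm, e⟩ := wt_aeval hsb _ m' hm'
    exact e.le.trans (hO.mp a m hm)
  · have := hI.ph g'
    rw [← tk_eq S.G h _ _ (lat_iff h (h1 g')), ← dv_eq S.G h (h1 g')] at this
    exact this
  · have := hI.pn g'
    rw [← tk_eq S.G h _ _ (lat_iff h (h2 g')), ← dv_eq S.G h (h2 g')] at this
    exact this
  · have := hI.ma
    rw [← hms, ← dv_eq S.G h (W := univ) (by simp)] at this
    exact this
  · rw [hms, hhit]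
    exact hI.de
  · show ∑ c, C (U' a c : ℝ) * aeval (Cp.sb U) (S.G.q c) = _
    refine sum_congr rfl fun c _ => ?_
    by_cases k : U' a c = 0
    · simp [k]
    · rw [hF _ fun d hd => ?_]
      have := hO.ok.ql c d hd
      rwa [← hg a c (Or.inr k), ha] at this
  · show (co S.G U U').th a = _
    rw [Ca.th h, hF _ fun d hd => lt_of_le_of_lt (th_vars hO.ok a d hd) ha]

theorem reco (_ : BR) : RECO := reco0

end Vale.Agent.P057T.Cw
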