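import Vale.Agent.P057T.Cw.Defs
import Vale.Agent.P057T.Eq.Mono

/-!
Row REG: regularisation of coloured towers by induction on the potential.
-/

open MvPolynomial Finset
open scoped Real

namespace Vale.Agent.P057T.Cw

open Vale.Agent.P057T.Eq Vale.Agent.P057L
open Vale.Agent.P057T.Rg (gp tk lo at1)

set_option linter.unusedSectionVars false
set_option linter.unusedVariables false

noncomputable section

namespace RegP

/-- a scale -/
structure Sc (q Y : ℝ) (a : ℕ → ℝ) : Prop where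
  Y1 : 1 ≤ Y
  q4 : 4 ≤ q
  ya : ∀ g, Y ≤ a g
  an : Antitone a

namespace Sc

variable {Y q : ℝ} {a : ℕ → ℝ} (h : Sc q Y a)
include h

theorem a1 (g : ℕ) : 1 ≤ a g := h.Y1.trans (h.ya g)

theorem q1 : 1 ≤ q := by linarith [h.q4]

theorem pw {i j : ℕ} (hij : i ≤ j) (g : ℕ) : q ^ i * a g ≤ q ^ j * a g :=
  mul_le_mul_of_nonneg_right (pow_le_pow_right₀ h.q1 hij) (by linarith [h.a1 g])

theorem nn (i g : ℕ) : 0 ≤ q ^ i * a g :=
  mul_nonneg (pow_nonneg (by linarith [h.q4]) i) (by linarith [h.a1 g])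

theorem tb {t : ℝ} (ht : t ≤ q) {i j : ℕ} (hij : i + 1 = j) (g : ℕ) :
    t * (q ^ i * a g) ≤ q ^ j * a g := by
  subst hij
  calc t * (q ^ i * a g) ≤ q * (q ^ i * a g) := mul_le_mul_of_nonneg_right ht (h.nn i g)
    _ = _ := by ring

theorem pw4 {i j : ℕ} (hij : i + 1 = j) (g : ℕ) : 4 * (q ^ i * a g) ≤ q ^ j * a g :=
  h.tb h.q4 hij g

theorem le0 (i g : ℕ) : a g ≤ q ^ i * a g := by
  have := h.pw (Nat.zero_le i) g
  rwa [pow_zero, one_mul] at this

theorem ya' (i g : ℕ) : Y ≤ q ^ i * a g := (h.ya g).trans (h.le0 i g)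

theorem qa {i : ℕ} (hi : 1 ≤ i) (g : ℕ) : q ≤ q ^ i * a g := by
  have h1 := h.pw hi g
  rw [pow_one] at h1
  have h2 := h.a1 g
  have h3 := h.q4
  nlinarith

theorem mo (i : ℕ) {g g' : ℕ} (hg : g ≤ g') : q ^ i * a g' ≤ q ^ i * a g :=
  mul_le_mul_of_nonneg_left (h.an hg) (pow_nonneg (by linarith [h.q4]) i)

theorem qY {i : ℕ} (hi : 2 ≤ i) (g : ℕ) : q ^ 2 * Y ≤ q ^ i * a g :=
  (mul_le_mul_of_nonneg_left (h.ya g) (sq_nonneg q)).trans (h.pw hi g)

theorem small {η b : ℝ} (hη : Real.exp (-Y) ≤ η) (hb : Real.exp (-Y) ≤ b) :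
    Real.exp (-(q ^ 2 * Y)) ≤ η / q * (b / 2) ∧ Real.exp (-(q ^ 2 * Y)) ≤ η / q := by
  have h1 := h.q4
  have h2 := h.Y1
  have h3 : 2 * q ≤ Real.exp (2 * q) := by linarith [Real.add_one_le_exp (2 * q)]
  have h4 : Real.exp (-(2 * q)) ≤ (2 * q)⁻¹ := by
    rw [Real.exp_neg]
    exact inv_anti₀ (by linarith) h3
  have h5 : Real.exp (-(q ^ 2 * Y)) ≤ Real.exp (-Y) * Real.exp (-Y) * Real.exp (-(2 * q)) := by
    rw [← Real.exp_add, ← Real.exp_add, Real.exp_le_exp]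
    have : 4 * (q * Y) ≤ q * (q * Y) := mul_le_mul_of_nonneg_right h1 (by positivity)
    nlinarith
  have e0 := Real.exp_pos (-Y)
  have e1 : Real.exp (-Y) ≤ 1 := Real.exp_le_one_iff.2 (by linarith)
  have hq : 0 < (2 * q)⁻¹ := by positivity
  constructor
  · refine h5.trans ?_
    have e : η / q * (b / 2) = η * b * (2 * q)⁻¹ := by
      field_simp
    rw [e]
    exact mul_le_mul (mul_le_mul hη hb e0.le (by linarith)) h4 (Real.exp_pos _).le
      (mul_nonneg (by linarith) (by linarith))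
  · refine h5.trans ?_
    have e : η / q = η * 2 * (2 * q)⁻¹ := by
      field_simp
    rw [e]
    exact mul_le_mul (mul_le_mul hη (by linarith) e0.le (by linarith)) h4 (Real.exp_pos _).le
      (mul_nonneg (by linarith) (by norm_num))

end Sc

/-- the numerical data -/
structure Nm (s : ℕ) (P Y q k1 k2 k3 R N : ℝ) (cc a : ℕ → ℝ) : Prop where
  sa : Sc q Y a
  sm : Sc q Y fun g => cc g * (q ^ 6 * a g)
  P2 : 2 ≤ P
  c1 : ∀ g, 1 ≤ cc g
  ca : Antitone cc
  k1q : k1 ≤ q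
  k2q : k2 ≤ q
  k3q : k3 ≤ q
  p1 : P + 15 ≤ q
  p2 : P ^ 2 ≤ q
  st : ∀ g < s, cc g * (q ^ 6 * a (g + 1)) = a g
  mR : q ^ 6 * (cc 0 * (q ^ 6 * a 0)) ≤ R
  RL : R ≤ Real.exp (q ^ 2 * Y)
  N0 : 0 < N
  RN : R ≤ Real.log N

variable {J q0 : ℕ}

theorem pot_sa {ι : Type} [Fintype ι] [DecidableEq ι] {S S' : St ι J q0} (h : S.Sa S') :
    S'.pot = S.pot := by
  unfold St.pot
  rw [h.2.1, h.2.2.1]

theorem card_le_pot {ι : Type} [Fintype ι] [DecidableEq ι] (S : St ι J q0) :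
    Fintype.card ι ≤ S.pot := by
  unfold St.pot
  rw [← Finset.card_univ, Finset.card_eq_sum_ones]
  refine Finset.sum_le_sum fun a _ => ?_
  have : 1 ≤ (J + 1) ^ S.G.w a := Nat.one_le_pow _ _ (Nat.succ_pos J)
  omega

theorem small0 {ι : Type} [Fintype ι] [DecidableEq ι] {S : St ι J q0} {s : ℕ}
    {gr : Finset (Fin J) → ℕ} (h : S.Ok s gr) : S.G.Small 0 S.al := by
  intro j hj hg
  refine ⟨fun i => if i = j then 1 else 0, fun _ _ => rfl, fun i hi => ?_, fun a => ?_⟩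
  · have : i = j := by
      by_contra h0
      exact hi (if_neg h0)
    rw [this]
    exact ⟨rfl, rfl⟩
  · simp only [mul_ite, mul_one, mul_zero, Finset.sum_ite_eq', Finset.mem_univ, if_true]
    by_cases h0 : S.G.A a j = 0
    · rw [h0, abs_zero]
      exact h.al0.le
    · obtain ⟨c, l, rfl⟩ := (h.g0 a).1 ((h.ok.blk a j (Or.inl h0)).1.trans hg)
      rw [(h.ae c l j).1]
      split_ifs
      · exact (abs_of_pos h.al0).le
      · rw [abs_zero]
        exact h.al0.le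

theorem core (hH : HRM) {s c1 c2 c3 : ℕ} {gr : Finset (Fin J) → ℕ} {f : Pt J q0 → ℝ}
    {P Y q R N δ b η : ℝ} {cc a : ℕ → ℝ} (h : Nm s P Y q (P ^ c1) (P ^ c2) (P ^ c3) R N cc a)
    (hA : ∀ (J q : ℕ) (gr : Finset (Fin J) → ℕ) (N δ : ℝ) (f : Pt J q → ℝ)
      (ι : Type) [Fintype ι] [DecidableEq ι] (S : St ι J q) (θ θn : ℕ → ℝ) (γ ρ b η P Λ x h : ℝ)
      (g : ℕ), S.Inv s gr N δ f θ θn γ ρ b → Sz ι P 1 →
      1 ≤ Λ → (∀ g', θ g' ≤ Real.exp Λ) → γ ≤ Real.exp Λ → 0 ≤ x → x ≤ Real.exp Λ → 0 ≤ h →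
      h ≤ Real.exp Λ → 0 ≤ θn g → θn g ≤ Real.exp Λ → Real.exp (-Λ) ≤ η → η ≤ 1 / 2 →
      Real.exp (-x) ≤ η * b → ¬ S.G.Big g (Real.exp h) →
      ∃ S' : St ι J q, S'.Inv s gr N δ f (lo θ g (P ^ c1 * (h + θn g + Λ)))
        (at1 (lo θn g (P ^ c1 * (h + θn g + Λ))) g h) (γ + 2 * x + 9) (ρ + P ^ c1 * (h + θn g + Λ))
        ((1 - η) * b) ∧ S'.pot < S.pot)
    (hB : ∀ (J q : ℕ) (gr : Finset (Fin J) → ℕ) (N δ : ℝ) (f : Pt J q → ℝ)
      (ι : Type) [Fintype ι] [DecidableEq ι] (S : St ι J q) (θ θn : ℕ → ℝ)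
      (γ ρ b η P Λ x o η0 : ℝ)
      (g : ℕ), S.Inv s gr N δ f θ θn γ ρ b → Sz ι P 1 → S.Hx → 1 ≤ Λ → (∀ g', θ g' ≤ Real.exp Λ) →
      γ ≤ Real.exp Λ → P ≤ Real.exp Λ → 0 ≤ θ g → 0 ≤ x → x ≤ Real.exp Λ → 0 ≤ o →
      Real.exp (-Λ) ≤ η →
      η ≤ 1 / 2 → Real.exp (-x) ≤ η * b → Real.exp (-o) ≤ η0 → g ≠ 0 → ¬ S.G.Small g η0 →
      ∃ (ι' : Type) (_ : Fintype ι') (_ : DecidableEq ι') (S' : St ι' J q),
        S'.Inv s gr N δ f (at1 (lo θ g (P ^ c2 * (θ g + Λ))) g (o + P ^ 2))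
          (lo θn g (P ^ c2 * (θ g + Λ))) (γ + 2 * x + θ g + P + 15) ρ ((1 - η) * b) ∧
          S'.pot < S.pot)
    (hT : ∀ (J q : ℕ) (gr : Finset (Fin J) → ℕ) (ι : Type) [Fintype ι]
      [DecidableEq ι] (S : St ι J q) (θ : ℕ → ℝ) (P : ℝ), S.Ok s gr → Sz ι P 1 →
      (∀ g, tk S.G (Lat (gp S.G g)) ≤ Real.exp (θ g) * S.G.dv (gp S.G g)) →
      (∀ W : ℕ → ℝ, Antitone W → (∀ g, 0 ≤ W g ∧ θ g ≤ W g) → S.G.Wd fun g => W g + P ^ c3))
    (hb : Real.exp (-Y) ≤ b) (hη : Real.exp (-Y) ≤ η) (hη2 : η ≤ 1 / 2) (n : ℕ) :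
    ∀ (t : ℝ), 0 ≤ t → t + n ≤ q → (n : ℝ) ≤ P → ∀ (ι : Type) [Fintype ι] [DecidableEq ι]
      (S : St ι J q0), S.pot < n →
      S.Inv s gr N δ f (fun g => Y + t * (q ^ 4 * a g))
        (fun g => Y + t * (q ^ 0 * (cc g * (q ^ 6 * a g))))
        (Y + t * (q ^ 4 * (cc 0 * (q ^ 6 * a 0)))) (Y + t * (q ^ 4 * (cc 0 * (q ^ 6 * a 0))))
        ((1 - t * (η / q)) * b) →
      ∃ (ι' : Type) (_ : Fintype ι') (_ : DecidableEq ι') (S' : St ι' J q0) (θ θn : ℕ → ℝ) (γ : ℝ),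
        (Fintype.card ι' : ℝ) ≤ P ∧ S'.Inv s gr N δ f θ θn γ R ((1 - η) * b) ∧
        S'.G.Wd (fun g => q ^ 6 * a g - Y) ∧ Rd S'.G s (fun g => q ^ 6 * a g - Y) cc Y := by
  induction n with
  | zero => intro t _ _ _ ι _ _ S h0; exact absurd h0 (Nat.not_lt_zero _)
  | succ n ih =>
    intro t ht0 htn hnP ι _ _ S0 hp hI0
    obtain ⟨S, hI, hsa, hx⟩ := hH s J q0 gr N δ f ι S0 _ _ _ _ _ hI0
    have hp' : S.pot ≤ n := by rw [pot_sa hsa]; omega
    have hn0 : (0 : ℝ) ≤ n := Nat.cast_nonneg n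
    push_cast at htn hnP
    have hc : (Fintype.card ι : ℝ) ≤ P := by
      have : (Fintype.card ι : ℝ) ≤ n := by exact_mod_cast (card_le_pot S).trans hp'
      linarith
    have sa := h.sa
    have sm := h.sm
    set m : ℕ → ℝ := fun g => cc g * (q ^ 6 * a g) with hm
    have hmg : ∀ g, cc g * (q ^ 6 * a g) = m g := fun g => rfl
    simp only [hmg] at hI ih
    have mR : q ^ 6 * m 0 ≤ R := h.mR
    have am : ∀ g, q ^ 6 * a g ≤ m g := fun g =>
      le_mul_of_one_le_left (sa.nn 6 g) (h.c1 g)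
    have ma : ∀ {g g1 : ℕ}, g < g1 → g1 < s → m g1 ≤ a g := fun {g g1} h1 h2 => by
      refine (sm.an (show g + 1 ≤ g1 from h1)).trans ?_
      rw [← h.st g (h1.trans h2)]
      exact mul_le_mul_of_nonneg_right (h.ca (Nat.le_succ g)) (sa.nn 6 _)
    have htq : t ≤ q := by linarith
    have hq4 := sa.q4
    have hY := sa.Y1
    have hP2 := h.P2
    have hη0 : 0 < η := (Real.exp_pos _).trans_le hη
    have hb0 : 0 < b := (Real.exp_pos _).trans_le hb
    have hq0 : 0 < q := by linarith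
    have he0 : 0 < η / q := div_pos hη0 hq0
    have het : t * (η / q) ≤ η := by
      calc t * (η / q) ≤ q * (η / q) := mul_le_mul_of_nonneg_right htq he0.le
        _ = η := by field_simp
    have he2 : η / q ≤ 1 / 2 := (div_le_self hη0.le (by linarith)).trans hη2
    obtain ⟨sm1, sm2⟩ := sa.small hη hb
    have sm3 : Real.exp (-(q ^ 2 * Y)) ≤ η / q * ((1 - t * (η / q)) * b) :=
      sm1.trans (mul_le_mul_of_nonneg_left (by nlinarith) he0.le)
    have hSz : Sz ι P 1 := ⟨hc, hP2, le_rfl⟩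
    have hbn : (1 - (t + 1) * (η / q)) * b ≤ (1 - η / q) * ((1 - t * (η / q)) * b) := by
      have : 0 ≤ t * (η / q) * (η / q) * b := by positivity
      nlinarith
    have hL0 : 0 ≤ q ^ 2 * Y := by positivity
    have hL1 : 1 ≤ q ^ 2 * Y := by nlinarith
    have u5 : 4 * (q ^ 5 * m 0) ≤ q ^ 6 * m 0 := sm.pw4 rfl 0
    have y5 : Y ≤ q ^ 5 * m 0 := sm.ya' 5 0
    have tm : ∀ i ≤ 4, ∀ g, t * (q ^ i * m g) ≤ q ^ 5 * m 0 := fun i hi g =>
      (sm.tb htq rfl g).trans ((sm.pw (by omega) g).trans (sm.mo 5 (Nat.zero_le g)))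
    have toR : ∀ i ≤ 4, ∀ g, Y + t * (q ^ i * m g) ≤ R := fun i hi g => by
      linarith [tm i hi g]
    have t5 : ∀ g, t * (q ^ 4 * a g) ≤ q ^ 5 * a g := fun g => sa.tb htq rfl g
    have a56 : ∀ g, 4 * (q ^ 5 * a g) ≤ q ^ 6 * a g := fun g => sa.pw4 rfl g
    have m0 : ∀ g, m g ≤ q ^ 5 * m 0 := fun g => (sm.an (Nat.zero_le g)).trans (sm.le0 5 0)
    have toRa : ∀ g, Y + t * (q ^ 4 * a g) ≤ R := fun g => by
      linarith [t5 g, a56 g, am g, m0 g, sa.nn 5 g]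
    have mL : ∀ g, m g ≤ Real.exp (q ^ 2 * Y) := fun g => by linarith [m0 g, h.RL]
    have xL : q ^ 2 * Y ≤ Real.exp (q ^ 2 * Y) := by linarith [Real.add_one_le_exp (q ^ 2 * Y)]
    by_cases hr : Rd S.G s (fun g => q ^ 6 * a g - Y) cc Y
    · refine ⟨ι, inferInstance, inferInstance, S, _, _, _, hc,
        hI.mono (fun g => le_rfl) (fun g => le_rfl) le_rfl (toR 4 le_rfl 0) (by nlinarith), ?_, hr⟩
      have := hT J q0 gr ι S _ P hI.ok hSz hI.ph (fun g => q ^ 6 * a g - Y - P ^ c3)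
        (fun g g' hg => by linarith [sa.mo 6 hg]) (fun g => by
          have d1 := sa.ya' 5 g
          have d2 := sa.qa (show 1 ≤ 5 by norm_num) g
          have d3 : 0 ≤ t * (q ^ 4 * a g) := mul_nonneg ht0 (sa.nn 4 g)
          constructor
          · linarith [a56 g, h.k3q]
          · linarith [a56 g, h.k3q, t5 g])
      simpa only [sub_add_cancel] using this
    · unfold Rd at hr
      rw [not_forall] at hr
      obtain ⟨g, hr⟩ := hr
      rw [Classical.not_imp] at hr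
      obtain ⟨hg, hr⟩ := hr
      have e1 : Y + (q ^ 6 * a g - Y) = q ^ 6 * a g := by ring
      have e2 : Y + (q ^ 6 * a (g + 1) - Y) = q ^ 6 * a (g + 1) := by ring
      rw [e1, e2, h.st g hg, hmg, not_and_or] at hr
      have n4 := sa.nn 4
      have n0 := sm.nn 0
      have n40 := sm.nn 4 0
      have mp : 0 < m g := by linarith [sm.a1 g]
      have v2 : q ^ 2 * Y ≤ q ^ 2 * m 0 := sm.qY le_rfl 0
      have v3 : 4 * (q ^ 2 * m 0) ≤ q ^ 3 * m 0 := sm.pw4 rfl 0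
      have v4 : 4 * (q ^ 3 * m 0) ≤ q ^ 4 * m 0 := sm.pw4 rfl 0
      have v5 : q ≤ q ^ 2 * m 0 := sm.qa (by norm_num) 0
      have v6 : m g ≤ q ^ 2 * m 0 := (sm.an (Nat.zero_le g)).trans (sm.le0 2 0)
      rcases hr with hr | hr
      · have t7 : 0 ≤ t * (q ^ 0 * m g) := mul_nonneg ht0 (n0 g)
        obtain ⟨S', hI', hp2⟩ := hA J q0 gr N δ f ι S _ _ _ _ _ (η / q) P (q ^ 2 * Y) (q ^ 2 * Y)
          (m g) g hI hSz hL1 (fun g' => (toRa g').trans h.RL)
          ((toR 4 le_rfl 0).trans h.RL) hL0 xL mp.le (mL g)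
          (by show 0 ≤ Y + t * (q ^ 0 * m g); linarith)
          ((toR 0 (by norm_num) g).trans h.RL) sm2 he2 sm3 hr
        have hl : P ^ c1 * (m g + (Y + t * (q ^ 0 * m g)) + q ^ 2 * Y) ≤ q ^ 4 * m g := by
          have d1 : m g ≤ q ^ 2 * m g := sm.le0 2 g
          have d2 : Y ≤ q ^ 2 * m g := sm.ya' 2 g
          have d3 : t * (q ^ 0 * m g) ≤ q ^ 2 * m g :=
            (sm.tb htq rfl g).trans (sm.pw (by norm_num) g)
          have d4 : q ^ 2 * Y ≤ q ^ 2 * m g := sm.qY le_rfl g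
          have d5 : 4 * (q ^ 2 * m g) ≤ q ^ 3 * m g := sm.pw4 rfl g
          have d8 : m g + (Y + t * (q ^ 0 * m g)) + q ^ 2 * Y ≤ q ^ 3 * m g := by linarith
          calc _ ≤ q * (q ^ 3 * m g) := mul_le_mul h.k1q d8 (by linarith) hq0.le
            _ = _ := by ring
        have hl' : ∀ g' < g, q ^ 4 * m g ≤ q ^ 4 * a g' := fun g' h1 =>
          mul_le_mul_of_nonneg_left (ma h1 hg) (by positivity)
        refine ih (t + 1) (by linarith) (by linarith) (by linarith) ι S' (by omega)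
          (hI'.mono (fun g' => ?_) (fun g' => ?_) ?_ ?_ hbn)
        · simp only [lo]
          split_ifs with h1
          · linarith [hl' g' h1]
          · linarith [n4 g']
        · simp only [lo, at1]
          split_ifs with h1 h2 h2
          · omega
          · have d1 := sa.pw (show 4 ≤ 6 by norm_num) g'
            have d2 : m g' ≤ q ^ 0 * m g' := sm.le0 0 g'
            linarith [hl' g' h1, am g']
          · subst h2
            have d2 : m g' ≤ q ^ 0 * m g' := sm.le0 0 g'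
            linarith
          · linarith [n0 g']
        · linarith [h.p1]
        · have : q ^ 4 * m g ≤ q ^ 4 * m 0 := sm.mo 4 (Nat.zero_le g)
          linarith
      · have t4 : 0 ≤ t * (q ^ 4 * a g) := mul_nonneg ht0 (n4 g)
        have hg0 : g ≠ 0 := by
          rintro rfl
          refine hr ((small0 hI.ok).mono ?_)
          have d1 := hI.ar
          have d2 : Real.exp R ≤ N := by
            rw [← Real.exp_log h.N0]
            exact Real.exp_le_exp.2 h.RN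
          have d3 : Real.exp (-m 0) ≤ (m 0)⁻¹ := by
            rw [Real.exp_neg]
            exact inv_anti₀ mp (by linarith [Real.add_one_le_exp (m 0)])
          have d4 : S.al * Real.exp R ≤ Real.exp (-a 0) * Real.exp (-m 0) * Real.exp R := by
            refine ((mul_le_mul_of_nonneg_left d2 hI.ok.al0.le).trans d1).trans ?_
            rw [← Real.exp_add, ← Real.exp_add, Real.exp_le_exp]
            linarith [tm 4 le_rfl 0, m0 0, am 0, sa.le0 6 0]
          exact (le_of_mul_le_mul_right d4 (Real.exp_pos R)).trans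
            (mul_le_mul_of_nonneg_left d3 (Real.exp_pos _).le)
        obtain ⟨ι', i1, i2, S', hI', hp2⟩ := hB J q0 gr N δ f ι S _ _ _ _ _ (η / q) P (q ^ 2 * Y)
          (q ^ 2 * Y) (a g + q ^ 2 * Y) _ g hI hSz hx hL1 (fun g' => (toRa g').trans h.RL)
          ((toR 4 le_rfl 0).trans h.RL) (by nlinarith [h.p2])
          (by show 0 ≤ Y + t * (q ^ 4 * a g); linarith) hL0 xL (by linarith [sa.a1 g]) sm2 he2 sm3
          (by
            rw [neg_add, Real.exp_add]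
            refine mul_le_mul_of_nonneg_left ?_ (Real.exp_pos _).le
            rw [Real.exp_neg]
            exact inv_anti₀ mp (mL g)) hg0 hr
        have hl0 : Y + t * (q ^ 4 * a g) + q ^ 2 * Y ≤ m g := by
          linarith [t5 g, a56 g, am g, sa.ya' 5 g, sa.qY (show 2 ≤ 5 by norm_num) g, sa.nn 5 g]
        have hl1 : P ^ c2 * (Y + t * (q ^ 4 * a g) + q ^ 2 * Y) ≤ q * m g :=
          mul_le_mul h.k2q hl0 (by linarith) hq0.le
        have hl' : ∀ g' < g, q * m g ≤ q ^ 4 * a g' := fun g' h1 => by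
          have d1 := mul_le_mul_of_nonneg_left (ma h1 hg) hq0.le
          have d2 := sa.pw (show 1 ≤ 4 by norm_num) g'
          rw [pow_one] at d2
          linarith
        have hl2 : a g + q ^ 2 * Y + P ^ 2 ≤ q ^ 4 * a g := by
          have d1 : 4 * (q ^ 3 * a g) ≤ q ^ 4 * a g := sa.pw4 rfl g
          linarith [sa.le0 3 g, sa.qY (show 2 ≤ 3 by norm_num) g, sa.qa (show 1 ≤ 3 by norm_num) g,
            h.p2, sa.nn 3 g]
        refine ih (t + 1) (by linarith) (by linarith) (by linarith) ι' S' (by omega)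
          (hI'.mono (fun g' => ?_) (fun g' => ?_) ?_ ?_ hbn)
        · simp only [lo, at1]
          split_ifs with h1 h2 h2
          · omega
          · linarith [hl' g' h1]
          · subst h2
            linarith
          · linarith [n4 g']
        · simp only [lo]
          split_ifs with h1
          · have d1 := sa.pw (show 4 ≤ 6 by norm_num) g'
            have d2 : m g' ≤ q ^ 0 * m g' := sm.le0 0 g'
            linarith [hl' g' h1, am g']
          · linarith [n0 g']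
        · linarith [h.p1]
        · linarith

end RegP

open RegP in
theorem reg (hH : HRM) (hA : RA) (hB : RB) (hT : TAILW) : REG := by
  intro s
  obtain ⟨c1, hA⟩ := hA s
  obtain ⟨c2, hB⟩ := hB s
  obtain ⟨c3, hT⟩ := hT s
  obtain ⟨C0, hC0⟩ : ∃ C0, C0 = 2 * (s + 1) ^ s + 3 := ⟨_, rfl⟩
  obtain ⟨j, hj⟩ : ∃ j, j = C0 * (c1 + c2 + c3 + 4) + (7 * s + 22) := ⟨_, rfl⟩
  refine ⟨(6 * j + 1) * (s + 2), ?_⟩
  intro J q0 gr N δ f ι _ _ S cc P Y Λ b η hSz hca hPc hcL hYL hLY hη hη2 hb hN hRN hI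
  have hP2 := hSz.P2
  have hY := hSz.Y1
  set q : ℝ := P ^ j with hq
  set P' : ℝ := P ^ C0 with hP'
  have k0 : ∀ i ≤ c1 + c2 + c3 + 4, P' ^ i ≤ q := fun i hi => by
    rw [hP', ← pow_mul]
    exact pw_le hP2 (by rw [hj]; exact (Nat.mul_le_mul_left _ hi).trans (Nat.le_add_right _ _))
  have hP8 : (4 : ℝ) ≤ P' := by
    have h1 : P ^ 2 ≤ P' := pw_le hP2 (by omega)
    nlinarith
  have k4 : P' + 15 ≤ q := by
    have h1 := k0 3 (by omega)
    have h2 : 16 ≤ P' ^ 2 := by nlinarith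
    have h3 : P' ^ 3 = P' ^ 2 * P' := by ring
    nlinarith
  have hq1 : 1 ≤ q := by linarith
  have c1' : ∀ g, 1 ≤ cc g := fun g => by linarith [hPc g]
  have hqc : ∀ g, q ^ 6 * cc g ≤ cc g ^ (6 * j + 1) := fun g => by
    rw [pow_succ (cc g), mul_comm 6 j, pow_mul]
    refine mul_le_mul_of_nonneg_right (pow_le_pow_left₀ (by linarith) ?_ 6) (by linarith [c1' g])
    exact pow_le_pow_left₀ (by linarith) (hPc g) j
  have hf1 : ∀ i, 1 ≤ q ^ 6 * cc i := fun i =>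
    one_le_mul_of_one_le_of_one_le (one_le_pow₀ hq1) (c1' i)
  set a : ℕ → ℝ := fun g => (∏ i ∈ Finset.Ico g s, q ^ 6 * cc i) * Y with ha
  have hpr : ∀ g, 1 ≤ ∏ i ∈ Finset.Ico g s, q ^ 6 * cc i := fun g =>
    le_trans (le_of_eq Finset.prod_const_one.symm)
      (Finset.prod_le_prod (fun _ _ => zero_le_one) fun i _ => hf1 i)
  have st : ∀ g < s, cc g * (q ^ 6 * a (g + 1)) = a g := fun g hg => by
    simp only [ha]
    rw [Finset.prod_eq_prod_Ico_succ_bot hg]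
    ring
  have sa : Sc q Y a := {
    Y1 := hY
    q4 := by linarith
    ya := fun g => le_mul_of_one_le_left (by linarith) (hpr g)
    an := antitone_nat_of_succ_le fun g => by
      by_cases hg : g < s
      · rw [← st g hg, ← mul_assoc, mul_comm (cc g)]
        exact le_mul_of_one_le_left (mul_nonneg (by linarith [hpr (g + 1)]) (by linarith)) (hf1 g)
      · simp only [ha]
        rw [Finset.Ico_eq_empty_of_le (by omega), Finset.Ico_eq_empty_of_le (by omega)] }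
  have hab : ∀ g, a g ≤ (cc g ^ (6 * j + 1)) ^ s * Y := fun g => by
    refine mul_le_mul_of_nonneg_right ?_ (by linarith)
    have h1 : ∏ i ∈ Finset.Ico g s, q ^ 6 * cc i ≤ ∏ i ∈ Finset.Ico g s, cc g ^ (6 * j + 1) :=
      Finset.prod_le_prod (fun i _ => by linarith [hf1 i]) fun i hi =>
        (mul_le_mul_of_nonneg_left (hca (Finset.mem_Ico.1 hi).1) (by positivity)).trans (hqc g)
    refine h1.trans ?_
    rw [Finset.prod_const, Nat.card_Ico]
    exact pow_le_pow_right₀ (one_le_pow₀ (c1' g)) (Nat.sub_le _ _)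
  have hmb : ∀ g, q ^ 6 * (cc g * (q ^ 6 * a g)) ≤ cc g ^ ((6 * j + 1) * (s + 2)) * Y := fun g => by
    have h0 : 0 ≤ cc g ^ (6 * j + 1) := pow_nonneg (by linarith [c1' g]) _
    have h1 : q ^ 6 ≤ cc g ^ (6 * j + 1) :=
      (le_mul_of_one_le_right (by positivity) (c1' g)).trans (hqc g)
    have h2 : 0 ≤ a g := by linarith [sa.a1 g]
    calc q ^ 6 * (cc g * (q ^ 6 * a g)) = q ^ 6 * ((q ^ 6 * cc g) * a g) := by ring
      _ ≤ cc g ^ (6 * j + 1) * (cc g ^ (6 * j + 1) * ((cc g ^ (6 * j + 1)) ^ s * Y)) :=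
        mul_le_mul h1 (mul_le_mul (hqc g) (hab g) h2 h0) (mul_nonneg (by linarith [hf1 g]) h2) h0
      _ = _ := by rw [pow_mul]; ring
  have sm : Sc q Y fun g => cc g * (q ^ 6 * a g) := {
    Y1 := hY
    q4 := by linarith
    ya := fun g => (sa.ya' 6 g).trans (le_mul_of_one_le_left (sa.nn 6 g) (c1' g))
    an := fun g g' hg => mul_le_mul (hca hg) (sa.mo 6 hg) (sa.nn 6 g') (by linarith [c1' g]) }
  have hNm : Nm s P' Y q (P' ^ c1) (P' ^ c2) (P' ^ c3) (cc 0 ^ ((6 * j + 1) * (s + 2)) * Y) N cc a := {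
    sa := sa
    sm := sm
    P2 := by linarith
    c1 := c1'
    ca := hca
    k1q := k0 _ (by omega)
    k2q := k0 _ (by omega)
    k3q := k0 _ (by omega)
    p1 := k4
    p2 := k0 _ (by omega)
    st := st
    mR := hmb 0
    RL := by
      have h1 : ((7 * s + 22 : ℕ) : ℝ) ≤ q := (nat_le_pw hP2 _).trans (pw_le hP2 (by omega))
      have h2 : (j : ℝ) ≤ q := nat_le_pw hP2 j
      have h4 : cc 0 ^ ((6 * j + 1) * (s + 2)) ≤ Real.exp Λ ^ ((6 * j + 1) * (s + 2)) :=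
        pow_le_pow_left₀ (by linarith [c1' 0]) hcL _
      refine (mul_le_mul h4 hYL (by linarith) (by positivity)).trans ?_
      rw [← Real.exp_nat_mul, ← Real.exp_add, Real.exp_le_exp]
      push_cast at h1 ⊢
      have h5 : (0 : ℝ) ≤ s := Nat.cast_nonneg s
      have h5' : (0 : ℝ) ≤ j := Nat.cast_nonneg j
      have h6 : (6 * (j : ℝ) + 1) * (s + 2) ≤ 7 * q * (s + 2) :=
        mul_le_mul_of_nonneg_right (by linarith) (by linarith)
      have h7 : (6 * (j : ℝ) + 1) * (s + 2) + 1 ≤ q ^ 2 := by nlinarith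
      have h8 : ((6 * (j : ℝ) + 1) * (s + 2) + 1) * Λ ≤ ((6 * (j : ℝ) + 1) * (s + 2) + 1) * Y :=
        mul_le_mul_of_nonneg_left hLY (by positivity)
      have h9 := mul_le_mul_of_nonneg_right h7 (show 0 ≤ Y by linarith)
      linarith
    N0 := hN
    RN := hRN }
  have hpot : ((S.pot + 1 : ℕ) : ℝ) ≤ P' := by
    have h1 : S.pot ≤ Fintype.card ι * (2 * (s + 1) ^ s + 1) := by
      unfold St.pot
      rw [← Finset.card_univ, ← smul_eq_mul]
      refine Finset.sum_le_card_nsmul _ _ _ fun x _ => ?_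
      have : (J + 1) ^ S.G.w x ≤ (s + 1) ^ s :=
        (Nat.pow_le_pow_left (Nat.succ_le_succ hI.ok.go.Js) _).trans
          (Nat.pow_le_pow_right (Nat.succ_pos s) (hI.ok.ok.ws x))
      split_ifs <;> omega
    obtain ⟨K, hK⟩ : ∃ K, K = 2 * (s + 1) ^ s + 1 := ⟨_, rfl⟩
    rw [← hK] at h1
    have h4 : (S.pot : ℝ) ≤ Fintype.card ι * K := by exact_mod_cast h1
    have h5 : ((K + 1 : ℕ) : ℝ) ≤ P ^ (K + 1) := nat_le_pw hP2 _
    have h6 : P' = P ^ (K + 1) * P := by rw [hP', ← pow_succ, hC0, hK]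
    have h7 : (0 : ℝ) ≤ K := Nat.cast_nonneg K
    have h8 : (Fintype.card ι : ℝ) * K ≤ P * K := mul_le_mul_of_nonneg_right hSz.cd h7
    push_cast at h5 ⊢
    have h9 : ((K : ℝ) + 1) * P ≤ P ^ (K + 1) * P := mul_le_mul_of_nonneg_right h5 (by linarith)
    nlinarith
  have hbY : Real.exp (-Y) ≤ b := by
    refine le_trans ?_ hb
    rw [Real.exp_neg, ← one_div]
    exact one_div_le_one_div_of_le (by norm_num) (by linarith [Real.add_one_le_exp Y])
  obtain ⟨ι', i1, i2, S', θ, θn, γ, r1, r2, r3, r4⟩ := core hH hNm hA hB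
    (fun J q gr ι _ _ S θ P h1 h2 h3 => (hT J q gr ι S θ P h1 h2 h3).1) hbY
    ((Real.exp_le_exp.2 (by linarith)).trans hη) hη2 (S.pot + 1) 0 le_rfl
    (by rw [zero_add]; linarith) hpot ι S (Nat.lt_succ_self _)
    (hI.mono (fun g => by simp) (fun g => by simp) (by simp) (by simp) (by simp))
  refine ⟨ι', i1, i2, S', _, θ, θn, γ, r1.trans (pw_le hP2 ?_), r2, r3, fun g => ?_, r4⟩
  · have : C0 ≤ j := by
      rw [hj]
      exact (Nat.le_mul_of_pos_right _ (by omega)).trans (Nat.le_add_right _ _)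
    nlinarith
  · have h1 := sm.le0 6 g
    have h2 : q ^ 6 * a g ≤ cc g * (q ^ 6 * a g) := le_mul_of_one_le_left (sa.nn 6 g) (c1' g)
    have h3 := hmb g
    show q ^ 6 * a g - Y ≤ _
    linarith

end

end Vale.Agent.P057T.Cw
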