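import Vale.Agent.P057T.Cw.Defs
import Vale.Agent.P057T.Rg.Rel

/-! Row `REL` for coloured towers. -/

open MvPolynomial Finset
open scoped Real

namespace Vale.Agent.P057T.Cw

open Vale.Agent.P057T.Eq Vale.Agent.P057L Vale.Agent.P057T.L1
open Vale.Agent.P057T.Rg (gp tk lo at1)
open Vale.Agent.P057T.Rg.RelH41

namespace RelC41

variable {ι M : Type} [AddCommMonoid M]

theorem whc_aeval (w : ι → M) (n : M) {f : ι → MvPolynomial ι ℝ}
    (hf : ∀ i, IsWeightedHomogeneous w (f i) (w i)) (p : MvPolynomial ι ℝ) :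
    weightedHomogeneousComponent w n (aeval f p) = aeval f (weightedHomogeneousComponent w n p) := by
  classical
  induction p using MvPolynomial.induction_on' with
  | add p q hp hq => simp only [map_add, hp, hq]
  | monomial m a =>
    have h1 : IsWeightedHomogeneous w (aeval f (monomial m a)) (Finsupp.weight w m) := by
      rw [aeval_monomial, algebraMap_eq, ← zero_add (Finsupp.weight w m)]
      refine (isWeightedHomogeneous_C w _).mul ?_
      rw [Finsupp.weight_apply]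
      exact IsWeightedHomogeneous.prod _ _ _ fun i _ => (hf i).pow _
    have h2 : IsWeightedHomogeneous w (monomial m a) (Finsupp.weight w m) :=
      isWeightedHomogeneous_monomial w m a rfl
    rw [weightedHomogeneousComponent_of_mem ((mem_weightedHomogeneousSubmodule _ _ _ _).2 h1),
      weightedHomogeneousComponent_of_mem ((mem_weightedHomogeneousSubmodule _ _ _ _).2 h2)]
    split_ifs <;> simp

theorem vars_whc (w : ι → M) (n : M) (p : MvPolynomial ι ℝ) {c : ι}
    (hc : c ∈ (weightedHomogeneousComponent w n p).vars) : c ∈ p.vars := by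
  classical
  obtain ⟨m, hm, hcm⟩ := (mem_vars_iff_mem_support c).1 hc
  refine (mem_vars_iff_mem_support c).2 ⟨m, ?_, hcm⟩
  rw [mem_support_iff, coeff_weightedHomogeneousComponent] at hm
  rw [mem_support_iff]
  intro h
  exact hm (by split_ifs <;> simp [h])

end RelC41

open RelC41

theorem rel (hBD : BD) (hBR : BR) (hU : Rg.UNI) (hR : RECO) (hO : ROTO) (hP : Rg.PHI) : REL := by
  intro s J q gr N δ f0 ι _ _ S θ θn γ ρ b H g hS hB
  have hG := hS.ok.ok
  unfold GT.Big at hB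
  push Not at hB
  obtain ⟨e, k, I, hk, hIZ, hIL, hIH, ⟨b0, hb0, hl⟩, a0, ha0, hex⟩ := hB
  obtain ⟨-, -, -, bL⟩ := hBD s ι S.G hG
  set x : ι → ℝ := fun c => ∑ a, cz k a * S.G.B a c with hx
  set f := b0 - lin x with hf
  have hJ : aeval S.G.th f = I + ∑ a, C (cz k a) * S.G.q a := by
    rw [hf, map_sub, hb0, hx, aeval_linB hG]; ring
  have hfL : S.G.Lo g f := by
    rw [bL, hJ]
    refine Chart.vars_add' (P := fun b => S.G.g b < g) hIL (Chart.vars_sum' fun a _ => ?_)
    by_cases h : k a = 0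
    · simp [cz, h]
    · exact Chart.vars_mul' (Chart.vars_C' _) ((hk a h).1 ▸ hG.ql a)
  have hg0 : g ≠ 0 := fun h => by
    obtain ⟨c, l, h1⟩ := (hS.ok.g0 a0).1 ((hk a0 ha0).1.trans h)
    exact hex (h1 ▸ hS.ok.ee c l)
  have hxg : ∀ c, x c ≠ 0 → S.G.g c = g := fun c hc => by
    obtain ⟨a, -, ha⟩ := exists_ne_zero_of_sum_ne_zero hc
    have h1 : k a ≠ 0 := fun h => ha (by simp [cz, h])
    rw [← (hG.blk a c (Or.inr (right_ne_zero_of_mul ha))).1, (hk a h1).1]
  obtain ⟨n1, n2⟩ := split hfL x hxg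
  have hb : f + lin x = b0 := by rw [hf, sub_add_cancel]
  rw [hb] at n1 n2
  set V := gp S.G g \ S.G.ex with hV
  set k' : ι → ℤ := fun a => if a ∈ S.G.ex then 0 else k a with hk'
  have hk0 : k' ≠ 0 := fun h => ha0 (by simpa [hk', hex] using congrFun h a0)
  have hkL : k' ∈ Lat V := fun a ha => by
    by_cases h1 : a ∈ S.G.ex
    · exact if_pos h1
    · simp only [hk', if_neg h1]
      by_contra h2
      exact ha (mem_sdiff.2 ⟨mem_filter.2 ⟨mem_univ _, (hk a h2).1⟩, h1⟩)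
  obtain ⟨n, j, U, U', hn, hj, hUU, hU1, hU2, hkn⟩ := hU ι V k' hk0 hkL
  obtain ⟨S1, i1, ⟨g1, w1, e1, c1, m1⟩, -, B1, q1, t1⟩ :=
    hR s J q gr N δ f0 ι S θ θn γ ρ b g V U U' hS hg0 (Or.inr rfl) hUU hU1 hU2
  have hV1 : V = gp S1.G g \ S1.G.ex := by rw [hV, gp, gp, g1, e1]
  obtain ⟨S2, i2, ⟨g2, w2, e2, c2, m2⟩, q2, pv, t2⟩ :=
    hO s J q gr N δ f0 ι S1 θ θn γ ρ b g V j i1 hg0 (Or.inr hV1) hj
  have hjg : S.G.g j = g := (mem_filter.1 (mem_sdiff.1 hj).1).2
  have hBj : ∀ a ∈ V, (n : ℝ) * S1.G.B j a = x a := fun a ha => by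
    rw [B1, Matrix.mul_apply, mul_sum, hx]
    refine sum_congr rfl fun c _ => ?_
    have h1 : ((k' c : ℤ) : ℝ) = n * (U' j c : ℝ) := by rw [hkn c]; push_cast; rfl
    rw [Matrix.map_apply, ← mul_assoc, ← h1]
    by_cases h2 : c ∈ S.G.ex
    · rw [(hS.ok.tri c h2 a (mem_sdiff.1 ha).2).2, mul_zero, mul_zero]
    · simp only [hk', if_neg h2, cz]
  refine ⟨S2, j, _, n, weightedHomogeneousComponent (fun a => ic (S2.col a)) (ic (S2.col j)) f, i2,
    ⟨g2.trans g1, w2.trans w1, e2.trans e1, c2.trans c1, m2.trans m1⟩, hjg, pv, hn, ?_, ?_,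
    ⟨?_, weightedHomogeneousComponent_isWeightedHomogeneous _ _, ?_⟩,
    (nrm_whc_le _ _ _).trans (n1.trans hl)⟩
  · have h1 : √(∑ a ∈ V, S1.G.B j a ^ 2) ≤ ∑ a ∈ V, |S1.G.B j a| := by
      refine Real.sqrt_le_iff.2 ⟨sum_nonneg fun _ _ => abs_nonneg _, ?_⟩
      simp only [← sq_abs (S1.G.B j _)]
      exact sum_sq_le_sq_sum_of_nonneg fun _ _ => abs_nonneg _
    refine (mul_le_mul_of_nonneg_left h1 (Nat.cast_nonneg n)).trans ?_
    rw [mul_sum]
    refine le_trans (le_of_eq (sum_congr rfl fun a ha => ?_)) ((sum_le_sum_of_subset_of_nonneg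
      (f := fun c => |x c|) sdiff_subset fun _ _ _ => abs_nonneg _).trans (n2.trans hl))
    rw [← hBj a ha, abs_mul, Nat.abs_cast]
  · obtain ⟨a, ha, h1⟩ := hP s ι S1.G V (θn g) (Pi.single j 1) i1.ok.ok (fun a c ha hc => by
      rw [hV1] at ha hc
      by_contra h
      by_cases h2 : a ∈ S1.G.ex
      · exact h (i1.ok.tri a h2 c (mem_sdiff.1 hc).2).1
      · exact ha (mem_sdiff.2 ⟨mem_filter.2 ⟨mem_univ _, (i1.ok.ok.blk a c (Or.inl h)).1.trans
          (mem_filter.1 (mem_sdiff.1 hc).1).2⟩, h2⟩)) (hV1 ▸ i1.pn g)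
      (fun h => by simpa using congrFun h j)
      (fun a ha => Pi.single_eq_of_ne (fun e : a = j => ha (e ▸ hj)) _)
    refine h1.trans ?_
    rw [sum_eq_single j (fun c _ hc => by simp [Pi.single_eq_of_ne hc]) (by simp)]
    simp only [Pi.single_eq_same, Int.cast_one, one_mul]
    exact Real.abs_le_sqrt (single_le_sum (f := fun a => S1.G.B j a ^ 2)
      (fun _ _ => sq_nonneg _) ha)
  · intro c hc
    rw [g2, g1, hjg]; exact hfL c (vars_whc _ _ _ hc)
  · have h1 : aeval S2.G.th f = aeval S.G.th f := Chart.aeval_congr_vars fun c hc => by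
      have h2 := hfL c hc
      rw [t2 c (by rw [g1]; omega), t1 c h2]
    have h2 : C (n : ℝ) * S2.G.q j = ∑ a, C (cz k a) * S.G.q a := by
      rw [q2, q1 j hjg, mul_sum]
      refine sum_congr rfl fun c _ => ?_
      have h3 : ((k' c : ℤ) : ℝ) = n * (U' j c : ℝ) := by rw [hkn c]; push_cast; rfl
      rw [← mul_assoc, ← map_mul, ← h3]
      by_cases h4 : c ∈ S.G.ex
      · rw [hG.qe c h4, mul_zero, mul_zero]
      · simp only [hk', if_neg h4, cz]
    have h5 : C (n : ℝ) * S2.G.q j - aeval S2.G.th f = -I := by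
      rw [h1, h2, hJ, sub_add_cancel_right]
    obtain ⟨-, -, -, -, -, -, -, hth, -⟩ := hBR s J q gr ι S2 i2.ok
    have h6 := (isWeightedHomogeneous_C (fun a => ic (S2.col a)) (n : ℝ)).mul (i2.ok.mq j)
    rw [zero_add] at h6
    have h7 := IsInt.whc (IsInt.neg hIZ) (fun a => ic (S2.col a)) (ic (S2.col j))
    rw [← h5, map_sub, whc_aeval _ _ hth,
      weightedHomogeneousComponent_of_mem ((mem_weightedHomogeneousSubmodule _ _ _ _).2 h6),
      if_pos rfl] at h7
    exact h7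

end Vale.Agent.P057T.Cw
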