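import Vale.Agent.P057T.Cw.Defs
import Vale.Agent.P057T.Rg.Roto

/-! Rotation of the rows of a block, coloured towers. -/

open MvPolynomial Finset Matrix
open scoped Real

namespace Vale.Agent.P057T.Cw

open Vale.Agent.P057T.Eq Vale.Agent.P057L
open Vale.Agent.P057T.Rg (gp tk lo at1)

set_option linter.all false

noncomputable section

namespace RotoP

variable {ι : Type} [Fintype ι] [DecidableEq ι] {J q : ℕ}

/-- the tower without colours -/
def un (S : St ι J q) : Rg.St ι := ⟨S.G, S.p, 0⟩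

/-- the rotated tower -/
def rot (S : St ι J q) (O : Matrix ι ι ℝ) : St ι J q :=
  ⟨(Rg.RotoP.rot (un S) O).G, (Rg.RotoP.rot (un S) O).p, S.col, S.en, S.al, S.r, S.n⟩

theorem th_rot (S : St ι J q) (O : Matrix ι ι ℝ) (a : ι) :
    (rot S O).G.th a = ∑ c, C (O a c) * S.G.th c := Rg.RotoP.th_rot (un S) O a

theorem wt_rot (S : St ι J q) {O : Matrix ι ι ℝ} (hO : O * Oᵀ = 1) : (rot S O).wt = S.wt :=
  Rg.RotoP.wt_rot (un S) hO

theorem tk_rot (S : St ι J q) {O : Matrix ι ι ℝ} (hO : O * Oᵀ = 1) (Q : Set (ι → ℤ)) :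
    tk (rot S O).G Q = tk S.G Q := Rg.RotoP.tk_rot (un S) hO Q

theorem dv_rot (S : St ι J q) {O : Matrix ι ι ℝ} (hO : O * Oᵀ = 1) (W : Finset ι)
    (hW : ∀ a c, O a c ≠ 0 → (a ∈ W ↔ c ∈ W)) : (rot S O).G.dv W = S.G.dv W :=
  Rg.RotoP.dv_rot (un S) hO W hW

theorem inv_rot {s : ℕ} {gr : Finset (Fin J) → ℕ} {N δ : ℝ} {f : Pt J q → ℝ} {S : St ι J q}
    {θ θn : ℕ → ℝ} {γ ρ b : ℝ}
    (h : S.Inv s gr N δ f θ θn γ ρ b) {O : Matrix ι ι ℝ} (hO : O * Oᵀ = 1)
    (hc : ∀ a c, O a c ≠ 0 → S.G.g a = S.G.g c ∧ (a ∈ S.G.ex ↔ c ∈ S.G.ex))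
    (h0 : ∀ a c, (S.G.g a = 0 ∨ S.G.g c = 0) → O a c = if a = c then 1 else 0) :
    (rot S O).Inv s gr N δ f θ θn γ ρ b := by
  have k := h.ok
  have ge : ∀ c l, S.G.g (S.en c l) = 0 := fun c l => (k.g0 _).2 ⟨c, l, rfl⟩
  have hcol : ∀ a c, O a c ≠ 0 → S.col a = S.col c := fun a c e => by
    by_cases z : S.G.g a = 0
    · rw [h0 a c (Or.inl z)] at e
      have : a = c := by
        by_contra hh
        exact e (if_neg hh)
      rw [this]
    · apply k.go.inj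
      rw [← k.gc a z, ← k.gc c ((hc a c e).1 ▸ z), (hc a c e).1]
  have hw : ∀ a c, S.G.g a = S.G.g c → S.G.w a = S.G.w c := fun a c e => by
    rw [k.wc, k.wc]
    by_cases z : S.G.g a = 0
    · obtain ⟨c1, l1, rfl⟩ := (k.g0 a).1 z
      obtain ⟨c2, l2, rfl⟩ := (k.g0 c).1 (e ▸ z)
      rw [k.ce, k.ce, card_singleton, card_singleton]
    · rw [k.go.inj ((k.gc a z).symm.trans (e.trans (k.gc c (e ▸ z))))]
  have d1 : ∀ g, (rot S O).G.dv (gp S.G g) = S.G.dv (gp S.G g) := fun g =>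
    dv_rot S hO _ fun a c e => by simp only [gp, mem_filter, mem_univ, true_and, (hc a c e).1]
  have d2 : ∀ g, (rot S O).G.dv (gp S.G g \ S.G.ex) = S.G.dv (gp S.G g \ S.G.ex) := fun g =>
    dv_rot S hO _ fun a c e => by
      simp only [gp, mem_sdiff, mem_filter, mem_univ, true_and, (hc a c e).1, (hc a c e).2]
  have d3 : (rot S O).G.dv univ = S.G.dv univ := dv_rot S hO _ fun a c _ => by simp
  have m1 : (rot S O).ms = S.ms := by rw [St.ms, wt_rot S hO, St.ms]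
  have m2 : (rot S O).hit f = S.hit f := by rw [St.hit, wt_rot S hO]; rfl
  refine ⟨⟨k.go, ⟨k.ok.w1, k.ok.ws, k.ok.gs, ?_, fun a b hab => ?_, k.ok.qh, k.ok.ql, k.ok.qe⟩, k.wc,
    k.pr, fun a => ?_, fun a ha b hb => ⟨?_, ?_⟩, k.inj, k.g0, k.gc, k.ce, k.ee,
    fun c l d => ⟨?_, ?_⟩, k.mq, fun a => ?_, k.al0, k.n1⟩, h.f0, fun g => ?_, fun g => ?_, ?_,
    h.nr, h.ar, h.na, ?_⟩
  · show O * S.G.A * (S.G.B * Oᵀ) = 1
    rw [Matrix.mul_assoc, ← Matrix.mul_assoc S.G.A, k.ok.AB, Matrix.one_mul, hO]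
  · have e : S.G.g a = S.G.g b := by
      rcases hab with hab | hab
      · obtain ⟨c, -, h1⟩ := Finset.exists_ne_zero_of_sum_ne_zero hab
        exact (hc a c (left_ne_zero_of_mul h1)).1.trans
          (k.ok.blk c b (Or.inl (right_ne_zero_of_mul h1))).1
      · obtain ⟨c, -, h1⟩ := Finset.exists_ne_zero_of_sum_ne_zero hab
        exact (k.ok.blk a c (Or.inr (left_ne_zero_of_mul h1))).1.trans
          (hc b c (right_ne_zero_of_mul h1)).1.symm
    exact ⟨e, hw a b e⟩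
  · intro m hm
    have h0 : coeff m (∑ c, C (O a c) * S.p c) ≠ 0 := mem_support_iff.1 hm
    rw [coeff_sum] at h0
    obtain ⟨c, -, h1⟩ := Finset.exists_ne_zero_of_sum_ne_zero h0
    rw [coeff_C_mul] at h1
    have h2 := k.pd c m (mem_support_iff.2 (right_ne_zero_of_mul h1))
    rw [← hw a c (hc a c (left_ne_zero_of_mul h1)).1] at h2
    exact h2
  · refine Finset.sum_eq_zero fun c _ => ?_
    show O a c * S.G.A c b = 0
    by_cases e : O a c = 0
    · rw [e, zero_mul]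
    · rw [(k.tri c ((hc a c e).2.1 ha) b hb).1, mul_zero]
  · refine Finset.sum_eq_zero fun c _ => ?_
    show S.G.B a c * O b c = 0
    by_cases e : O b c = 0
    · rw [e, mul_zero]
    · rw [(k.tri a ha c fun hh => hb ((hc b c e).2.2 hh)).2, zero_mul]
  · show (O * S.G.A) (S.en c l) d = if d = S.en c l then S.al else 0
    rw [mul_apply]
    simp only [h0 (S.en c l) _ (Or.inl (ge c l)), ite_mul, one_mul, zero_mul, sum_ite_eq, mem_univ,
      if_true, (k.ae c l d).1]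
  · show (S.G.B * Oᵀ) (S.en c l) d = if d = S.en c l then S.al⁻¹ else 0
    rw [mul_apply]
    simp only [(k.ae c l _).2, ite_mul, zero_mul, sum_ite_eq', mem_univ, if_true, transpose_apply,
      h0 d (S.en c l) (Or.inr (ge c l)), mul_ite, mul_one, mul_zero]
  · intro m hm
    have h0 : coeff m (∑ c, C (O a c) * S.p c) ≠ 0 := mem_support_iff.1 hm
    rw [coeff_sum] at h0
    obtain ⟨c, -, h1⟩ := Finset.exists_ne_zero_of_sum_ne_zero h0
    rw [coeff_C_mul] at h1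
    have h2 := k.mp c m (mem_support_iff.2 (right_ne_zero_of_mul h1))
    rw [← hcol a c (left_ne_zero_of_mul h1)] at h2
    exact h2
  · exact (tk_rot S hO _).le.trans ((h.ph g).trans (congrArg (_ * ·) (d1 g)).ge)
  · exact (tk_rot S hO _).le.trans ((h.pn g).trans (congrArg (_ * ·) (d2 g)).ge)
  · rw [d3, m1]; exact h.ma
  · rw [m1, m2]; exact h.de

end RotoP

theorem roto0 : ROTO := by
  intro s J q gr N δ' f ι _ _ S θ θn γ ρ b g V j h hg0 hV hj
  have k := h.ok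
  have hVg : ∀ a ∈ V, S.G.g a = g := fun a ha => by
    rcases hV with rfl | rfl
    · exact (mem_filter.1 (mem_inter.1 ha).1).2
    · exact (mem_filter.1 (mem_sdiff.1 ha).1).2
  have hVe : ∀ a ∈ V, ∀ c ∈ V, (a ∈ S.G.ex ↔ c ∈ S.G.ex) := fun a ha c hc => by
    rcases hV with rfl | rfl
    · exact iff_of_true (mem_inter.1 ha).2 (mem_inter.1 hc).2
    · exact iff_of_false (mem_sdiff.1 ha).2 (mem_sdiff.1 hc).2
  have hBA : ∀ c ∈ V, ∑ a ∈ V, S.G.B j a * S.G.A a c = (1 : Matrix ι ι ℝ) j c := fun c hc => by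
    rw [← mul_eq_one_comm.1 k.ok.AB, mul_apply]
    refine Finset.sum_subset (subset_univ V) fun a _ ha => ?_
    by_cases e : S.G.B j a = 0
    · rw [e, zero_mul]
    have hg : a ∈ gp S.G g :=
      mem_filter.2 ⟨mem_univ _, (k.ok.blk j a (Or.inr e)).1.symm.trans (hVg j hj)⟩
    rcases hV with rfl | rfl
    · exact absurd (k.tri j (mem_inter.1 hj).2 a fun hh => ha (mem_inter.2 ⟨hg, hh⟩)).2 e
    · have : a ∈ S.G.ex := by
        by_contra hh
        exact ha (mem_sdiff.2 ⟨hg, hh⟩)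
      rw [(k.tri a this c (mem_sdiff.1 hc).2).1, mul_zero]
  have hpos : 0 < ∑ a ∈ V, S.G.B j a ^ 2 := by
    have h1 := hBA j hj
    rw [one_apply_eq] at h1
    obtain ⟨a, ha, h2⟩ := Finset.exists_ne_zero_of_sum_ne_zero (h1.trans_ne one_ne_zero)
    exact Finset.sum_pos' (fun _ _ => sq_nonneg _)
      ⟨a, ha, sq_pos_of_ne_zero (left_ne_zero_of_mul h2)⟩
  obtain ⟨δ, hδ⟩ : ∃ δ, δ = √(∑ a ∈ V, S.G.B j a ^ 2) := ⟨_, rfl⟩
  have δ0 : 0 < δ := hδ ▸ Real.sqrt_pos.2 hpos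
  have δ2 : δ ^ 2 = ∑ a ∈ V, S.G.B j a ^ 2 := hδ ▸ Real.sq_sqrt hpos.le
  obtain ⟨O, hO, hr, ho⟩ := Rg.RotoP.house V j hj (fun a => if a ∈ V then S.G.B j a / δ else 0)
    (fun a ha => if_neg ha) (by
      simp only [ite_pow, ne_eq, OfNat.ofNat_ne_zero, not_false_eq_true, zero_pow,
        Finset.sum_ite_mem, univ_inter, div_pow]
      rw [← Finset.sum_div, ← δ2, div_self (pow_ne_zero 2 δ0.ne')])
  have hrow : ∀ c ∈ V, (O * S.G.A) j c = (1 : Matrix ι ι ℝ) j c / δ := fun c hc => by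
    rw [← hBA c hc, mul_apply, Finset.sum_div]
    simp only [hr, ite_mul, zero_mul, Finset.sum_ite_mem, univ_inter]
    exact Finset.sum_congr rfl fun a _ => by ring
  refine ⟨RotoP.rot S O, RotoP.inv_rot h hO (fun a c e => ?_) fun a c e => ?_,
    ⟨rfl, rfl, rfl, rfl, rfl⟩, rfl,
    ⟨hj, hδ ▸ δ0, ?_, fun c hc hcj => ?_⟩, fun a ha => ?_⟩
  · by_cases hac : a ∈ V ∧ c ∈ V
    · exact ⟨(hVg a hac.1).trans (hVg c hac.2).symm, hVe a hac.1 c hac.2⟩
    · rw [ho a c (not_and_or.1 hac)] at e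
      have : a = c := by
        by_contra hh
        exact e (one_apply_ne hh)
      subst this
      exact ⟨rfl, Iff.rfl⟩
  · exact (ho a c (e.imp (fun z hh => hg0 ((hVg a hh).symm.trans z))
      fun z hh => hg0 ((hVg c hh).symm.trans z))).trans one_apply
  · rw [← hδ]
    exact (hrow j hj).trans (by rw [one_apply_eq, one_div])
  · exact (hrow c hc).trans (by rw [one_apply_ne (Ne.symm hcj), zero_div])
  · have e : ∀ c, O a c = if a = c then 1 else 0 := fun c =>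
      (ho a c (Or.inl fun hh => ha (hVg a hh))).trans one_apply
    rw [RotoP.th_rot, Finset.sum_eq_single a (fun c _ hc => by
      rw [e, if_neg (Ne.symm hc), map_zero, zero_mul]) (fun hh => absurd (mem_univ a) hh), e,
      if_pos rfl, map_one, one_mul]

theorem roto (_ : BR) : ROTO := roto0

end

end Vale.Agent.P057T.Cw
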