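import Vale.Agent.P057T.Cw.Defs
import Vale.Agent.P057T.Rg.Shear

/-! Row SHEAR for coloured towers. -/

open MvPolynomial Finset
open scoped Real

namespace Vale.Agent.P057T.Cw

open Vale.Agent.P057T.Eq Vale.Agent.P057L Vale.Agent.P057T.Cp
open Vale.Agent.P057T.Rg (gp tk lo at1)
open Vale.Agent.P057T.Rg.ShH46 (aeval_same eval_same eval_aev isz_val shE tk_mono)

set_option linter.unusedSectionVars false

noncomputable section

namespace ShH46

variable {ι : Type} [Fintype ι] [DecidableEq ι] {J q : ℕ}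

theorem hm_mon {M : Type} [AddCommMonoid M] (w : ι → M) (σ : ι → MvPolynomial ι ℝ)
    (hσ : ∀ b, IsWeightedHomogeneous w (σ b) (w b)) (m : ι →₀ ℕ) (c : ℝ) :
    IsWeightedHomogeneous w (aeval σ (monomial m c)) (Finsupp.weight w m) := by
  rw [aeval_monomial, Finsupp.weight_apply, Finsupp.sum, Finsupp.prod]
  have h := IsWeightedHomogeneous.prod m.support (fun b => σ b ^ m b) (fun b => m b • w b)
    (w := w) (fun b _ => (hσ b).pow (m b))
  exact h.C_mul c

theorem supp_aeval {M : Type} [AddCommMonoid M] (w : ι → M) (σ : ι → MvPolynomial ι ℝ)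
    (hσ : ∀ b, IsWeightedHomogeneous w (σ b) (w b)) (F : MvPolynomial ι ℝ) (m' : ι →₀ ℕ)
    (h : m' ∈ (aeval σ F).support) :
    ∃ m ∈ F.support, Finsupp.weight w m' = Finsupp.weight w m := by
  rw [F.as_sum, map_sum] at h
  obtain ⟨m, hm, h2⟩ := Finset.mem_biUnion.1 (support_sum h)
  exact ⟨m, hm, hm_mon w σ hσ m _ (mem_support_iff.1 h2)⟩

/-- the substitution -/
def sg (S : St ι J q) (j : ι) : ι → MvPolynomial ι ℝ := Function.update X j (X j + S.G.q j)

/-- the sheared tower -/
def sh (S : St ι J q) (j : ι) : St ι J q where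
  G := ⟨S.G.g, S.G.w, S.G.A, S.G.B, fun a => if a = j then 0 else aeval (sg S j) (S.G.q a),
    insert j S.G.ex⟩
  p := fun a => aeval (sg S j) (S.p a)
  col := S.col
  en := S.en
  al := S.al
  r := S.r
  n := S.n

variable {S : St ι J q} {s : ℕ} {gr : Finset (Fin J) → ℕ} {j : ι}

theorem sg_hm (h : S.Ok s gr) (j b : ι) : IsWeightedHomogeneous S.G.w (sg S j b) (S.G.w b) := by
  by_cases hb : b = j
  · subst hb
    simp only [sg, Function.update_self]
    exact (isWeightedHomogeneous_X ℝ S.G.w b).add (h.ok.qh b)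
  · simp only [sg, Function.update_of_ne hb]
    exact isWeightedHomogeneous_X ℝ S.G.w b

theorem sg_mh (h : S.Ok s gr) (j b : ι) :
    IsWeightedHomogeneous (fun a => ic (S.col a)) (sg S j b) (ic (S.col b)) := by
  by_cases hb : b = j
  · subst hb
    simp only [sg, Function.update_self]
    exact (isWeightedHomogeneous_X ℝ (fun a => ic (S.col a)) b).add (h.mq b)
  · simp only [sg, Function.update_of_ne hb]
    exact isWeightedHomogeneous_X ℝ (fun a => ic (S.col a)) b

theorem sg_vars (h : S.Ok s gr) (j b c : ι) (hc : c ∈ (sg S j b).vars) : S.G.g c ≤ S.G.g b := by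
  by_cases hb : b = j
  · subst hb
    simp only [sg, Function.update_self] at hc
    rcases Finset.mem_union.1 (vars_add_subset _ _ hc) with h1 | h1
    · rw [vars_X, Finset.mem_singleton] at h1
      rw [h1]
    · exact (h.ok.ql b c h1).le
  · simp only [sg, Function.update_of_ne hb] at hc
    rw [vars_X, Finset.mem_singleton] at hc
    rw [hc]

theorem j_not (h : S.Ok s gr) (j : ι) : j ∉ (S.G.q j).vars :=
  fun hj => lt_irrefl _ (h.ok.ql j j hj)

theorem sg_qj (h : S.Ok s gr) (j : ι) : aeval (sg S j) (S.G.q j) = S.G.q j := by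
  refine aeval_same _ _ fun b hb => ?_
  have : b ≠ j := fun e => j_not h j (e ▸ hb)
  simp only [sg, Function.update_of_ne this]

theorem sh_th (h : S.Ok s gr) (j a : ι) : (sh S j).G.th a = aeval (sg S j) (S.G.th a) := by
  unfold GT.th
  rw [map_sum]
  refine Finset.sum_congr rfl fun b _ => ?_
  rw [map_mul, map_sub, aeval_C, aeval_X, algebraMap_eq]
  by_cases hb : b = j
  · subst hb
    rw [sg_qj h b]
    simp [sh, sg]
  · simp [sh, sg, hb]

theorem sh_ch (h : S.Ok s gr) (j a : ι) : (sh S j).ch a = aeval (sg S j) (S.ch a) := by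
  unfold St.ch
  rw [sh_th h, map_add]
  rfl

theorem Arow (h : S.Ok s gr) {δ : ℝ} (hp : S.Pv (gp S.G (S.G.g j) \ S.G.ex) j δ) (b : ι)
    (hb : b ∉ S.G.ex) (hbj : b ≠ j) : S.G.A j b = 0 := by
  by_contra h0
  have h1 := (h.ok.blk j b (Or.inl h0)).1
  exact h0 (hp.2.2.2 b (by simp [gp, hb, h1]) hbj)

theorem Brow (h : S.Ok s gr) {δ : ℝ} (hp : S.Pv (gp S.G (S.G.g j) \ S.G.ex) j δ) (b : ι)
    (hb : b ∉ S.G.ex) : δ⁻¹ * S.G.B j b = if j = b then 1 else 0 := by
  have h1 := congrFun (congrFun h.ok.AB j) b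
  rw [Matrix.mul_apply, Matrix.one_apply, Finset.sum_eq_single j, hp.2.2.1] at h1
  · exact h1
  · intro c _ hc
    by_cases he : c ∈ S.G.ex
    · rw [(h.tri c he b hb).2, mul_zero]
    · rw [Arow h hp c he hc, zero_mul]
  · intro h0
    exact absurd (Finset.mem_univ j) h0

theorem Bz (h : S.Ok s gr) {δ : ℝ} (hp : S.Pv (gp S.G (S.G.g j) \ S.G.ex) j δ) (b : ι)
    (hb : b ∉ S.G.ex) (hbj : b ≠ j) : S.G.B j b = 0 := by
  have h1 := Brow h hp b hb
  rw [if_neg (Ne.symm hbj)] at h1
  exact (mul_eq_zero.1 h1).resolve_left (inv_ne_zero hp.2.1.ne')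

theorem Bjj (h : S.Ok s gr) {δ : ℝ} (hp : S.Pv (gp S.G (S.G.g j) \ S.G.ex) j δ) :
    S.G.B j j = δ := by
  have h1 := Brow h hp j (Finset.mem_sdiff.1 hp.1).2
  rw [if_pos rfl] at h1
  have h2 := hp.2.1.ne'
  field_simp at h1
  exact h1

theorem sh_ok (h : S.Ok s gr) {δ : ℝ} (hp : S.Pv (gp S.G (S.G.g j) \ S.G.ex) j δ) :
    (sh S j).Ok s gr where
  go := h.go
  ok :=
    { w1 := h.ok.w1
      ws := h.ok.ws
      gs := h.ok.gs
      AB := h.ok.AB
      blk := h.ok.blk
      qh := fun a => by
        change IsWeightedHomogeneous S.G.w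
          (if a = j then 0 else aeval (sg S j) (S.G.q a)) (S.G.w a)
        split_ifs with ha
        · exact isWeightedHomogeneous_zero ℝ _ _
        · intro d hd
          obtain ⟨m, hm, e⟩ := supp_aeval S.G.w _ (sg_hm h j) _ d (mem_support_iff.2 hd)
          rw [e]
          exact h.ok.qh a (mem_support_iff.1 hm)
      ql := fun a => by
        intro b hb
        change b ∈ (if a = j then 0 else aeval (sg S j) (S.G.q a)).vars at hb
        change S.G.g b < S.G.g a
        split_ifs at hb with ha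
        · simp at hb
        · rw [aeval_eq_bind₁] at hb
          obtain ⟨i, hi, hbi⟩ := mem_vars_bind₁ _ _ hb
          exact (sg_vars h j i b hbi).trans_lt (h.ok.ql a i hi)
      qe := fun a ha => by
        change (if a = j then 0 else aeval (sg S j) (S.G.q a)) = 0
        split_ifs with haj
        · rfl
        · have : a ∈ S.G.ex := (Finset.mem_insert.1 ha).resolve_left haj
          rw [h.ok.qe a this, map_zero] }
  wc := h.wc
  pr := h.pr
  pd := fun a d hd => by
    obtain ⟨m, hm, e⟩ := supp_aeval S.G.w _ (sg_hm h j) _ d hd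
    change Finsupp.weight S.G.w d < S.G.w a
    rw [e]
    exact h.pd a m hm
  tri := fun a ha b hb => by
    have hb1 : b ≠ j := fun e => hb (e ▸ Finset.mem_insert_self _ _)
    have hb2 : b ∉ S.G.ex := fun e => hb (Finset.mem_insert_of_mem e)
    rcases Finset.mem_insert.1 ha with e | e
    · rw [e]
      exact ⟨Arow h hp b hb2 hb1, Bz h hp b hb2 hb1⟩
    · exact h.tri a e b hb2
  inj := h.inj
  g0 := h.g0
  gc := h.gc
  ce := h.ce
  ee := fun c l => Finset.mem_insert_of_mem (h.ee c l)
  ae := h.ae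
  mq := fun a => by
    change IsWeightedHomogeneous (fun a => ic (S.col a))
      (if a = j then 0 else aeval (sg S j) (S.G.q a)) (ic (S.col a))
    split_ifs with ha
    · exact isWeightedHomogeneous_zero ℝ _ _
    · intro d hd
      obtain ⟨m, hm, e⟩ := supp_aeval (fun a => ic (S.col a)) _ (sg_mh h j) _ d
        (mem_support_iff.2 hd)
      rw [e]
      exact h.mq a (mem_support_iff.1 hm)
  mp := fun a d hd => by
    obtain ⟨m, hm, e⟩ := supp_aeval (fun a => ic (S.col a)) _ (sg_mh h j) _ d hd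
    change Finsupp.weight (fun a => ic (S.col a)) d ≤ ic (S.col a)
    rw [e]
    exact h.mp a m hm
  al0 := h.al0
  n1 := h.n1

theorem ex_equiv (h : S.Ok s gr) (j : ι) (hz : IsZ (S.G.q j)) :
    ∃ T : (ι → ℤ) ≃ (ι → ℤ), (∀ (z : ι → ℤ) (F : MvPolynomial ι ℝ),
      eval (cz z) (aeval (sg S j) F) = eval (cz (T z)) F) ∧ ∀ z b, b ≠ j → T z b = z b := by
  choose n hn using isz_val _ hz
  have h1 : ∀ z y, n (Function.update z j y) = n z := by
    intro z y
    have h2 : ((n (Function.update z j y) : ℤ) : ℝ) = n z := by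
      rw [← hn, ← hn]
      refine eval_same _ _ _ fun b hb => ?_
      have : b ≠ j := fun e => j_not h j (e ▸ hb)
      simp only [cz, Function.update_of_ne this]
    exact_mod_cast h2
  refine ⟨shE j n h1, fun z F => ?_, fun z b hb => ?_⟩
  · rw [eval_aev]
    congr 2
    funext b
    change eval (cz z) (sg S j b) = ((Function.update z j (z j + n z) b : ℤ) : ℝ)
    by_cases hb : b = j
    · subst hb
      simp only [sg, Function.update_self, map_add, eval_X, hn]
      push_cast
      rfl
    · simp only [sg, Function.update_of_ne hb, eval_X]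
      rfl
  · change Function.update z j (z j + n z) b = z b
    rw [Function.update_of_ne hb]

end ShH46

open ShH46 in
theorem shear (hD : Rg.DVP) : SHEAR := by
  intro s J q gr N δ0 f ι _ _ S θ θn γ ρ b δ h j hI hp hδ hz
  have hO := hI.ok
  have hj : j ∉ S.G.ex := (Finset.mem_sdiff.1 hp.1).2
  obtain ⟨T, hT, hT'⟩ := ex_equiv hO j hz
  have hw : ∀ z, (sh S j).wt z = S.wt (T z) := by
    intro z
    unfold St.wt St.sq
    simp only [sh_ch hO, hT]
  have hi : ∀ z, (sh S j).xs z = S.xs (T z) := by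
    intro z
    funext c l
    change S.r c l + (S.n : ℤ) * z (S.en c l) = S.r c l + (S.n : ℤ) * T z (S.en c l)
    rw [hT' z _ fun e => hj (e ▸ hO.ee c l)]
  have hms : (sh S j).ms = S.ms := by
    unfold St.ms
    simp only [hw]
    exact T.tsum_eq S.wt
  have hhit : (sh S j).hit f = S.hit f := by
    unfold St.hit
    simp only [hw, hi]
    exact T.tsum_eq fun z => S.wt z * f (S.xs z)
  refine ⟨sh S j, ⟨sh_ok hO hp, hI.f0, hI.ph, fun g => ?_, ?_, hI.nr, hI.ar, hI.na, ?_⟩, ?_⟩
  · change tk S.G (Lat (gp S.G g \ insert j S.G.ex)) ≤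
      Real.exp (at1 θn (S.G.g j) h g) * S.G.dv (gp S.G g \ insert j S.G.ex)
    by_cases hg : g = S.G.g j
    · subst hg
      have e1 : gp S.G (S.G.g j) \ insert j S.G.ex = (gp S.G (S.G.g j) \ S.G.ex).erase j := by
        ext c
        simp only [Finset.mem_sdiff, Finset.mem_insert, Finset.mem_erase]
        tauto
      have e2 := hD ι S.G _ j hp.1
        (Or.inl fun c hc hcj => Bz hO hp c (Finset.mem_sdiff.1 hc).2 hcj)
      rw [Bjj hO hp, abs_of_pos hp.2.1] at e2
      have e3 : tk S.G (Lat ((gp S.G (S.G.g j) \ S.G.ex).erase j)) ≤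
          tk S.G (Lat (gp S.G (S.G.g j) \ S.G.ex)) := by
        refine tk_mono S.G hO.ok.AB fun z hz' => ?_
        intro a ha
        exact hz' a fun h0 => ha (Finset.mem_of_mem_erase h0)
      rw [e1]
      refine e3.trans ((hI.pn _).trans ?_)
      rw [e2, ← mul_assoc]
      refine mul_le_mul_of_nonneg_right ?_ (Rg.dv_nonneg _ _)
      simp only [at1, if_true, Real.exp_add]
      exact mul_le_mul_of_nonneg_left hδ (Real.exp_pos _).le
    · have e1 : gp S.G g \ insert j S.G.ex = gp S.G g \ S.G.ex := by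
        ext c
        simp only [Finset.mem_sdiff, Finset.mem_insert, gp, Finset.mem_filter, Finset.mem_univ,
          true_and]
        constructor
        · rintro ⟨h1, h2⟩
          exact ⟨h1, fun h3 => h2 (Or.inr h3)⟩
        · rintro ⟨h1, h2⟩
          refine ⟨h1, fun h3 => h3.elim (fun h4 => hg ?_) h2⟩
          rw [← h1, h4]
      rw [e1]
      simp only [at1, if_neg hg, add_zero]
      exact hI.pn g
  · rw [hms]
    exact hI.ma
  · rw [hms, hhit]
    exact hI.de
  · change ∑ a, (2 * (J + 1) ^ S.G.w a + if a ∈ insert j S.G.ex then 0 else 1) <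
      ∑ a, (2 * (J + 1) ^ S.G.w a + if a ∈ S.G.ex then 0 else 1)
    refine Finset.sum_lt_sum (fun a _ => ?_) ⟨j, Finset.mem_univ j, ?_⟩
    · by_cases ha : a ∈ S.G.ex
      · rw [if_pos ha, if_pos (Finset.mem_insert_of_mem ha)]
      · rw [if_neg ha]
        split_ifs <;> omega
    · rw [if_pos (Finset.mem_insert_self _ _), if_neg hj]
      omega

end

end Vale.Agent.P057T.Cw
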