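import Vale.Agent.P057T.Cw.Fix
import Vale.Agent.P057T.Rg.Shr

/-! Shrinking and dilating the lower groups of a coloured tower. -/

set_option linter.all false

open MvPolynomial Finset
open scoped Real

namespace Vale.Agent.P057T.Cw

open Vale.Agent.P057T.Eq Vale.Agent.P057L Vale.Agent.P057T.Eq.Derok
open Vale.Agent.P057T.Rg (gp tk lo at1 dv_nonneg)
open Vale.Agent.P057T.Rg.ShA (A_nr B_nr dv_nr tk_nr uE)
open Vale.Agent.P057T.Rg.DlA (D Sh pz dG eval_Sh D_hom dz2 int_sc1 dv_dG tsum_cls pz_inj th_dG ok_dG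
  tk_dG pz_lat pig)
open Vale.Agent.P057T.Cfg.DilA (hom_Cmul two' sc)

noncomputable section

namespace SdA

variable {ι : Type} [Fintype ι] [DecidableEq ι] {s J q : ℕ} {gr : Finset (Fin J) → ℕ}

lemma wt_app (w : ι → Fin J → ℕ) (μ : ι →₀ ℕ) (c : Fin J) :
    Finsupp.weight w μ c = Finsupp.weight (fun a => w a c) μ := by
  rw [Finsupp.weight_apply, Finsupp.weight_apply, Finsupp.sum, Finsupp.sum, Finset.sum_apply]
  rfl

lemma ml_iff {col : ι → Finset (Fin J)} {e : Finset (Fin J)} {F : MvPolynomial ι ℝ} :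
    Ml col e F ↔ ∀ c, DZ (fun a => ic (col a) c) (ic e c : ℕ) F := by
  constructor
  · intro h c μ hμ
    have := h μ hμ c
    rw [wt_app] at this
    exact_mod_cast this
  · intro h μ hμ c
    have := h c μ hμ
    rw [wt_app]
    exact_mod_cast this

lemma mh_iff {col : ι → Finset (Fin J)} {e : Finset (Fin J)} {F : MvPolynomial ι ℝ} :
    Mh col e F ↔ ∀ c, IsWeightedHomogeneous (fun a => ic (col a) c) F (ic e c) := by
  constructor
  · intro h c μ hμ
    rw [← wt_app (fun a => ic (col a)), h hμ]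
  · intro h μ hμ
    funext c
    rw [wt_app]
    exact h c hμ

lemma dz_Sh {w : ι → ℕ} (m : ι → ℕ) (r : ι → ℤ) {k : ℤ} {F : MvPolynomial ι ℝ} (hF : DZ w k F) :
    DZ w k (Sh m r F) := by
  have h1 : ∀ b, DZ w (w b) (C (r b : ℝ) + C (m b : ℝ) * X b : MvPolynomial ι ℝ) := fun b =>
    ((dz_C _).mono (by omega)).add ((dz_X b).cmul _)
  exact (two' h1 h1 (fun b => by rw [sub_self]; exact dz_zero _) hF).1

lemma ex_eq (S : St ι J q) (h : (ι → ℤ) → ℝ) : Cp.Ex S.G S.AT h = ∑' z, S.wt z * h z := by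
  rw [← (uE (ι := ι)).tsum_eq]
  refine tsum_congr fun z => ?_
  show Real.exp (-π * ∑ a, (1 * eval (cz z.1) (S.ch a)) ^ 2) • h z.1 = _
  simp only [one_mul, smul_eq_mul]
  rfl

lemma mn_eq (S : St ι J q) : Cp.Mn S.G S.AT = S.G.dv univ := by
  show S.G.dv univ * ∏ _a : ι, (1 : ℝ)⁻¹ = _
  simp

lemma sum_hit {S : St ι J q} (hs : Summable S.wt) {f : Pt J q → ℝ} (hf : ∀ x, 0 ≤ f x ∧ f x ≤ 1) :
    Summable fun z => S.wt z * f (S.xs z) :=
  Summable.of_nonneg_of_le (fun z => mul_nonneg (Real.exp_pos _).le (hf _).1)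
    (fun z => mul_le_of_le_one_right (Real.exp_pos _).le (hf _).2) hs

lemma ex_aff {S : St ι J q} (hs : Summable S.wt) {f : Pt J q → ℝ} (hf : ∀ x, 0 ≤ f x ∧ f x ≤ 1)
    (v : ℝ) : Cp.Ex S.G S.AT (fun z => f (S.xs z) + v) = S.hit f + v * S.ms := by
  rw [ex_eq]
  unfold St.hit St.ms
  rw [← tsum_mul_left, ← (sum_hit hs hf).tsum_add (hs.mul_left v)]
  exact tsum_congr fun z => by ring

lemma hit_le {S : St ι J q} (hs : Summable S.wt) {f : Pt J q → ℝ} (hf : ∀ x, 0 ≤ f x ∧ f x ≤ 1) :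
    0 ≤ S.hit f ∧ S.hit f ≤ S.ms :=
  ⟨tsum_nonneg fun z => mul_nonneg (Real.exp_pos _).le (hf _).1,
    Summable.tsum_le_tsum (fun z => mul_le_of_le_one_right (Real.exp_pos _).le (hf _).2)
      (sum_hit hs hf) hs⟩

/-- the potentials after a move that costs the product of `m` -/
lemma pot {G G' : GT ι} {m : ι → ℝ} {g : ℕ} {l : ℝ} (h0 : ∀ a, 0 ≤ m a) (h1 : ∀ a, m a ≤ Real.exp l)
    (hl : 0 ≤ l) (h2 : ∀ a, ¬ G.g a < g → m a = 1) (h3 : ∀ V, G.dv V = (∏ a ∈ V, m a) * G'.dv V)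
    (h4 : ∀ V : Finset ι, tk G' (Lat V) ≤ tk G (Lat V)) (ϑ : ℕ → ℝ) (g' : ℕ) (V : Finset ι) (hV : V ⊆ gp G g')
    (h : tk G (Lat V) ≤ Real.exp (ϑ g') * G.dv V) :
    tk G' (Lat V) ≤ Real.exp (lo ϑ g (Fintype.card ι * l) g') * G'.dv V := by
  refine (h4 V).trans (h.trans ?_)
  rw [h3 V, ← mul_assoc]
  refine mul_le_mul_of_nonneg_right ?_ (dv_nonneg _ _)
  unfold lo
  rw [Real.exp_add]
  refine mul_le_mul_of_nonneg_left ?_ (Real.exp_pos _).le
  split_ifs with hg
  · calc ∏ a ∈ V, m a ≤ ∏ _a ∈ V, Real.exp l := Finset.prod_le_prod (fun a _ => h0 a) fun a _ => h1 a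
      _ = Real.exp l ^ V.card := by rw [prod_const]
      _ ≤ Real.exp l ^ Fintype.card ι := pow_le_pow_right₀ (Real.one_le_exp hl) (card_le_univ V)
      _ = _ := by rw [← Real.exp_nat_mul]
  · rw [Real.exp_zero]
    refine le_of_eq (Finset.prod_eq_one fun a ha => h2 a ?_)
    rw [(mem_filter.1 (hV ha)).2]
    exact hg

/-- the narrowed tower -/
def nS (S : St ι J q) (l c : ι → ℝ) (l0 : ℝ) : St ι J q :=
  ⟨Cp.nr S.G l, (Cp.nrT S.AT l c).p, S.col, S.en, l0 * S.al, S.r, S.n⟩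

/-- the dilated tower -/
def dS (S : St ι J q) (m : ι → ℕ) (m0 : ℕ) (r : ι → ℤ) : St ι J q :=
  ⟨dG S.G m, fun a => Sh m r (S.ch a) - (dG S.G m).th a, S.col, S.en, m0 * S.al,
    fun c l => S.r c l + S.n * r (S.en c l), S.n * m0⟩

lemma wt_dS (S : St ι J q) (m : ι → ℕ) (m0 : ℕ) (r z : ι → ℤ) :
    (dS S m m0 r).wt z = S.wt (pz m r z) := by
  have e : ∀ a, (dS S m m0 r).ch a = Sh m r (S.ch a) := fun a => add_sub_cancel _ _
  unfold St.wt St.sq
  simp only [e, eval_Sh]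

lemma xs_dS (S : St ι J q) {m : ι → ℕ} {m0 : ℕ} (h : ∀ c l, m (S.en c l) = m0) (r z : ι → ℤ) :
    (dS S m m0 r).xs z = S.xs (pz m r z) := by
  funext c l
  show S.r c l + S.n * r (S.en c l) + ((S.n * m0 : ℕ) : ℤ) * z (S.en c l) =
    S.r c l + S.n * (r (S.en c l) + m (S.en c l) * z (S.en c l))
  rw [h]
  push_cast
  ring

end SdA

open SdA in
theorem shr (hB : BR) (hC : Cp.CELL) (hR : Cp.RCA) : SHR1 := by
  intro s J q gr N δ f ι _ _ S θ θn γ ρ b η x l g hI hl hη h3 hxb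
  obtain ⟨hA, hsum, -, -, hdv, -⟩ := hB s J q gr ι S hI.ok
  set lam : ι → ℝ := fun a => if S.G.g a < g then Real.exp l else 1 with hlam
  set l0 : ℝ := if 0 < g then Real.exp l else 1 with hl0
  have hE : 1 ≤ Real.exp l := Real.one_le_exp hl.le
  have h1 : ∀ a, 1 ≤ lam a := fun a => by
    simp only [hlam]
    split_ifs
    · exact hE
    · exact le_rfl
  have h2 : ∀ a, lam a ≤ Real.exp l := fun a => by
    simp only [hlam]
    split_ifs
    · exact le_rfl
    · exact hE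
  have hl1 : 1 ≤ l0 ∧ l0 ≤ Real.exp l := by
    simp only [hl0]
    split_ifs
    · exact ⟨hE, le_rfl⟩
    · exact ⟨le_rfl, hE⟩
  have hen : ∀ c i, lam (S.en c i) = l0 := fun c i => by
    simp only [hlam, hl0, (hI.ok.g0 _).2 ⟨c, i, rfl⟩]
  have h0 : ∀ a, 0 < lam a := fun a => lt_of_lt_of_le one_pos (h1 a)
  have hb : 0 < b := (mul_pos_iff_of_pos_left hη).1 (lt_of_lt_of_le (Real.exp_pos _) hxb)
  have hd : 0 < S.G.dv univ := hdv univ fun a _ ha => absurd (mem_univ a) ha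
  have hok : (Cp.nr S.G lam).Ok s := by
    refine (hR s ι S.G _ _ (Real.exp l) hI.ok.ok ⟨?_, fun a c h => ?_, fun a => ?_⟩).1
    · rw [Matrix.diagonal_mul_diagonal, ← Matrix.diagonal_one]
      congr 1
      funext a
      exact mul_inv_cancel₀ (h0 a).ne'
    · by_cases e : a = c
      · rw [e]
        exact ⟨rfl, rfl⟩
      · rw [Matrix.diagonal_apply_ne _ e, Matrix.diagonal_apply_ne _ e] at h
        exact absurd rfl (h.elim id id)
    · rw [Finset.sum_eq_single a, Matrix.diagonal_apply_eq, abs_of_pos (h0 a)]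
      · exact h2 a
      · intro c _ hc
        rw [Matrix.diagonal_apply_ne _ hc.symm, abs_zero]
      · simp
  have hma := hI.ma
  have hde := hI.de
  have hpos : 0 < Real.exp (-γ) * S.G.dv univ := mul_pos (Real.exp_pos _) hd
  obtain ⟨c, -, h4, h5⟩ := hC s ι S.G S.AT 1 lam (fun z => f (S.xs z) + -((1 - 2 * η) * b))
    (1 + |-((1 - 2 * η) * b)|) (η * b * Real.exp (-γ)) hI.ok.ok one_pos (hA 1 le_rfl) h1
    (fun z => (abs_add_le _ _).trans (add_le_add_left (by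
      rw [abs_of_nonneg (hI.f0 _).1]
      exact (hI.f0 _).2) _))
    (by
      rw [ex_aff hsum hI.f0, mn_eq]
      have h6 : 0 < η * b := mul_pos hη hb
      have h7 := mul_le_mul_of_nonneg_left hma h6.le
      have h8 := mul_pos h6 hpos
      nlinarith)
  have h6 : (nS S lam c l0).Ok s gr := by
    refine ⟨hI.ok.go, hok, hI.ok.wc, hI.ok.pr, fun a => h4.pd a (mem_univ a), fun a ha d hd => ?_,
      hI.ok.inj, hI.ok.g0, hI.ok.gc, hI.ok.ce, hI.ok.ee, fun c' i d => ?_, hI.ok.mq, fun a => ?_,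
      mul_pos (by linarith [hl1.1]) hI.ok.al0, hI.ok.n1⟩
    · obtain ⟨e1, e2⟩ := hI.ok.tri a ha d hd
      exact ⟨(A_nr S.G lam a d).trans (mul_eq_zero_of_right _ e1),
        (B_nr S.G lam a d).trans (mul_eq_zero_of_left e2 _)⟩
    · obtain ⟨e1, e2⟩ := hI.ok.ae c' i d
      refine ⟨(A_nr S.G lam _ d).trans ?_, (B_nr S.G lam _ d).trans ?_⟩
      · show lam (S.en c' i) * S.G.A (S.en c' i) d = if d = S.en c' i then l0 * S.al else 0
        rw [e1, hen, mul_ite, mul_zero]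
      · show S.G.B (S.en c' i) d * (lam d)⁻¹ = if d = S.en c' i then (l0 * S.al)⁻¹ else 0
        rw [e2]
        split_ifs with h
        · rw [h, hen, mul_inv, mul_comm]
        · rw [zero_mul]
    · refine ml_iff.2 fun c' => DZ.sub (dz_sum _ _ fun d _ => ?_) ((dz_C _).mono (by omega))
      by_cases e : a = d
      · subst e
        exact (ml_iff.1 (hI.ok.mp a) c').cmul _
      · rw [Matrix.diagonal_apply_ne _ e, C_0, zero_mul]
        exact dz_zero _
  have hs' := (hB s J q gr ι _ h6).2.1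
  have h7 : η * b * Real.exp (-γ) * Cp.Mn (nS S lam c l0).G (nS S lam c l0).AT <
      Cp.Ex (nS S lam c l0).G (nS S lam c l0).AT
        (fun z => f ((nS S lam c l0).xs z) + -((1 - 2 * η) * b)) := h5
  rw [ex_aff hs' hI.f0, mn_eq] at h7
  obtain ⟨h8, h9⟩ := hit_le hs' hI.f0
  have h10 : 0 ≤ Real.exp (-γ) * (nS S lam c l0).G.dv univ :=
    mul_nonneg (Real.exp_pos _).le (dv_nonneg _ _)
  have h11 := mul_le_mul_of_nonneg_right hxb h10
  have h12 : 0 ≤ (1 - 2 * η) * b * (nS S lam c l0).ms :=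
    mul_nonneg (mul_nonneg (by linarith) hb.le) (ms_nonneg _)
  have h13 := mul_nonneg (mul_pos hη hb).le h10
  have hth := pot (G := S.G) (G' := Cp.nr S.G lam) (g := g) (fun a => (h0 a).le) h2 hl.le
    (fun a ha => by simp only [hlam, ha, if_false]) (dv_nr S.G h1) (fun V => tk_nr hI.ok.ok h1 _)
  refine ⟨nS S lam c l0, ⟨h6, hI.f0, fun g' => hth θ g' _ subset_rfl (hI.ph g'),
    fun g' => hth θn g' _ sdiff_subset (hI.pn g'), ?_,
    hI.nr.trans (Real.exp_le_exp.2 (by linarith)), ?_, ?_, by nlinarith⟩, ⟨rfl, rfl, rfl, rfl, rfl⟩, rfl,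
    fun a d => A_nr S.G lam a d, fun a d => (B_nr S.G lam a d).trans ?_⟩
  · rw [neg_add, Real.exp_add]
    nlinarith
  · show l0 * S.al * N ≤ _
    rw [mul_assoc, Real.exp_add, mul_comm (Real.exp ρ)]
    exact (mul_le_mul_of_nonneg_left hI.ar (by linarith [hl1.1])).trans
      (mul_le_mul_of_nonneg_right hl1.2 (Real.exp_pos _).le)
  · show (S.n : ℝ) ≤ δ * (l0 * S.al * N)
    have e : δ * (l0 * S.al * N) = l0 * (δ * (S.al * N)) := by ring
    rw [e]
    exact hI.na.trans (le_mul_of_one_le_left ((Nat.cast_nonneg _).trans hI.na) hl1.1)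
  · by_cases e : S.G.B a d = 0
    · rw [e, zero_mul, mul_zero]
    · have := (hI.ok.ok.blk a d (Or.inr e)).1
      simp only [hlam, ← this]
      split_ifs
      · rw [Real.exp_neg, mul_comm]
      · rw [inv_one, mul_comm]

open SdA in
theorem dil (hB : BR) : DIL1 := by
  intro s J q gr N δ f ι _ _ S θ θn γ ρ b η x l g n hI hn hl hη hη2 hxb
  obtain ⟨-, hsum, -, -, hdv, -, -, hmt, -⟩ := hB s J q gr ι S hI.ok
  set m : ι → ℕ := fun a => if S.G.g a < g then n else 1 with hm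
  set m0 : ℕ := if 0 < g then n else 1 with hm0
  have h1 : ∀ a, 1 ≤ m a := fun a => by
    simp only [hm]
    split_ifs
    · exact hn
    · exact le_rfl
  have h2 : ∀ a c, S.G.g a = S.G.g c → m a = m c := fun a c h => by simp only [hm, h]
  have hE : 1 ≤ Real.exp l := le_trans (by exact_mod_cast hn) hl
  have hl0 : 0 ≤ l := Real.one_le_exp_iff.1 hE
  have hen : ∀ c i, m (S.en c i) = m0 := fun c i => by
    simp only [hm, hm0, (hI.ok.g0 _).2 ⟨c, i, rfl⟩]
  have hm1 : 1 ≤ m0 ∧ (m0 : ℝ) ≤ Real.exp l := by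
    simp only [hm0]
    split_ifs
    · exact ⟨hn, hl⟩
    · exact ⟨le_rfl, by exact_mod_cast hE⟩
  have hm2 : (1 : ℝ) ≤ m0 := by exact_mod_cast hm1.1
  have hth := pot (G := S.G) (G' := dG S.G m) (g := g) (m := fun a => (m a : ℝ)) (l := l)
    (fun a => Nat.cast_nonneg _) (fun a => by
      simp only [hm]
      split_ifs
      · exact hl
      · exact_mod_cast hE) hl0
    (fun a ha => by simp only [hm, ha, if_false, Nat.cast_one]) (dv_dG h1)
    (fun V => tk_dG h1 h2 hI.ok.ok fun z hz => pz_lat m hz)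
  have hb : 0 < b := (mul_pos_iff_of_pos_left hη).1 (lt_of_lt_of_le (Real.exp_pos _) hxb)
  have hsum2 := sum_hit hsum hI.f0
  haveI : Nonempty ((a : ι) → Fin (m a)) := ⟨fun a => ⟨0, h1 a⟩⟩
  have e1 : S.ms = ∑ r : (a : ι) → Fin (m a), (dS S m m0 fun a => (r a : ℕ)).ms := by
    unfold St.ms
    simp only [wt_dS]
    exact tsum_cls h1 hsum
  have e2 : S.hit f = ∑ r : (a : ι) → Fin (m a), (dS S m m0 fun a => (r a : ℕ)).hit f := by
    unfold St.hit
    simp only [wt_dS, xs_dS S hen]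
    exact tsum_cls h1 hsum2
  have hpos : 0 < S.ms := lt_of_lt_of_le
    (mul_pos (Real.exp_pos _) (hdv univ fun a _ ha => absurd (mem_univ a) ha)) hI.ma
  have hb1 : b ≤ 1 := by
    have := hI.de.trans (hit_le hsum hI.f0).2
    exact le_of_mul_le_mul_right (by linarith) hpos
  obtain ⟨r, hr1, hr2⟩ := pig (fun r : (a : ι) → Fin (m a) => (dS S m m0 fun a => (r a : ℕ)).hit f)
    (fun r => (dS S m m0 fun a => (r a : ℕ)).ms)
    (fun r => tsum_nonneg fun z => mul_nonneg (Real.exp_pos _).le (hI.f0 _).1)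
    (fun r => by
      unfold St.hit St.ms
      simp only [wt_dS, xs_dS S hen]
      exact Summable.tsum_le_tsum
        (fun z => mul_le_of_le_one_right (Real.exp_pos _).le (hI.f0 _).2)
        (hsum2.comp_injective (pz_inj h1 _)) (hsum.comp_injective (pz_inj h1 _)))
    hb hη hxb (by nlinarith) (by rw [← e1]; exact hpos)
    (by rw [← e1, ← e2]; exact hI.de)
  set ρ' : ι → ℤ := fun a => (r a : ℕ) with hρ'
  have hOk : (dS S m m0 ρ').Ok s gr := by
    have e : ∀ a, (dS S m m0 ρ').p a = (Sh m ρ' (S.G.th a) - D m (S.G.th a)) + Sh m ρ' (S.p a) := by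
      intro a
      show Sh m ρ' (S.G.th a + S.p a) - (dG S.G m).th a = _
      rw [th_dG h1 h2 hI.ok.ok, map_add]
      ring
    refine ⟨hI.ok.go, ok_dG h1 h2 hI.ok.ok, hI.ok.wc, hI.ok.pr, fun a => ?_, fun a ha d hd => ?_,
      hI.ok.inj, hI.ok.g0, hI.ok.gc, hI.ok.ce, hI.ok.ee, fun c i d => ?_, fun a => ?_, fun a => ?_,
      mul_pos (by linarith) hI.ok.al0, Nat.mul_pos hI.ok.n1 hm1.1⟩
    · refine (dl_iff S.G _ _).2 ?_
      show DZ S.G.w ((S.G.w a : ℤ) - 1) _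
      rw [e]
      exact (dz2 hI.ok.ok.w1 m ρ' (dz_hom (th_hm hI.ok.ok a))).2.add
        (dz_Sh m ρ' ((dl_iff S.G _ _).1 (hI.ok.pd a)))
    · obtain ⟨e1, e2⟩ := hI.ok.tri a ha d hd
      exact ⟨mul_eq_zero_of_right _ e1, mul_eq_zero_of_right _ e2⟩
    · obtain ⟨e1, e2⟩ := hI.ok.ae c i d
      constructor
      · show (m (S.en c i) : ℝ) * S.G.A (S.en c i) d = if d = S.en c i then m0 * S.al else 0
        rw [e1, hen, mul_ite, mul_zero]
      · show (m (S.en c i) : ℝ)⁻¹ * S.G.B (S.en c i) d = if d = S.en c i then (m0 * S.al)⁻¹ else 0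
        rw [e2, hen, mul_ite, mul_zero, mul_inv]
    · exact mh_iff.2 fun c => hom_Cmul _ (D_hom m (mh_iff.1 (hI.ok.mq a) c))
    · refine ml_iff.2 fun c => ?_
      rw [e]
      have h3 := mh_iff.1 (hmt a) c
      exact ((dz_Sh m ρ' (dz_hom h3)).sub (dz_hom (D_hom m h3))).add
        (dz_Sh m ρ' (ml_iff.1 (hI.ok.mp a) c))
  refine ⟨dS S m m0 ρ', ⟨hOk, hI.f0,
    fun g' => hth θ g' _ subset_rfl (hI.ph g'), fun g' => hth θn g' _ sdiff_subset (hI.pn g'), ?_, ?_,
    ?_, ?_, hr1⟩, ⟨rfl, rfl, rfl, rfl, rfl⟩, fun a c => ?_, fun a c => ?_, fun j hj hq => ?_⟩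
  · rw [← e1, Fintype.card_pi] at hr2
    simp only [Fintype.card_fin] at hr2
    push_cast at hr2
    have hK : 0 < ∏ a, (m a : ℝ) := Finset.prod_pos fun a _ => by have := h1 a; positivity
    have h3 := mul_le_mul_of_nonneg_left hI.ma (Real.exp_pos (-x)).le
    rw [dv_dG h1 univ] at h3
    refine le_of_mul_le_mul_left ?_ hK
    refine le_trans (le_of_eq ?_) (h3.trans hr2)
    rw [neg_add, Real.exp_add]
    show _ * (_ * (dG S.G m).dv univ) = _
    ring
  · show ((S.n * m0 : ℕ) : ℝ) ≤ _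
    rw [Nat.cast_mul, Real.exp_add]
    exact mul_le_mul hI.nr hm1.2 (Nat.cast_nonneg _) (Real.exp_pos _).le
  · show (m0 : ℝ) * S.al * N ≤ _
    rw [mul_assoc, Real.exp_add, mul_comm (Real.exp ρ)]
    exact (mul_le_mul_of_nonneg_left hI.ar (by linarith)).trans
      (mul_le_mul_of_nonneg_right hm1.2 (Real.exp_pos _).le)
  · show ((S.n * m0 : ℕ) : ℝ) ≤ δ * ((m0 : ℝ) * S.al * N)
    have e : δ * ((m0 : ℝ) * S.al * N) = δ * (S.al * N) * m0 := by ring
    rw [e, Nat.cast_mul]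
    exact mul_le_mul_of_nonneg_right hI.na (by linarith)
  · show (m a : ℝ) * S.G.A a c = _
    simp only [hm]
    split_ifs <;> simp
  · show (m a : ℝ)⁻¹ * S.G.B a c = _
    simp only [hm]
    split_ifs <;> simp
  · show IsZ (C (m j : ℝ)⁻¹ * D m (S.G.q j))
    have e3 : m j = 1 := by simp only [hm, hj, lt_irrefl, if_false]
    have e4 : D m (S.G.q j) = sc (n : ℝ) (S.G.q j) := by
      refine Chart.aeval_congr_vars fun i hi => ?_
      have := hI.ok.ok.ql j i hi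
      rw [hj] at this
      simp only [hm, this, if_true]
    rw [e3, Nat.cast_one, inv_one, C_1, one_mul, e4]
    exact int_sc1 hq (Chart.coeff_zero_of_hom (by have := hI.ok.ok.w1 j; omega) (hI.ok.ok.qh j))

end

end Vale.Agent.P057T.Cw
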