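import Vale.Agent.P057T.Cw.Fix
import Vale.Agent.P057T.Rg.Sli

/-! Slicing of a coloured tower along an exact pivot. -/

set_option linter.all false

open MvPolynomial Finset
open scoped Real

namespace Vale.Agent.P057T.Cw

open Vale.Agent.P057T.Eq Vale.Agent.P057T.Eq.Derok Vale.Agent.P057L Vale.Agent.P057T.Cp
open Vale.Agent.P057T.Rg (gp tk lo at1 dv_nonneg)

noncomputable section

namespace SlB

open Rg.SlA

variable {ι : Type} [Fintype ι] [DecidableEq ι] {s J q : ℕ}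

lemma wt_i (col : ι → Finset (Fin J)) (m : ι →₀ ℕ) (i : Fin J) :
    Finsupp.weight (fun a => ic (col a)) m i = Finsupp.weight (fun a => ic (col a) i) m := by
  simp [Finsupp.weight_apply, Finsupp.sum, Finset.sum_apply]

lemma ml_iff {col : ι → Finset (Fin J)} {e : Finset (Fin J)} {F : MvPolynomial ι ℝ} :
    Ml col e F ↔ ∀ i, DZ (fun a => ic (col a) i) (ic e i) F :=
  ⟨fun h i m hm => by
    have := h m hm i
    rw [wt_i] at this
    exact_mod_cast this, fun h m hm i => by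
    have := h i m hm
    rw [wt_i]
    exact_mod_cast this⟩

lemma mh_iff {col : ι → Finset (Fin J)} {e : Finset (Fin J)} {F : MvPolynomial ι ℝ} :
    Mh col e F ↔ ∀ i, IsWeightedHomogeneous (fun a => ic (col a) i) F (ic e i) :=
  ⟨fun h i m hm => by rw [← wt_i, h hm], fun h m hm => funext fun i => by rw [wt_i, h i hm]⟩

variable (j : ι) (I : MvPolynomial ι ℝ)

def sf (t : ℤ) (c : ι) : MvPolynomial ι ℝ := X c + if c = j then C (t : ℝ) + I else 0

def sh (t : ℤ) : MvPolynomial ι ℝ →ₐ[ℝ] MvPolynomial ι ℝ := aeval (sf j I t)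

lemma dz_sh {w : ι → ℕ} (h0 : 0 ≤ (w j : ℤ)) (hI : DZ w (w j) I) (t : ℤ) {k : ℤ}
    {F : MvPolynomial ι ℝ} (hF : DZ w k F) : DZ w k (sh j I t F) := by
  have h1 : ∀ b, DZ w (w b) (sf j I t b) := fun b => (dz_X b).add (by
    split_ifs with h
    · subst h
      exact ((dz_C _).mono h0).add hI
    · exact dz_zero _)
  exact (Cfg.DilA.two' h1 h1 (fun b => by rw [sub_self]; exact dz_zero _) hF).1

lemma dz_df {w : ι → ℕ} (h0 : 1 ≤ w j) (hI : DZ w ((w j : ℤ) - 1) I) (t : ℤ) {k : ℤ}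
    {F : MvPolynomial ι ℝ} (hF : DZ w k F) : DZ w (k - 1) (sh j I t F - F) := by
  have h2 : ∀ b, DZ w ((w b : ℤ) - 1) (if b = j then C (t : ℝ) + I else 0) := fun b => by
    split_ifs with h
    · subst h
      exact ((dz_C _).mono (by omega)).add hI
    · exact dz_zero _
  have := (Cfg.DilA.two' (f := sf j I t) (f' := X)
    (fun b => (dz_X b).add ((h2 b).mono (by omega))) dz_X
    (fun b => by rw [sf, add_sub_cancel_left]; exact h2 b) hF).2
  rwa [aeval_X_left_apply] at this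

variable (iv : ({a // a ≠ j} → ℤ) → ℤ)

def ex (t : ℤ) (z : {a // a ≠ j} → ℤ) : ι → ℤ := fun c => ext j z c + if c = j then t + iv z else 0

lemma ex_j (t : ℤ) (z : {a // a ≠ j} → ℤ) : ex j iv t z j = t + iv z := by simp [ex, ext_j]

lemma ex_v (t : ℤ) (z : {a // a ≠ j} → ℤ) (a : {a // a ≠ j}) : ex j iv t z a.1 = z a := by
  simp [ex, ext_v, a.2]

def eqv : ℤ × ({a // a ≠ j} → ℤ) ≃ (ι → ℤ) where
  toFun p := ex j iv p.1 p.2
  invFun x := (x j - iv fun a => x a, fun a => x a)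
  left_inv p := by
    have e : (fun a : {a // a ≠ j} => ex j iv p.1 p.2 a) = p.2 := funext fun a => ex_v j iv _ _ a
    refine Prod.ext ?_ e
    show ex j iv p.1 p.2 j - iv (fun a : {a // a ≠ j} => ex j iv p.1 p.2 a) = _
    rw [e, ex_j, add_sub_cancel_right]
  right_inv x := by
    funext a
    by_cases h : a = j
    · subst h
      exact (ex_j _ _ _ _).trans (sub_add_cancel _ _)
    · exact ex_v j iv _ _ ⟨a, h⟩

lemma hs_ex {f : (ι → ℤ) → ℝ} (hf : Summable f) :
    HasSum (fun y : ℤ => ∑' z, f (ex j iv y z)) (∑' z, f z) := by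
  have h := (eqv j iv).summable_iff.2 hf
  have h1 := h.prod.hasSum
  rw [← h.tsum_prod] at h1
  exact ((eqv j iv).tsum_eq f) ▸ h1

variable {j I iv}

lemma eval_sl (hv : ∀ z, eval (cz (ext j z)) I = iv z) (t : ℤ) (z : {a // a ≠ j} → ℤ)
    (F : MvPolynomial ι ℝ) : eval (cz z) (Kl j (sh j I t F)) = eval (cz (ex j iv t z)) F := by
  rw [eval_Kl]
  induction F using MvPolynomial.induction_on with
  | C a => simp [sh]
  | add p q hp hq => rw [map_add, map_add, map_add, hp, hq]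
  | mul_X p b hp =>
    rw [map_mul, map_mul, map_mul, hp]
    congr 1
    rw [sh, aeval_X, sf, map_add, eval_X, eval_X]
    unfold ex
    split_ifs with h
    · rw [map_add, eval_C, hv]
      simp [cz, h]
    · simp [cz, h]

def sS (S : St ι J q) (he : ∀ c l, S.en c l ≠ j) (I : MvPolynomial ι ℝ) (t : ℤ) :
    St {a // a ≠ j} J q where
  G := sG j S.G
  p a := Kl j (sh j I t (S.ch a)) - (sG j S.G).th a
  col a := S.col a
  en c l := ⟨S.en c l, he c l⟩
  al := S.al
  r := S.r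
  n := S.n

variable {S : St ι J q} {he : ∀ c l, S.en c l ≠ j} {gr : Finset (Fin J) → ℕ}

lemma ch_sS (t : ℤ) (a : {a // a ≠ j}) : (sS S he I t).ch a = Kl j (sh j I t (S.ch a)) :=
  add_sub_cancel _ _

lemma xs_sS (t : ℤ) (z : {a // a ≠ j} → ℤ) : S.xs (ex j iv t z) = (sS S he I t).xs z := by
  funext c l
  exact congrArg (fun u => S.r c l + (S.n : ℤ) * u) (ex_v j iv t z ⟨S.en c l, he c l⟩)

lemma wt_sS (hv : ∀ z, eval (cz (ext j z)) I = iv z) (t : ℤ) (z : {a // a ≠ j} → ℤ) :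
    S.wt (ex j iv t z) =
      Real.exp (-π * eval (cz (ex j iv t z)) (S.ch j) ^ 2) * (sS S he I t).wt z := by
  unfold St.wt St.sq
  rw [← Real.exp_add, ← mul_add, Fintype.sum_eq_add_sum_subtype_ne _ j]
  simp only [ch_sS, eval_sl hv]

lemma ok_sS (hS : S.Ok s gr) (hB : ∀ c, c ≠ j → S.G.B j c = 0) (hq : S.G.q j = 0)
    (hth : ∀ a, Mh S.col (S.col a) (S.G.th a)) (h1 : DZ S.G.w ((S.G.w j : ℤ) - 1) I)
    (h2 : Ml S.col (S.col j) I) (t : ℤ) : (sS S he I t).Ok s gr := by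
  have e : ∀ a, (sS S he I t).p a =
      Kl j ((sh j I t (S.G.th a) - S.G.th a) + sh j I t (S.p a)) := fun a => by
    show Kl j (sh j I t (S.G.th a + S.p a)) - (sG j S.G).th a = _
    rw [th_sG hq]
    simp only [map_add, map_sub]
    ring
  refine ⟨hS.go, ok_sG hS.ok hB, fun a => hS.wc a, fun a => hS.pr a, fun a => ?_,
    fun a ha b hb => hS.tri a (mem_filter.1 ha).2 b fun c => hb (mem_filter.2 ⟨mem_univ _, c⟩),
    fun c l c' l' h => hS.inj c l c' l' (congrArg Subtype.val h), fun a => ?_, fun a => hS.gc a,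
    hS.ce, fun c l => mem_filter.2 ⟨mem_univ _, hS.ee c l⟩, fun c l b => ?_,
    fun a => mh_iff.2 fun i => ?_, fun a => ml_iff.2 fun i => ?_,
    hS.al0, hS.n1⟩
  · refine (dl_iff _ _ _).2 ?_
    rw [e]
    exact Kl_dz j ((dz_df j I (hS.ok.w1 j) h1 t (dz_hom (th_hm hS.ok a))).add
      (dz_sh j I (by omega) (h1.mono (by omega)) t ((dl_iff S.G _ _).1 (hS.pd a))))
  · simp only [Subtype.ext_iff]
    exact hS.g0 a
  · simp only [Subtype.ext_iff]
    exact hS.ae c l b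
  · exact Kl_hom j (w := fun a => ic (S.col a) i) (mh_iff.1 (hS.mq a) i)
  · rw [e]
    have h3 := dz_hom (mh_iff.1 (hth a) i)
    have h4 := fun {k : ℤ} {F : MvPolynomial ι ℝ} (h : DZ (fun a => ic (S.col a) i) k F) =>
      dz_sh j I (by omega) (ml_iff.1 h2 i) t h
    exact Kl_dz j (w := fun a => ic (S.col a) i) (((h4 h3).sub h3).add (h4 (ml_iff.1 (hS.mp a) i)))

lemma pot_sS (hj : j ∈ S.G.ex) (t : ℤ) : (sS S he I t).pot + 2 * (J + 1) ^ S.G.w j = S.pot := by
  unfold St.pot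
  rw [Fintype.sum_eq_add_sum_subtype_ne _ j, if_pos hj, add_zero, add_comm]
  congr 1
  refine Finset.sum_congr rfl fun a _ => ?_
  simp [sS, sG]

end SlB

open SlB in
theorem sli (hB : BR) (hV : Rg.DVP) : SLI1 := by
  intro s J q gr N δ f ι _ _ S θ θn γ ρ b β o l η x y0 j I hI hg hp ho hl hη hη2 hxb hZ hpj
  obtain ⟨-, hsum, -, -, hdv, -, -, hth, -⟩ := hB s J q gr ι S hI.ok
  obtain ⟨hj, hβ, hjj, hpv⟩ := hp
  have he : ∀ c l, S.en c l ≠ j := fun c l h => hg ((hI.ok.g0 j).2 ⟨c, l, h.symm⟩)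
  have hje : j ∈ S.G.ex := (mem_inter.1 hj).2
  have hq := hI.ok.ok.qe j hje
  have hA : ∀ c, c ≠ j → S.G.A j c = 0 := by
    intro c hc
    by_cases h1 : c ∈ S.G.ex
    · by_contra h2
      exact h2 (hpv c (mem_inter.2 ⟨mem_filter.2 ⟨mem_univ _,
        (hI.ok.ok.blk j c (Or.inl h2)).1.symm⟩, h1⟩) hc)
    · exact (hI.ok.tri j hje c h1).1
  have hrow : ∀ c, β⁻¹ * S.G.B j c = if j = c then 1 else 0 := by
    intro c
    have := congrFun (congrFun hI.ok.ok.AB j) c
    rwa [Matrix.mul_apply, Finset.sum_eq_single j (fun d _ hd => by rw [hA d hd, zero_mul])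
      (fun h => absurd (mem_univ _) h), hjj, Matrix.one_apply] at this
  have hB0 : ∀ c, c ≠ j → S.G.B j c = 0 := fun c hc =>
    (mul_eq_zero.1 ((hrow c).trans (if_neg hc.symm))).resolve_left (inv_ne_zero hβ.ne')
  have hBj : |S.G.B j j| = β := by
    have := (hrow j).trans (if_pos rfl)
    rw [inv_mul_eq_one₀ hβ.ne'] at this
    rw [← this, abs_of_pos hβ]
  have hd : ∀ (V : Finset ι) (V' : Finset {a // a ≠ j}), (∀ a, a ∈ V' ↔ a.1 ∈ V) → j ∈ V →
      S.G.dv V = β * (Rg.SlA.sG j S.G).dv V' := by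
    intro V V' h h'
    rw [hV ι S.G V j h' (Or.inl fun c _ hc => hB0 c hc), hBj,
      Rg.SlA.dv_sub j S.G (V.erase j) V' (fun a => by rw [h, mem_erase, and_iff_right a.2])
        (notMem_erase _ _)]
  have hgp : ∀ g (a : {a // a ≠ j}), a ∈ gp (Rg.SlA.sG j S.G) g ↔ a.1 ∈ gp S.G g := fun g a => by
    simp only [gp, mem_filter, mem_univ, true_and]
    rfl
  have hd0 := hd _ _ (hgp _) (mem_inter.1 hj).1
  have eI : I = C β * (C y0 - S.p j) := by
    rw [hpj, sub_sub_cancel, ← mul_assoc, ← C_mul, mul_inv_cancel₀ hβ.ne', C_1, one_mul]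
  have hw := hI.ok.ok.w1 j
  have hI1 : DZ S.G.w ((S.G.w j : ℤ) - 1) I := by
    rw [eI]
    exact (((dz_C _).mono (by omega)).sub ((dl_iff S.G _ _).1 (hI.ok.pd j))).cmul _
  have hI2 : Ml S.col (S.col j) I := ml_iff.2 fun i => by
    rw [eI]
    exact (((dz_C _).mono (by omega)).sub (ml_iff.1 (hI.ok.mp j) i)).cmul _
  choose iv hv using fun z => L1.IsInt.eval hZ (Rg.SlA.ext j z)
  have hv' : ∀ z, eval (cz (Rg.SlA.ext j z)) I = iv z := hv
  have hch : ∀ y z, eval (cz (ex j iv y z)) (S.ch j) = β⁻¹ * y + y0 := by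
    intro y z
    have h1 : eval (cz (ex j iv y z)) I = eval (cz (Rg.SlA.ext j z)) I := by
      refine hom_congr_vars (by ext r; simp) (fun i hi _ => ?_) rfl
      have hij : i ≠ j := by
        rintro rfl
        obtain ⟨μ, hμ, hi'⟩ := (mem_vars_iff_mem_support i).1 hi
        have h1 := Finsupp.le_weight_of_ne_zero' S.G.w (Finsupp.mem_support_iff.1 hi')
        have h2 := hI1 μ hμ
        omega
      simp [cz, ex, hij]
    unfold St.ch GT.th
    rw [map_add, hpj, Finset.sum_eq_single j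
      (fun d _ hd => by rw [hA d hd, C_0, zero_mul]) (fun h => absurd (mem_univ _) h), hq, hjj,
      sub_zero, map_mul, eval_C, eval_X, map_sub, map_mul, eval_C, eval_C, h1, hv']
    show β⁻¹ * (ex j iv y z j : ℝ) + _ = _
    rw [ex_j]
    push_cast
    ring
  have hok := ok_sS (he := he) hI.ok hB0 hq hth hI1 hI2
  have hb : 0 < b := (mul_pos_iff_of_pos_left hη).1 (lt_of_lt_of_le (Real.exp_pos _) hxb)
  have hi : ∀ (κ : Type) [Fintype κ] [DecidableEq κ] (T : St κ J q), Summable T.wt →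
      (Summable fun z => T.wt z * f (T.xs z)) ∧ T.hit f ≤ T.ms := fun κ _ _ T h => by
    have h1 : ∀ z, T.wt z * f (T.xs z) ≤ T.wt z :=
      fun z => mul_le_of_le_one_right (Real.exp_pos _).le (hI.f0 _).2
    have h2 := Summable.of_nonneg_of_le (fun z => mul_nonneg (Real.exp_pos _).le (hI.f0 _).1) h1 h
    exact ⟨h2, Summable.tsum_le_tsum h1 h2 h⟩
  have hpos : 0 < S.ms := lt_of_lt_of_le
    (mul_pos (Real.exp_pos _) (hdv univ fun a _ ha => absurd (mem_univ a) ha)) hI.ma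
  have hb1 : b ≤ 1 := le_of_mul_le_mul_right
    (hI.de.trans ((hi ι S hsum).2.trans (one_mul _).ge)) hpos
  have e1 := hs_ex j iv hsum
  have e2 := hs_ex j iv (hi ι S hsum).1
  simp only [wt_sS (he := he) hv', hch, xs_sS (he := he) (I := I), mul_assoc, tsum_mul_left] at e1 e2
  obtain ⟨y, hr1, hr2⟩ := Rg.SlA.pig (fun y : ℤ => Real.exp (-π * (β⁻¹ * y + y0) ^ 2))
    (fun y => (sS S he I y).hit f) (fun y => (sS S he I y).ms) (fun _ => Real.exp_pos _)
    (Rg.SlA.th1 hβ _) (fun y => tsum_nonneg fun z => mul_nonneg (Real.exp_pos _).le (hI.f0 _).1)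
    (fun y => (hi _ _ (hB s J q gr _ _ (hok y)).2.1).2) hb hη hxb
    (hxb.trans (by nlinarith)) hpos e1 e2 hI.de
  refine ⟨sS S he I y, ⟨hok y, hI.f0, fun g => ?_, fun g => ?_, ?_, hI.nr, hI.ar, hI.na, hr1⟩,
    pot_sS hje y⟩
  · refine (Rg.SlA.tk_sG hI.ok.ok hA fun z hz => Rg.SlA.ext_lat j (fun a => (hgp g a).1) hz).trans
      ((hI.ph g).trans ?_)
    unfold at1
    split_ifs with h
    · subst h
      rw [hd0, Real.exp_add, mul_assoc]
      exact mul_le_mul_of_nonneg_left (mul_le_mul_of_nonneg_right ho (dv_nonneg _ _))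
        (Real.exp_pos _).le
    · rw [add_zero, ← Rg.SlA.dv_sub j S.G _ _ (hgp g) fun c => h (mem_filter.1 c).2.symm]
      exact le_rfl
  · have h : ∀ a : {a // a ≠ j}, a ∈ gp (Rg.SlA.sG j S.G) g \ (Rg.SlA.sG j S.G).ex ↔
        a.1 ∈ gp S.G g \ S.G.ex := by
      intro a
      rw [mem_sdiff, mem_sdiff, hgp]
      simp [Rg.SlA.sG]
    refine (Rg.SlA.tk_sG hI.ok.ok hA fun z hz => Rg.SlA.ext_lat j (fun a => (h a).1) hz).trans
      ((hI.pn g).trans ?_)
    rw [← Rg.SlA.dv_sub j S.G _ _ h fun c => (mem_sdiff.1 c).2 hje]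
    exact le_rfl
  · have h3 := mul_le_mul_of_nonneg_left hI.ma (Real.exp_pos (-x)).le
    rw [hd univ univ (fun a => by simp) (mem_univ _)] at h3
    have h4 : Real.exp (-l) * (1 + β) ≤ β := by
      rw [Real.exp_neg, inv_mul_le_iff₀ (Real.exp_pos l)]
      have := mul_le_mul_of_nonneg_right hl hβ.le
      rwa [add_mul, inv_mul_cancel₀ hβ.ne', one_mul, add_comm] at this
    refine le_of_mul_le_mul_left (le_trans ?_ (h3.trans hr2)) (by linarith : 0 < 1 + β)
    have h5 := mul_le_mul_of_nonneg_left h4 (mul_nonneg (mul_pos (Real.exp_pos (-x))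
      (Real.exp_pos (-γ))).le (dv_nonneg (Rg.SlA.sG j S.G) univ))
    rw [neg_add, neg_add, Real.exp_add, Real.exp_add]
    show _ * (_ * (Rg.SlA.sG j S.G).dv univ) ≤ _
    linarith

end

end Vale.Agent.P057T.Cw
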