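import Mathlib.Analysis.MeanInequalities
import Mathlib.Analysis.MeanInequalitiesPow
import Mathlib.Algebra.Order.BigOperators.Expect
import Mathlib.Tactic

/-! Weighted Hoelder and Jensen steps for one class of a grid. -/

set_option linter.all false

open Finset
open scoped BigOperators

namespace Vale.Agent.P057T.HolH17

variable {Y : Type*}

/-- weighted power mean inequality -/
theorem jen (s : Finset Y) (ω Γ : Y → ℝ) (hω : ∀ y ∈ s, 0 ≤ ω y) (hΓ : ∀ y ∈ s, 0 ≤ Γ y) (t : ℕ) :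
    (∑ y ∈ s, ω y * Γ y) ^ (t + 1) ≤ (∑ y ∈ s, ω y) ^ t * ∑ y ∈ s, ω y * Γ y ^ (t + 1) := by
  have h0 : 0 ≤ ∑ y ∈ s, ω y := sum_nonneg hω
  rcases h0.eq_or_lt with h | h
  · have hz : ∀ y ∈ s, ω y = 0 := (sum_eq_zero_iff_of_nonneg hω).1 h.symm
    rw [sum_eq_zero fun y hy => by rw [hz y hy, zero_mul],
      sum_eq_zero (f := fun y => ω y * Γ y ^ (t + 1)) fun y hy => by rw [hz y hy, zero_mul]]
    simp
  set M := ∑ y ∈ s, ω y with hM
  have := Real.pow_arith_mean_le_arith_mean_pow s (fun y => ω y / M) Γ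
    (fun y hy => div_nonneg (hω y hy) h.le) (by rw [← sum_div, ← hM, div_self h.ne']) hΓ (t + 1)
  simp only [div_mul_eq_mul_div, ← sum_div] at this
  rw [div_pow, div_le_div_iff₀ (pow_pos h _) h] at this
  refine le_of_mul_le_mul_right ?_ h
  calc _ ≤ _ := this
    _ = _ := by ring

/-- the product is at most the mean of the powers -/
theorem prod_le_mean {ι : Type*} [Fintype ι] [Nonempty ι] (z : ι → ℝ) (hz : ∀ b, 0 ≤ z b) :
    (Fintype.card ι : ℝ) * ∏ b, z b ≤ ∑ b, z b ^ Fintype.card ι := by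
  have hp : (0 : ℝ) < Fintype.card ι := by exact_mod_cast Fintype.card_pos
  have := Real.geom_mean_le_arith_mean_weighted univ (fun _ : ι => (Fintype.card ι : ℝ)⁻¹)
    (fun b => z b ^ Fintype.card ι) (fun _ _ => by positivity)
    (by simp [hp.ne']) (fun b _ => pow_nonneg (hz b) _)
  have e : ∀ b, (z b ^ Fintype.card ι) ^ (Fintype.card ι : ℝ)⁻¹ = z b := fun b =>
    Real.pow_rpow_inv_natCast (hz b) Fintype.card_ne_zero
  simp only [e, ← mul_sum] at this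
  calc _ ≤ (Fintype.card ι : ℝ) * ((Fintype.card ι : ℝ)⁻¹ * ∑ b, z b ^ Fintype.card ι) :=
        mul_le_mul_of_nonneg_left this hp.le
    _ = _ := by rw [← mul_assoc, mul_inv_cancel₀ hp.ne', one_mul]

/-- one copy carries the product -/
theorem pick {ι : Type*} [Fintype ι] [Nonempty ι] (s : Finset Y) (ω : Y → ℝ) (Γ : ι → Y → ℝ)
    (hω : ∀ y ∈ s, 0 ≤ ω y) (hΓ : ∀ b, ∀ y ∈ s, 0 ≤ Γ b y) :
    ∃ b, ∑ y ∈ s, ω y * ∏ b, Γ b y ≤ ∑ y ∈ s, ω y * Γ b y ^ Fintype.card ι := by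
  have hp : (0 : ℝ) < Fintype.card ι := by exact_mod_cast Fintype.card_pos
  have h1 : ∑ _b : ι, ∑ y ∈ s, ω y * ∏ b, Γ b y ≤
      ∑ b : ι, ∑ y ∈ s, ω y * Γ b y ^ Fintype.card ι := by
    rw [sum_comm, sum_comm (s := univ) (t := s)]
    refine sum_le_sum fun y hy => ?_
    rw [← mul_sum, ← mul_sum, sum_const, card_univ, nsmul_eq_mul]
    exact mul_le_mul_of_nonneg_left (prod_le_mean _ fun b => hΓ b y hy) (hω y hy)
  obtain ⟨b, -, hb⟩ := exists_le_of_sum_le univ_nonempty h1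
  exact ⟨b, hb⟩

/-- the step for one class: choose a copy and take more copies of it -/
theorem hol {ι : Type*} [Fintype ι] [Nonempty ι] (s : Finset Y) (ω : Y → ℝ) (Γ : ι → Y → ℝ)
    (hω : ∀ y ∈ s, 0 ≤ ω y) (hΓ : ∀ b, ∀ y ∈ s, 0 ≤ Γ b y) (t : ℕ) :
    ∃ b, (∑ y ∈ s, ω y * ∏ b, Γ b y) ^ (t + 1) ≤
      (∑ y ∈ s, ω y) ^ t * ∑ y ∈ s, ω y * Γ b y ^ (Fintype.card ι * (t + 1)) := by
  obtain ⟨b, hb⟩ := pick s ω Γ hω hΓ
  refine ⟨b, (pow_le_pow_left₀ (sum_nonneg fun y hy =>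
    mul_nonneg (hω y hy) (prod_nonneg fun b _ => hΓ b y hy)) hb _).trans ?_⟩
  have := jen s ω (fun y => Γ b y ^ Fintype.card ι) hω (fun y hy => pow_nonneg (hΓ b y hy) _) t
  simpa only [← pow_mul] using this

/-- the same with averages -/
theorem holE {ι : Type*} [Fintype ι] [Nonempty ι] (s : Finset Y) (ω : Y → ℝ) (Γ : ι → Y → ℝ)
    (hω : ∀ y ∈ s, 0 ≤ ω y) (hΓ : ∀ b, ∀ y ∈ s, 0 ≤ Γ b y) (t : ℕ) :
    ∃ b, (𝔼 y ∈ s, ω y * ∏ b, Γ b y) ^ (t + 1) ≤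
      (𝔼 y ∈ s, ω y) ^ t * 𝔼 y ∈ s, ω y * Γ b y ^ (Fintype.card ι * (t + 1)) := by
  obtain ⟨b, hb⟩ := hol s ω Γ hω hΓ t
  refine ⟨b, ?_⟩
  simp only [expect_eq_sum_div_card, div_pow]
  rw [div_mul_div_comm, ← pow_succ]
  exact div_le_div_of_nonneg_right hb (by positivity)

end Vale.Agent.P057T.HolH17
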