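import Vale.Agent.P057T.Cp.Fub
import Vale.Agent.P057T.Cp.Cpa
import Vale.Agent.P057T.Eq.P1m
import Vale.Agent.P057T.Cw.HolH17

/-! Tools for the chain of Jensen steps on a tower of copies. -/

set_option linter.all false

open MvPolynomial Finset Matrix
open scoped Real
open Vale.Agent.P267.H775 Vale.Agent.P057T.Poi

namespace Vale.Agent.P057T.H79

open Vale.Agent.P057T.Eq Vale.Agent.P057T.Eq.Br Vale.Agent.P057T.Cp

noncomputable section

theorem hs_fin {α : Type} (F : α → ℝ) (h0 : ∀ a, 0 ≤ F a) (hF : Summable F) (n : ℕ) :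
    HasSum (fun x : Fin n → α => ∏ k, F (x k)) ((∑' a, F a) ^ n) := by
  induction n with
  | zero => simpa using hasSum_fintype (fun x : Fin 0 → α => ∏ k, F (x k))
  | succ n ih =>
    have h1 : Summable fun p : α × (Fin n → α) => F p.1 * ∏ k, F (p.2 k) :=
      Summable.mul_of_nonneg (f := F) (g := fun x : Fin n → α => ∏ k, F (x k)) hF ih.summable
        (fun a => h0 a) (fun x => prod_nonneg fun k _ => h0 _)
    have h2 := hF.hasSum.mul ih h1
    rw [pow_succ']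
    refine ((Fin.consEquiv fun _ : Fin (n + 1) => α).hasSum_iff).1 ?_
    refine h2.congr_fun ?_
    intro p
    simp [Fin.consEquiv, Fin.prod_univ_succ]

theorem hs_pi {α K : Type} [Fintype K] (F : α → ℝ) (h0 : ∀ a, 0 ≤ F a) (hF : Summable F) :
    HasSum (fun x : K → α => ∏ k, F (x k)) ((∑' a, F a) ^ Fintype.card K) := by
  have e := Fintype.equivFin K
  refine ((Equiv.arrowCongr e.symm (Equiv.refl α)).hasSum_iff).1 ?_
  refine (hs_fin F h0 hF (Fintype.card K)).congr_fun ?_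
  intro x
  simp only [Function.comp, Equiv.arrowCongr_apply, Equiv.symm_symm, Equiv.coe_refl, id]
  exact (e.prod_comp fun k => F (x k))

/-- Jensen for series -/
theorem tjen {α : Type} (ω F : α → ℝ) (C : ℝ) (hω : ∀ a, 0 ≤ ω a) (hs : Summable ω)
    (h0 : ∀ a, 0 ≤ F a) (hC : ∀ a, F a ≤ C) (t : ℕ) :
    (∑' a, ω a * F a) ^ (t + 1) ≤ (∑' a, ω a) ^ t * ∑' a, ω a * F a ^ (t + 1) := by
  have s1 : Summable fun a => ω a * F a :=
    Summable.of_nonneg_of_le (fun a => mul_nonneg (hω a) (h0 a))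
      (fun a => mul_le_mul_of_nonneg_left (hC a) (hω a)) (hs.mul_right C)
  have s2 : Summable fun a => ω a * F a ^ (t + 1) :=
    Summable.of_nonneg_of_le (fun a => mul_nonneg (hω a) (pow_nonneg (h0 a) _))
      (fun a => mul_le_mul_of_nonneg_left (pow_le_pow_left₀ (h0 a) (hC a) _) (hω a))
      (hs.mul_right (C ^ (t + 1)))
  refine le_of_tendsto' (s1.hasSum.pow (t + 1)) fun S => ?_
  refine (HolH17.jen S ω F (fun a _ => hω a) (fun a _ => h0 a) t).trans ?_
  exact mul_le_mul (pow_le_pow_left₀ (sum_nonneg fun a _ => hω a)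
      (hs.sum_le_tsum S fun a _ => hω a) t)
    (s2.sum_le_tsum S fun a _ => mul_nonneg (hω a) (pow_nonneg (h0 a) _))
    (sum_nonneg fun a _ => mul_nonneg (hω a) (pow_nonneg (h0 a) _))
    (pow_nonneg (tsum_nonneg hω) _)

variable {ι : Type} [Fintype ι] [DecidableEq ι] {G : GT ι} {s : ℕ}

/-- the theta sum of a block, with an exponent that is linear in the dimension -/
theorem th_lin (hG : G.Ok s) {WW : ℕ → ℝ} (hW : G.Wd WW) {P : ℝ} (hP : 0 < P) {σ : ι → ℝ}
    (hσ : ∀ a, P⁻¹ ≤ σ a ∧ σ a ≤ P) {S : Finset ι} (hB : G.Bk S) :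
    th (mM G σ S) 0 ≤ (2 * (1 + S.card * (P * Real.exp (WW 0)))) ^ S.card * G.mn σ S := by
  have hσ0 : ∀ a, 0 < σ a := fun a => (inv_pos.2 hP).trans_le (hσ a).1
  have hd := mM_det hG hB hσ0
  obtain ⟨Um, Vm, hUV, hb, hA⟩ := hW.bd
  have h1 := uni_sub hUV (hb S hB)
  set U := Um.submatrix (Subtype.val : S → ι) (Subtype.val : S → ι) with hU
  set V := Vm.submatrix (Subtype.val : S → ι) (Subtype.val : S → ι) with hV
  have h2 : V * U = 1 := mul_eq_one_comm.1 h1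
  have hdU : (mR U).det ≠ 0 := by
    rw [← abs_pos, abs_det_mR h1]
    exact one_pos
  have hd2 : (mM G σ S * mR U).det ≠ 0 := by
    rw [det_mul]
    exact mul_ne_zero hd hdU
  have h4 := th_uni (mM G σ S) h1 h2 0
  rw [mulVec_zero] at h4
  have h5 := p1 hd2 (b := P * Real.exp (WW 0)) (by positivity)
    (fun a b => by
      have e : (mM G σ S * mR U) a b = σ a * ∑ c, G.A a c * (Um c b : ℝ) := by
        rw [sum_bk (V := S) _ fun c hc => by rw [A_zero hB a.2 hc, zero_mul], mul_apply,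
          Finset.mul_sum]
        refine Finset.sum_congr rfl fun c _ => ?_
        simp only [mM, of_apply, mR, map_apply, hU, submatrix_apply]
        ring
      rw [e, abs_mul, abs_of_pos (hσ0 a)]
      have h6 := (hA a b).trans (Real.exp_le_exp.2 (hW.anti (Nat.zero_le _)))
      exact mul_le_mul (hσ a).2 h6 (abs_nonneg _) hP.le) 0
  rw [h4, det_mul, abs_mul, abs_det_mR h1, mul_one, Fintype.card_coe] at h5
  rw [mn_eq hG hB hσ0, ← div_eq_mul_inv, le_div_iff₀ (abs_pos.2 hd), mul_comm]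
  exact h5

theorem sm_bd (hG : G.Ok s) {T : AT ι} {P : ℝ} (hP : 0 < P) (hT : G.AOk T P)
    (h : (ι → ℤ) → ℝ) (B : ℝ) (hh : ∀ z, |h z| ≤ B) :
    Summable fun z : Lat T.U => G.nu T z.1 * h z.1 :=
  Summable.of_norm_bounded (((summ_le hG hP hT).1).mul_right B) fun z => by
    rw [norm_mul, Real.norm_of_nonneg (nu_pos T z.1).le]
    exact mul_le_mul_of_nonneg_left (hh _) (nu_pos T z.1).le

/-- the fibre mass is at most the theta sum -/
theorem fs_le (hG : G.Ok s) {T : AT ι} {P : ℝ} (hP : 0 < P) (hT : G.AOk T P) {W : Finset ι}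
    (hW : G.Bk W) (y : ι → ℤ) :
    Summable (fun x : Lat (T.U \ W) => G.nu (T.rs (T.U \ W)) (y + x.1)) ∧
    ∑' x : Lat (T.U \ W), G.nu (T.rs (T.U \ W)) (y + x.1) ≤ th (mM G T.sg (T.U \ W)) 0 := by
  have hB : G.Bk (T.U \ W) := bk_sdiff hT.bk hW
  have hsub : T.U \ W ⊆ T.U := sdiff_subset
  have σ0 := sg_pos hP hT
  have he : ∀ (x : ↥(T.U \ W) → ℤ),
      G.nu (T.rs (T.U \ W)) (y + (latE (T.U \ W) x).1) = gq (mM G T.sg (T.U \ W))
      (toR x - fun b : ↥(T.U \ W) => eval (cz (y + ex0 _ x)) (G.cq T b) - y b) := fun x => by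
    rw [← gq_fib, nu_eq (T := T.rs (T.U \ W)) hG hB, latE_coe]
    rfl
  refine ⟨(latE (T.U \ W)).summable_iff.1
    ((fib_sum hG hT hsub hB σ0 y).1.congr fun x => (he x).symm), ?_⟩
  rw [← (latE (T.U \ W)).tsum_eq]
  simp only [he]
  exact (fib_sum hG hT hsub hB σ0 y).2

theorem fs_bd (hG : G.Ok s) {T : AT ι} {P : ℝ} (hP : 0 < P) (hT : G.AOk T P) {W : Finset ι}
    (hW : G.Bk W) (h : (ι → ℤ) → ℝ) (B : ℝ) (hh : ∀ z, 0 ≤ h z ∧ h z ≤ B) (y : ι → ℤ) :
    Summable (fun x : Lat (T.U \ W) => G.nu (T.rs (T.U \ W)) (y + x.1) * h (y + x.1)) ∧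
    0 ≤ Fs G T W h y ∧ Fs G T W h y ≤ th (mM G T.sg (T.U \ W)) 0 * B := by
  obtain ⟨h1, h2⟩ := fs_le hG hP hT hW y
  have h3 : ∀ x : Lat (T.U \ W), 0 ≤ G.nu (T.rs (T.U \ W)) (y + x.1) * h (y + x.1) :=
    fun x => mul_nonneg (nu_pos _ _).le (hh _).1
  have h4 : ∀ x : Lat (T.U \ W), G.nu (T.rs (T.U \ W)) (y + x.1) * h (y + x.1) ≤
      G.nu (T.rs (T.U \ W)) (y + x.1) * B :=
    fun x => mul_le_mul_of_nonneg_left (hh _).2 (nu_pos _ _).le
  have h5 := Summable.of_nonneg_of_le h3 h4 (h1.mul_right B)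
  refine ⟨h5, tsum_nonneg h3, (h5.tsum_le_tsum h4 (h1.mul_right B)).trans ?_⟩
  rw [tsum_mul_right]
  exact mul_le_mul_of_nonneg_right h2 ((hh 0).1.trans (hh 0).2)

end

end Vale.Agent.P057T.H79
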