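import Vale.Agent.P057T.Cw.Defs2
import Vale.Agent.P057T.Cw.Ch0H79
import Vale.Agent.P057T.Eq.Mono

/-! One step of the chain of copies: Fubini, Jensen and the mass of the closed part. -/

set_option linter.all false

open MvPolynomial Finset
open scoped Real BigOperators

namespace Vale.Agent.P057T.Cw

open Vale.Agent.P057T.Eq Vale.Agent.P057L Vale.Agent.P057T.Cp

noncomputable section

theorem st_ph {ι : Type} [Fintype ι] [DecidableEq ι] {J q : ℕ} (K : Ct ι J q) (tt : Fin J → ℕ)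
    (F : Pt J q → ℝ) (B : ℝ) (hF : ∀ x, 0 ≤ F x ∧ F x ≤ B) (z : ι → ℤ) :
    0 ≤ K.Ph tt F z ∧ K.Ph tt F z ≤ B ^ (Fintype.piFinset fun c => range (tt c)).card := by
  refine ⟨prod_nonneg fun τ _ => (hF _).1, ?_⟩
  rw [← prod_const]
  exact prod_le_prod (fun τ _ => (hF _).1) fun τ _ => (hF _).2

theorem st_num {ρ d M m S E E' : ℝ} {n : ℕ} (hρ : 0 ≤ ρ) (hd : 0 ≤ d) (hM : 0 < M) (hm : 0 < m)
    (hS0 : 0 ≤ S) (hS : S ≤ (1 + d) * M) (hE : ρ * (M * m) ≤ E) (hE' : 0 ≤ E')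
    (hJ : E ^ (n + 1) ≤ S ^ n * E') :
    (ρ * Real.exp (-d)) ^ (n + 1) * (M * m ^ (n + 1)) ≤ E' := by
  have h1 : S ≤ Real.exp d * M :=
    hS.trans (mul_le_mul_of_nonneg_right (by linarith [Real.add_one_le_exp d]) hM.le)
  have h2 : (ρ * (M * m)) ^ (n + 1) ≤ (Real.exp d * M) ^ n * E' :=
    (pow_le_pow_left₀ (by positivity) hE _).trans
      (hJ.trans (mul_le_mul_of_nonneg_right (pow_le_pow_left₀ hS0 h1 _) hE'))
  have h3 : 0 < (Real.exp d * M) ^ n := by positivity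
  have h4 : Real.exp (-d) ≤ 1 := Real.exp_le_one_iff.2 (by linarith)
  have h5 : Real.exp (-d) * Real.exp d = 1 := by rw [← Real.exp_add]; simp
  refine le_of_mul_le_mul_left (le_trans ?_ h2) h3
  have h6 : (Real.exp d * M) ^ n * ((ρ * Real.exp (-d)) ^ (n + 1) * (M * m ^ (n + 1))) =
      (ρ * (M * m)) ^ (n + 1) * ((Real.exp (-d) * Real.exp d) ^ n * Real.exp (-d)) := by
    simp only [mul_pow]
    ring
  rw [h6, h5, one_pow, one_mul]
  exact mul_le_of_le_one_right (by positivity) h4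

theorem step (hC : CPS) (hS : SUBM) (hF : FUB) (hD : DBL) : STEP := by
  intro s
  obtain ⟨c, hc⟩ := hS s
  refine ⟨c, fun J q p tt ι _ _ K i t P B ρ F hs hK hi ht hP hcc hB hρ hE => ?_⟩
  obtain ⟨ι', i1, i2, K', hK', hM, hX⟩ := hC J q p tt ι K i t hK hi ht
  refine ⟨ι', i1, i2, K', hK', ?_⟩
  subst hs
  have h2 : (0 : ℝ) < 2 := by norm_num
  have hcl : Cls K.G K.T (Wc K.col i) :=
    (hD p.s ι Unit K.G K.T 2 _ hK.ok h2 hK.ao (hK.cl i).1 (hK.cl i).2).1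
  obtain ⟨hA, hmn, -, -, hfub⟩ := hF p.s ι K.G K.T 2 _ hK.ok h2 hK.ao hcl
  have hsub := hc ι K.G K.T p.WW p.cc P p.Y _ hK.ok hP (hK.ao.mono h2 hP.P2) hcl hK.wd hK.rd hcc
  have hph := st_ph K tt F B hB
  have e1 := hfub ℝ (K.Ph tt F) _ fun z => by
    rw [Real.norm_of_nonneg (hph z).1]
    exact (hph z).2
  have hfs := fun y => (H79.fs_bd hK.ok h2 hK.ao hcl.bk (K.Ph tt F) _ hph y).2
  obtain ⟨n, rfl⟩ : ∃ n, t = n + 1 := ⟨t - 1, by omega⟩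
  have hj := H79.tjen (fun z : Lat (K.T.rs (K.T.U ∩ Wc K.col i)).U =>
      K.G.nu (K.T.rs (K.T.U ∩ Wc K.col i)) z.1)
    (fun z => Fs K.G K.T (Wc K.col i) (K.Ph tt F) z.1) _ (fun z => (Br.nu_pos _ _).le)
    (Br.summ_le hK.ok h2 hA).1 (fun z => (hfs z.1).1) (fun z => (hfs z.1).2) n
  have σ0 := Br.sg_pos h2 hK.ao
  rw [hM, hX F B hB]
  rw [hmn, e1] at hE
  refine st_num (S := ∑' z : Lat (K.T.rs (K.T.U ∩ Wc K.col i)).U,
      K.G.nu (K.T.rs (K.T.U ∩ Wc K.col i)) z.1) hρ (Real.exp_pos _).le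
    (Br.mn_pos hK.ok hA.bk σ0) (Br.mn_pos hK.ok (Br.bk_sdiff hK.ao.bk hcl.bk) σ0)
    (tsum_nonneg fun z => (Br.nu_pos _ _).le) ?_ hE
    (tsum_nonneg fun z => smul_nonneg (Br.nu_pos _ _).le (pow_nonneg (hfs z.1).1 _)) hj
  simpa only [Ex, smul_eq_mul, mul_one] using hsub

end

end Vale.Agent.P057T.Cw
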