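import Vale.Agent.P057T.Cw.Defs2
import Vale.Agent.P057T.Eq.Sub
import Vale.Agent.P057T.Eq.Mono

/-! Row `SUBM`: the mass of a closed part whose groups are regular. -/

set_option linter.all false

open MvPolynomial Finset
open scoped Real

namespace Vale.Agent.P057T.Cw

open Vale.Agent.P057T.Eq Vale.Agent.P057T.Cp Vale.Agent.P057T.Eq.SubH1

theorem subm (hM : MS) : SUBM := by
  intro s
  obtain ⟨c, hc⟩ := hM s
  refine ⟨c, ?_⟩
  intro ι _ _ G T WW cc P Y W hG hS hT hW hd hr hcc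
  have hA : G.AOk (T.rs (T.U ∩ W)) P :=
    { bk := fun a b h => by
        show a ∈ T.U ∩ W ↔ b ∈ T.U ∩ W
        rw [mem_inter, mem_inter, hT.bk a b h, hW.bk a b h]
      qv := fun a ha => subset_inter (hT.qv a (mem_inter.1 ha).1) (hW.qv a (mem_inter.1 ha).2)
      pv := fun a ha => subset_inter (hT.pv a (mem_inter.1 ha).1)
        (hW.pv a (mem_inter.1 ha).1 (mem_inter.1 ha).2)
      pd := fun a ha => hT.pd a (mem_inter.1 ha).1
      pl := fun a ha => hT.pl a (mem_inter.1 ha).1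
      s1 := hT.s1
      s2 := hT.s2 }
  generalize hT' : T.rs (T.U ∩ W) = T' at hA
  have hU : ∀ a ∈ T'.U, P ^ c ≤ cc (G.g a) := fun a ha => by
    rw [← hT'] at ha
    exact hcc a (mem_inter.1 ha).2
  have hP : 0 < P ^ c := pow_pos (by linarith [hS.P2]) c
  have hY : ∀ g, 0 < Y + WW g := fun g => by linarith [hS.Y1, hd.nn g]
  have hR : Rr (sG G T'.U) s WW (P ^ c) Y := by
    refine ⟨ok_s hG hA.bk hA.qv, wd_s hA.bk hd, fun g hg => ?_, fun g hg => ?_⟩
    · by_cases h : P ^ c ≤ cc g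
      · exact big_s hA.bk hA.qv ((hr g hg).1.mono
          (Real.exp_le_exp.2 (mul_le_mul_of_nonneg_right h (hY g).le)))
      · intro e k I hk _ _ _ _ a ha
        exact absurd ((hk a ha).1 ▸ hU a.1 a.2) h
    · by_cases h : P ^ c ≤ cc g
      · refine small_s hA.bk ((hr g hg).2.mono ?_)
        refine mul_le_mul (Real.exp_le_exp.2 (neg_le_neg
          (mul_le_mul_of_nonneg_right h (hY _).le))) ?_ ?_ (Real.exp_pos _).le
        · exact inv_anti₀ (mul_pos hP (hY g)) (mul_le_mul_of_nonneg_right h (hY g).le)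
        · exact inv_nonneg.2 (mul_pos (hP.trans_le h) (hY g)).le
      · intro j _ hj
        exact absurd (hj ▸ hU j.1 j.2) h
  have hS' : Sz T'.U P Y := ⟨le_trans (Nat.cast_le.2 (Fintype.card_subtype_le _)) hS.cd, hS.P2, hS.Y1⟩
  obtain ⟨-, h2⟩ := hc T'.U (sG G T'.U) (sT T') WW P Y hS' (aok_s hA) hR
  have e1 : Mn (sG G T'.U) (sT T') = Mn G T' := mn_s T'
  have e2 : Ex (sG G T'.U) (sT T') (fun _ => (1 : ℝ)) = Ex G T' (fun _ => (1 : ℝ)) := by
    unfold Ex
    rw [← (eL T'.U).tsum_eq]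
    refine tsum_congr fun k => ?_
    show _ = G.nu T' (ext0 T'.U k.1) • (1 : ℝ)
    rw [nu_s hA]
  rw [e1, e2] at h2
  linarith [(abs_le.1 h2).2]

end Vale.Agent.P057T.Cw
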