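import Vale.Agent.P057T.Cw.Defs2
import Vale.Agent.P057T.Eq.Gw

/-! The theta bound for the blocks. -/

set_option linter.all false

open MvPolynomial Finset Matrix
open scoped Real

namespace Vale.Agent.P057T.Cw

open Vale.Agent.P057T.Eq Vale.Agent.P057T.Eq.Br Vale.Agent.P057T.Poi Vale.Agent.P267.H775

theorem tb00 : TB0 := by
  refine fun s => ⟨4, fun ι _ _ G WW P hG hW hz V g x hB hg => ?_⟩
  have hP : (1 : ℝ) ≤ P := by linarith [hz.P2]
  have hσ0 : ∀ a : ι, (0 : ℝ) < (fun _ => (1 : ℝ)) a := fun _ => one_pos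
  rcases V.eq_empty_or_nonempty with rfl | hV
  · have h1 : G.dv ∅ = 1 := by simp [GT.dv]
    rw [h1, tsum_eq_single 0]
    · simp
    · intro z hz
      exact absurd (Subtype.ext (funext fun a => z.2 a (notMem_empty a))) hz
  · have h := th_bd hG hW hz (σ := fun _ => (1 : ℝ))
      (fun _ => ⟨inv_le_one_of_one_le₀ hP, hP⟩) hB (g := g) (fun a ha => (hg a ha).ge)
      (-(mI G (fun _ => (1 : ℝ)) V *ᵥ fun a : V => x a))
    have e1 : G.mn (fun _ => (1 : ℝ)) V = G.dv V := by simp [GT.mn]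
    have e2 : ∑' z : Lat V, Real.exp (-π * ∑ a ∈ V, (∑ b, G.A a b * (z.1 b : ℝ) - x a) ^ 2) =
        th (mM G (fun _ => (1 : ℝ)) V) (-(mI G (fun _ => (1 : ℝ)) V *ᵥ fun a : V => x a)) := by
      rw [← (latE V).tsum_eq, th]
      refine tsum_congr fun y => ?_
      rw [gq, qf, mulVec_add, mulVec_neg, mulVec_mulVec, mM_mul hG hB hσ0, one_mulVec,
        ← Finset.sum_coe_sort V]
      congr 2
      refine sum_congr rfl fun a _ => ?_
      congr 1
      rw [sum_bk (V := V) _ fun b hb => by rw [A_zero hB a.2 hb, zero_mul]]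
      simp only [Pi.add_apply, Pi.neg_apply, mulVec, dotProduct, mM, of_apply, one_mul, latE_coe,
        ex0_coe, toR]
      ring
    rw [e2]
    rw [e1] at h
    refine h.trans (mul_le_mul_of_nonneg_right (Real.exp_le_exp.2 ?_) (abs_nonneg _))
    have h1 : (1 : ℝ) ≤ V.card := by exact_mod_cast hV.card_pos
    have h2 : 0 ≤ P ^ 4 * (1 + WW g) := mul_nonneg (by positivity) (by linarith [hW.nn g])
    exact le_mul_of_one_le_right h2 h1

theorem tb0 (_ : GW) (_ : DET) : TB0 := tb00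

end Vale.Agent.P057T.Cw
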