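import Vale.Agent.P057T.Cw.Twr
import Vale.Agent.P057T.Cw.Fix

/-! Row TWR from the corrected ADD: windows on the brackets of a tower of forms. -/

set_option linter.all false

open MvPolynomial Finset
open scoped Real

namespace Vale.Agent.P057T.Cw

open Vale.Agent.P057T.Eq Vale.Agent.P057L
open Vale.Agent.P057T.Rg (lo)
open Vale.Agent.P057T.Gkh (Cd Frm Twr Cel)

namespace TwrA

variable {ι : Type} [Fintype ι] [DecidableEq ι] {J q : ℕ} {col : ι → Finset (Fin J)}

theorem key1 (hA : ADD1) {s : ℕ} {gr : Finset (Fin J) → ℕ} {N δ : ℝ} {f : Pt J q → ℝ}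
    {S : St ι J q} {Y γ ρ b η x Z l : ℝ} (h : S.Inv s gr N δ f (fun _ => Y) (fun _ => Y) γ ρ b)
    (Z1 : 1 ≤ Z) (hl : 20 * Z ≤ Real.exp l) (η0 : 0 < η) (x0 : 0 ≤ x) (b0 : 0 ≤ b)
    (hx : 2 * Real.exp (-x) ≤ η * b) {L : List (Cd J q)} (hL : Twr L) :
    (∀ p ∈ L, p.1 ≠ univ) → 4 * η * L.length ≤ 1 →
    ∃ (ι' : Type) (_ : Fintype ι') (_ : DecidableEq ι') (S' : St ι' J q),
      Fintype.card ι' ≤ Fintype.card ι + L.length ∧
      S'.Inv s gr N δ f (fun _ => Y + L.length * l) (fun _ => Y + L.length * l) (γ + L.length * x) ρ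
        ((1 - 2 * η * L.length) * b) ∧
      (Br S' L Z ∨ ∀ z, S'.sq z ≤ Z → ¬ Cel L (S'.xs z)) := by
  have l0 : 0 ≤ l := Real.one_le_exp_iff.1 (by linarith)
  induction hL with
  | nil =>
    exact fun _ _ => ⟨ι, _, _, S, le_rfl, h.mono (by simp) (by simp) (by simp) le_rfl (by simp),
      Or.inl fun p hp => by simp at hp⟩
  | @cons L t P hL hP ih =>
    intro hp h4
    rw [List.length_cons] at h4 ⊢
    push_cast at h4 ⊢
    have n0 : (0 : ℝ) ≤ L.length := Nat.cast_nonneg _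
    obtain ⟨ι1, _, _, S1, c1, i1, o1⟩ := ih (fun p h => hp p (List.mem_cons_of_mem _ h))
      (by nlinarith)
    have i2 := i1.mono (θ' := fun _ => Y + (L.length + 1) * l) (θn' := fun _ => Y + (L.length + 1) * l)
      (γ' := γ + (L.length + 1) * x) (b' := (1 - 2 * η * (L.length + 1)) * b)
      (fun _ => by linarith) (fun _ => by linarith) (by linarith) le_rfl (by nlinarith)
    rcases o1 with o1 | o1
    swap
    · exact ⟨ι1, _, _, S1, by omega, i2, Or.inr fun z hz hc =>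
        o1 z hz fun p h => hc p (List.mem_cons_of_mem _ h)⟩
    obtain ⟨R, r1, r2⟩ := rp i1.ok o1 t P hP
    rcases t.eq_empty_or_nonempty with rfl | ht
    · refine ⟨ι1, _, _, S1, by omega, i2, Or.inl fun p h => ?_⟩
      rcases List.mem_cons.1 h with rfl | h
      · refine ⟨C (round (coeff 0 R) : ℝ), ml_C _ _, fun z hz => ?_⟩
        rw [eval_C]
        show _ = ((round (P (S1.xs z)) : ℤ) : ℝ)
        rw [← r2 z hz]
        conv_rhs => rw [ml_empty (fun a => card_pos.1 (i1.ok.wc a ▸ i1.ok.ok.w1 a)) r1, eval_C]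
      · exact o1 p h
    have σ0 : 0 < 1 / (10 * Z) := by positivity
    obtain ⟨S2, ζ, j1, j2, j3, j4, j5, j6, -, -, -, j7, j8⟩ := hA s J q gr N δ f ι1 Unit S1 _ _ _ _ _
      η x (1 / (10 * Z)) l s (fun _ => t) (fun _ => R) i1
      (fun _ => ⟨ht, hp _ List.mem_cons_self, i1.ok.go.lt t, r1⟩) σ0
      (by rw [div_le_one (by positivity)]; linarith)
      (by rw [one_div, ← div_eq_inv_mul, le_div_iff₀ (by positivity)]; linarith) η0
      (by nlinarith) (by nlinarith [mul_nonneg η0.le b0])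
    rw [Fintype.card_unit, Nat.cast_one, one_mul] at j1
    have j9 := j1.mono (θ' := fun _ => Y + (L.length + 1) * l) (θn' := fun _ => Y + (L.length + 1) * l)
      (γ' := γ + (L.length + 1) * x) (b' := (1 - 2 * η * (L.length + 1)) * b)
      (fun g => (lo_le _ _ l0 g).trans (by linarith)) (fun g => (lo_le _ _ l0 g).trans (by linarith))
      (by linarith) le_rfl
      (by nlinarith [mul_nonneg (mul_nonneg (mul_nonneg η0.le η0.le) n0) b0])
    have e1 : ∀ z, S2.xs z = S1.xs (z ∘ Sum.inl) := fun z => by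
      funext c l
      simp only [St.xs, j4, j5, j6, Function.comp]
    have e2 : ∀ (z : ι1 ⊕ Unit → ℤ) (F : MvPolynomial ι1 ℝ),
        eval (cz z) (rename Sum.inl F) = eval (cz (z ∘ Sum.inl)) F := fun z F => by
      rw [eval_rename]; rfl
    have e3 : ∀ z, S2.sq z = S1.sq (z ∘ Sum.inl) + eval (cz z) (S2.ch (Sum.inr ())) ^ 2 := fun z => by
      unfold St.sq
      rw [Fintype.sum_sum_type, Fintype.sum_unique (ι := Unit)]
      simp only [fun a => (j7 a).2, e2]
    have s0 : ∀ z, 0 ≤ S1.sq z := fun z => sum_nonneg fun _ _ => sq_nonneg _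
    have e4 : ∀ z, S2.sq z ≤ Z → S1.sq (z ∘ Sum.inl) ≤ Z := fun z hz => by
      have := e3 z
      nlinarith [sq_nonneg (eval (cz z) (S2.ch (Sum.inr ())))]
    have e5 : ∀ z, S2.sq z ≤ Z → |(z (Sum.inr ()) : ℝ) - P (S2.xs z) - ζ ()| ≤ 1 / 10 := fun z hz => by
      have a1 : |eval (cz z) (S2.ch (Sum.inr ()))| ≤ Z :=
        abs_le_of_sq_le_sq (by nlinarith [e3 z, s0 (z ∘ Sum.inl)]) (by linarith)
      rw [j8, map_mul, map_sub, map_sub, eval_C, eval_C, eval_X, e2, r2 _ (e4 z hz), ← e1, abs_mul,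
        one_div, inv_inv, abs_of_pos (by positivity)] at a1
      have : cz z (Sum.inr ()) = (z (Sum.inr ()) : ℝ) := rfl
      rw [this] at a1
      nlinarith
    refine ⟨ι1 ⊕ Unit, _, _, S2, by rw [Fintype.card_sum, Fintype.card_unit]; omega, j9, ?_⟩
    by_cases hζ : |ζ ()| ≤ 1 / 4
    · refine Or.inl fun p h => ?_
      rcases List.mem_cons.1 h with rfl | h
      · refine ⟨X (Sum.inr ()), j3 ▸ ml_X (col := Sum.elim S1.col fun _ => t) (Sum.inr ()),
          fun z hz => ?_⟩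
        rw [eval_X]
        have a1 := abs_le.1 (e5 z hz)
        have a2 := abs_le.1 hζ
        have a3 := abs_le.1 (abs_sub_round (P (S2.xs z)))
        have a4 : |((z (Sum.inr ()) - round (P (S2.xs z)) : ℤ) : ℝ)| < 1 := by
          push_cast
          exact abs_lt.2 ⟨by linarith, by linarith⟩
        have a5 : z (Sum.inr ()) - round (P (S2.xs z)) = 0 :=
          Int.abs_lt_one_iff.1 (by exact_mod_cast a4)
        exact congrArg Int.cast (sub_eq_zero.1 a5)
      · obtain ⟨R', b1, b2⟩ := o1 p h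
        exact ⟨rename Sum.inl R', j3 ▸ ml_ren _ b1, fun z hz => by rw [e2, b2 _ (e4 z hz), e1]⟩
    · refine Or.inr fun z hz hc => hζ ?_
      have a1 := abs_le.1 (e5 z hz)
      have a2 := abs_le.1 (j2 ())
      have a3 := abs_le.1 (hc _ List.mem_cons_self)
      have a4 : |((z (Sum.inr ()) - round (P (S2.xs z)) : ℤ) : ℝ)| < 1 := by
        push_cast
        exact abs_lt.2 ⟨by linarith, by linarith⟩
      have a5 : z (Sum.inr ()) - round (P (S2.xs z)) = 0 :=
        Int.abs_lt_one_iff.1 (by exact_mod_cast a4)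
      rw [sub_eq_zero.1 a5] at a1
      exact abs_le.2 ⟨by linarith, by linarith⟩

end TwrA

theorem twr1 (hA : ADD1) : TWR := by
  intro s J q gr N δ f S Y γ ρ b η x Z l L hL hp h Z1 hl η0 h4 x0 b0 hx
  obtain ⟨ι', _, _, S', a1, a2, a3⟩ := TwrA.key1 hA h Z1 hl η0 x0 b0 hx hL hp h4
  exact ⟨ι', _, _, S', by simpa using a1, a2, a3.imp_left (TwrA.rp a2.ok)⟩

end Vale.Agent.P057T.Cw
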