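import Vale.Agent.P057T.Cw.All3
import Vale.Agent.P057T.Cp.All
import Vale.Agent.P057T.Rg.Br
import Vale.Agent.P057T.Rg.DvpH29
import Vale.Agent.P057T.Rg.Uni
import Vale.Agent.P057T.Cw.Add
import Vale.Agent.P057T.Cw.Br
import Vale.Agent.P057T.Cw.Cpd
import Vale.Agent.P057T.Cw.Cps
import Vale.Agent.P057T.Cw.Dem1
import Vale.Agent.P057T.Cw.Emb1
import Vale.Agent.P057T.Cw.End
import Vale.Agent.P057T.Cw.Ent2
import Vale.Agent.P057T.Cw.Fsb
import Vale.Agent.P057T.Cw.Fst
import Vale.Agent.P057T.Cw.Gr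
import Vale.Agent.P057T.Cw.Hrm
import Vale.Agent.P057T.Cw.Init
import Vale.Agent.P057T.Cw.Pert
import Vale.Agent.P057T.Cw.RaH6
import Vale.Agent.P057T.Cw.Rb
import Vale.Agent.P057T.Cw.Reco
import Vale.Agent.P057T.Cw.Reg
import Vale.Agent.P057T.Cw.Rel
import Vale.Agent.P057T.Cw.Roto
import Vale.Agent.P057T.Cw.Shear
import Vale.Agent.P057T.Cw.Shr
import Vale.Agent.P057T.Cw.Sli
import Vale.Agent.P057T.Cw.Step
import Vale.Agent.P057T.Cw.Subm
import Vale.Agent.P057T.Cw.Tailw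
import Vale.Agent.P057T.Cw.Tb0
import Vale.Agent.P057T.Cw.Twr1

/-! Closed forms of the rows on coloured towers. -/

namespace Vale.Agent.P057T.Cw.All

open Vale.Agent.P057T.Eq

theorem tailc : TAILW := tailw br0 Rg.phi
theorem pertc : PERT := pert br0 tailc
theorem prtc : PRT := prt br0 tailc
theorem addc : ADD1 := add br0
theorem slic : SLI1 := sli br0 Rg.H29.dvp
theorem shrc : SHR1 := shr br0 Cp.All.cellc Cp.rca
theorem dilc : DIL1 := dil br0
theorem shearc : SHEAR := shear Rg.H29.dvp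
theorem relc : REL := rel bd0 br0 Rg.uni reco0 roto0 Rg.phi
theorem demc : DEM := dem1 addc prtc slic
theorem rac : RA := RaH6.ra1 relc shrc pertc dilc shearc
theorem rbc : RB := rb Rg.phi roto0 demc
theorem regc : REG := reg (hrm reco0) rac rbc tailc
theorem twrc : TWR := twr1 addc
theorem embc : EMB2 := emb1 ent2 twrc addc tailc br0
theorem cpdc : CPD := cpd Cp.All.pullc Cp.cpa
theorem cpsc : CPS := cps Cp.All.dblc cpdc
theorem submc : SUBM := subm Cp.All.msc
theorem stepc : STEP := step cpsc submc Cp.All.fubc Cp.All.dblc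
theorem fstc : FST := fst cpsc Cp.All.fibrc Cp.All.msc Cp.All.fubc Cp.All.dblc
theorem endc : END := fin fsb0 Eq.All.detc

theorem cstw (j : ℕ) (hj : 1 ≤ j) : CSTW j :=
  A0.cstw embc regc gr0 tb00 (init br0) fstc stepc endc br0 j hj

end Vale.Agent.P057T.Cw.All
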