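import Vale.Agent.P057T.Cw.Defs2

/-!
Removal of typed faces: the chain of copies and the cost of the windows.
-/

open MvPolynomial Finset
open scoped Real BigOperators

namespace Vale.Agent.P057T.Cw.A0

open Vale.Agent.P057T.Eq Vale.Agent.P057L Vale.Agent.P057T.Cp
open Vale.Agent.P057T.Rg (gp tk lo at1)

set_option linter.unusedSectionVars false

noncomputable section

variable {ι : Type} [Fintype ι] [DecidableEq ι] {J q : ℕ}

/-- the numbers of copies after `i` steps -/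
def tc (J : ℕ) (t : ℕ → ℕ) (i : ℕ) : Fin J → ℕ := fun c => if (c : ℕ) < i then t c else 1

theorem tc_up (t : ℕ → ℕ) (i : Fin J) : Function.update (tc J t i) i (t i) = tc J t (i + 1) := by
  funext c
  by_cases h : c = i
  · subst h; simp [tc]
  · have h1 : (c : ℕ) ≠ i := fun h2 => h (Fin.ext h2)
    rw [Function.update_of_ne h]
    simp only [tc]
    by_cases h3 : (c : ℕ) < i
    · rw [if_pos h3, if_pos (by omega)]
    · rw [if_neg h3, if_neg (by omega)]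

theorem tc_zero (t : ℕ → ℕ) : tc J t 0 = fun _ => 1 := by funext c; simp [tc]

theorem tc_top (t : ℕ → ℕ) : tc J t J = fun c : Fin J => t c := by funext c; simp [tc]

theorem tc_prod (t : ℕ → ℕ) {i : ℕ} (hi : i ≤ J) : ∏ c, tc J t i c = ∏ c ∈ range i, t c := by
  have h1 : ∏ c, tc J t i c = ∏ c ∈ range J, (if c < i then t c else 1) :=
    Fin.prod_univ_eq_prod_range (fun c => if c < i then t c else 1) J
  rw [h1, ← Finset.prod_filter]
  refine Finset.prod_congr ?_ fun _ _ => rfl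
  ext c; simp only [mem_filter, mem_range]; omega

theorem mn_nn {p : Par J q} {tt : Fin J → ℕ} {K : Ct ι J q} (h : Cs p tt K) : 0 ≤ Mn K.G K.T := by
  unfold Mn GT.mn
  exact mul_nonneg (abs_nonneg _) (Finset.prod_nonneg fun a _ => by rw [h.sg]; norm_num)

theorem prod_le_all {tt : Fin J → ℕ} (h : ∀ c, 1 ≤ tt c) (e : Finset (Fin J)) :
    ∏ c ∈ e, (tt c : ℝ) ≤ ∏ c, (tt c : ℝ) := by
  have : ∏ c ∈ e, tt c ≤ ∏ c, tt c :=
    Finset.prod_le_prod_of_subset_of_one_le' (subset_univ e) fun c _ _ => h c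
  exact_mod_cast this

theorem card_le {p : Par J q} {tt : Fin J → ℕ} {K : Ct ι J q} (h : Cs p tt K) (hD : 0 ≤ p.D) :
    (Fintype.card ι : ℝ) ≤ 2 ^ J * (p.D * ∏ c, (tt c : ℝ)) := by
  have h1 : Fintype.card ι = ∑ e : Finset (Fin J), (univ.filter fun a => K.col a = e).card :=
    Finset.card_eq_sum_card_fiberwise (f := K.col) (s := univ) (t := univ) (by simp)
  rw [h1]
  push_cast
  refine (Finset.sum_le_card_nsmul _ _ (p.D * ∏ c, (tt c : ℝ)) fun e _ => ?_).trans ?_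
  · exact (h.cn e).trans (mul_le_mul_of_nonneg_left (prod_le_all h.t1 e) hD)
  · simp

theorem cost {p : Par J q} {tt : Fin J → ℕ} {K : Ct ι J q} (h : Cs p tt K) {x : ℝ}
    (hx : 0 ≤ x) (hk : ∀ e, e ≠ univ → 0 ≤ p.ka (p.gr e) ∧
      ∃ c, c ∉ e ∧ p.D * p.ka (p.gr e) ≤ x * tt c) :
    ∑ a ∈ univ \ gp K.G 0, p.ka (K.G.g a) ≤ 2 ^ J * (x * ∏ c, (tt c : ℝ)) := by
  have h0 : ∑ a ∈ univ \ gp K.G 0, p.ka (K.G.g a) ≤ ∑ a, p.ka (p.gr (K.col a)) := by
    refine le_trans (le_of_eq (Finset.sum_congr rfl fun a ha => ?_))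
      (Finset.sum_le_sum_of_subset_of_nonneg (sdiff_subset (s := univ) (t := gp K.G 0))
        fun a _ _ => (hk _ (h.pr a)).1)
    rw [h.gc a (by simpa [gp] using ha)]
  refine h0.trans ?_
  rw [← Finset.sum_fiberwise_of_maps_to (s := univ) (t := univ) (g := K.col) (by simp)]
  have hT : 0 ≤ ∏ c, (tt c : ℝ) := Finset.prod_nonneg fun c _ => Nat.cast_nonneg _
  refine (Finset.sum_le_card_nsmul _ _ (x * ∏ c, (tt c : ℝ)) fun e _ => ?_).trans ?_
  · by_cases he : e = univ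
    · have : (univ.filter fun a => K.col a = e) = ∅ := by
        ext a; simp [he, h.pr a]
      rw [this, Finset.sum_empty]
      exact mul_nonneg hx hT
    · obtain ⟨h1, c, hc, h2⟩ := hk e he
      have h3 : ∑ a ∈ univ.filter (fun a => K.col a = e), p.ka (p.gr (K.col a)) =
          (univ.filter fun a => K.col a = e).card * p.ka (p.gr e) := by
        rw [Finset.sum_congr rfl (g := fun _ => p.ka (p.gr e)) fun a ha => by
          rw [(Finset.mem_filter.1 ha).2]]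
        simp
      have h4 := prod_le_all h.t1 (insert c e)
      rw [Finset.prod_insert hc] at h4
      have h5 : 0 ≤ ∏ c ∈ e, (tt c : ℝ) := Finset.prod_nonneg fun c _ => Nat.cast_nonneg _
      rw [h3]
      calc _ ≤ (p.D * ∏ c ∈ e, (tt c : ℝ)) * p.ka (p.gr e) := mul_le_mul_of_nonneg_right (h.cn e) h1
        _ = (p.D * p.ka (p.gr e)) * ∏ c ∈ e, (tt c : ℝ) := by ring
        _ ≤ (x * tt c) * ∏ c ∈ e, (tt c : ℝ) := mul_le_mul_of_nonneg_right h2 h5
        _ = x * (tt c * ∏ c ∈ e, (tt c : ℝ)) := by ring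
        _ ≤ _ := mul_le_mul_of_nonneg_left h4 hx
  · simp

/-- all steps of the chain -/
theorem chain (hS : STEP) (s : ℕ) : ∃ c : ℕ, ∀ (J q : ℕ) (p : Par J q) (t : ℕ → ℕ) (P : ℕ → ℝ)
    (B a e : ℝ) (F : Pt J q → ℝ), p.s = s → 0 ≤ p.D → 1 ≤ p.Y → (∀ i, 1 ≤ t i) → (∀ i, 2 ≤ P i) →
    (∀ i, 2 ^ J * (p.D * ∏ c ∈ range i, (t c : ℝ)) ≤ P i) →
    (∀ i : Fin J, P i ^ c ≤ p.cc 0 ∧ ∀ e, i ∉ e → P i ^ c ≤ p.cc (p.gr e)) →
    (∀ x, 0 ≤ F x ∧ F x ≤ B) → 0 ≤ a → Real.exp (-p.Y) ≤ e →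
    ∀ i, i + 1 ≤ J → ∀ (ι : Type) [Fintype ι] [DecidableEq ι] (K : Ct ι J q), Cs p (tc J t 1) K →
      (a * Real.exp (-e)) ^ t 0 * Mn K.G K.T ≤ Ex K.G K.T (K.Ph (tc J t 1) F) →
      ∃ (ι' : Type) (_ : Fintype ι') (_ : DecidableEq ι') (K' : Ct ι' J q), Cs p (tc J t (i + 1)) K' ∧
        (a * Real.exp (-((i + 1) * e))) ^ (∏ c ∈ range (i + 1), t c) * Mn K'.G K'.T ≤
          Ex K'.G K'.T (K'.Ph (tc J t (i + 1)) F) := by
  obtain ⟨c, hc⟩ := hS s
  refine ⟨c, fun J q p t P B a e F hs hD hY ht hP hcard hcc hF ha he i => ?_⟩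
  induction i with
  | zero =>
    intro _ ι _ _ K hK h
    exact ⟨ι, inferInstance, inferInstance, K, hK, by simpa using h⟩
  | succ i ih =>
    intro hi ι _ _ K hK h
    obtain ⟨ι1, _, _, K1, hK1, h1⟩ := ih (by omega) ι K hK h
    have hsz : Sz ι1 (P (i + 1)) p.Y := by
      refine ⟨(card_le hK1 hD).trans (le_trans (le_of_eq ?_) (hcard (i + 1))), hP _, hY⟩
      rw [← Nat.cast_prod, tc_prod t (by omega), Nat.cast_prod]
    have hw : ∀ b ∈ Wc K1.col ⟨i + 1, by omega⟩, P (i + 1) ^ c ≤ p.cc (K1.G.g b) := by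
      intro b hb
      by_cases h0 : K1.G.g b = 0
      · rw [h0]; exact (hcc ⟨i + 1, by omega⟩).1
      · rw [hK1.gc b h0]
        exact (hcc ⟨i + 1, by omega⟩).2 _ (by simpa [Wc] using hb)
    obtain ⟨ι2, _, _, K2, hK2, h2⟩ := hc J q p _ ι1 K1 ⟨i + 1, by omega⟩ (t (i + 1)) _ B _ F hs hK1
      (by simp [tc]) (ht _) hsz hw hF (by positivity) h1
    have e1 := tc_up (J := J) t ⟨i + 1, by omega⟩
    simp only at e1
    rw [e1] at hK2 h2
    refine ⟨ι2, inferInstance, inferInstance, K2, hK2, le_trans ?_ h2⟩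
    refine mul_le_mul_of_nonneg_right ?_ (mn_nn hK2)
    rw [Finset.prod_range_succ _ (i + 1), pow_mul]
    refine pow_le_pow_left₀ (by positivity) ?_ _
    have hT : 1 ≤ ∏ c ∈ range (i + 1), t c := Finset.one_le_prod' fun c _ => ht c
    have e2 : a * Real.exp (-((((i + 1 : ℕ) : ℝ) + 1) * e)) =
        a * Real.exp (-(((i : ℝ) + 1) * e)) * Real.exp (-e) := by
      rw [mul_assoc, ← Real.exp_add]; push_cast; congr 2; ring
    rw [e2, mul_pow]
    refine mul_le_mul_of_nonneg_left ?_ (by positivity)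
    have e3 : 0 ≤ e := (Real.exp_pos _).le.trans he
    calc Real.exp (-e) ^ (∏ c ∈ range (i + 1), t c) ≤ Real.exp (-e) ^ 1 :=
          pow_le_pow_of_le_one (Real.exp_pos _).le (Real.exp_le_one_iff.2 (by linarith)) hT
      _ ≤ _ := by rw [pow_one]; exact Real.exp_le_exp.2 (by linarith)

theorem grid_mono {α : Type} {m : ℕ} (S : Fin m → Finset α) (p : Fin m → ℕ)
    {F F' : (Fin m → α) → ℝ} (h0 : ∀ y, 0 ≤ F y) (h : ∀ y, F y ≤ F' y) :
    gridA S p (fun _ => F) ≤ gridA S p (fun _ => F') :=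
  Finset.expect_le_expect fun _ _ => Finset.prod_le_prod (fun _ _ => h0 _) fun _ _ => h _

theorem grid_pos {α : Type} {m : ℕ} (S : Fin m → Finset α) (p : Fin m → ℕ) (hp : ∀ i, 1 ≤ p i)
    {F : (Fin m → α) → ℝ} (h : 0 < gridA S p (fun _ => F)) : ∃ y, (∀ i, y i ∈ S i) ∧ F y ≠ 0 := by
  by_contra h1
  push Not at h1
  refine h.ne' (Finset.expect_eq_zero fun W hW => ?_)
  refine Finset.prod_eq_zero (i := fun i => ⟨0, hp i⟩) (mem_univ _) (h1 _ fun i => ?_)
  exact Fintype.mem_piFinset.1 (Fintype.mem_piFinset.1 hW i) _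

end

end Vale.Agent.P057T.Cw.A0
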