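import Vale.Agent.P057T.Cw.All0
import Vale.Agent.P057L.Mono

/-!
Removal of typed faces: the excess on a regular tower and the passage to a box.
-/

open MvPolynomial Finset
open scoped Real BigOperators

namespace Vale.Agent.P057T.Cw.A0

open Vale.Agent.P057T.Eq Vale.Agent.P057L Vale.Agent.P057T.Cp
open Vale.Agent.P057T.Rg (gp tk lo at1)

set_option linter.unusedSectionVars false

noncomputable section

variable {ι : Type} [Fintype ι] [DecidableEq ι] {J q : ℕ}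

/-- cut to the box -/
def ct (N : ℕ) (G : Pt J q → ℝ) (x : Pt J q) : ℝ := if x ∈ bp J q N then G x else 0

theorem ct_bd {N : ℕ} {G : Pt J q → ℝ} {B : ℝ} (hB : 0 ≤ B) (h0 : ∀ x, 0 ≤ G x)
    (h1 : ∀ x ∈ bp J q N, G x ≤ B) (x : Pt J q) : 0 ≤ ct N G x ∧ ct N G x ≤ B := by
  unfold ct
  split_ifs with h
  · exact ⟨h0 x, h1 x h⟩
  · exact ⟨le_rfl, hB⟩

theorem ct_le {N : ℕ} {G : Pt J q → ℝ} (h0 : ∀ x, 0 ≤ G x) (x : Pt J q) : ct N G x ≤ G x := by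
  unfold ct
  split_ifs
  · exact le_rfl
  · exact h0 x

theorem exc (hB : BR) {s N : ℕ} {gr : Finset (Fin J) → ℕ} {S : St ι J q} {δ B θ β b γ ρ : ℝ}
    {θ1 θ2 : ℕ → ℝ} {u G : Pt J q → ℝ} (hB0 : 0 < B) (hu : ∀ x, 0 ≤ u x ∧ u x ≤ 1)
    (h0 : ∀ x, 0 ≤ G x) (h1 : ∀ x ∈ bp J q N, G x ≤ B) (ht0 : 0 ≤ θ) (ht1 : θ ≤ B)
    (hS : S.Inv s gr N δ (nz N B fun x => u x * (G x - θ)) θ1 θ2 γ ρ b) (hb : 1 / 2 + β ≤ b) :
    2 * B * β * Ex S.G S.AT (fun _ => (1 : ℝ)) ≤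
      Ex S.G S.AT fun z => u (S.xs z) * (ct N G (S.xs z) - θ) := by
  obtain ⟨-, hs, -, -, -, hE, -⟩ := hB s J q gr ι S hS.ok
  have e1 : Ex S.G S.AT (fun _ => (1 : ℝ)) = S.ms := by
    rw [← hE fun _ => 1]; simp [St.hit, St.ms]
  rw [e1, ← hE fun x => u x * (ct N G x - θ)]
  have hw : ∀ z, 0 ≤ S.wt z := fun z => (Real.exp_pos _).le
  have hb1 : ∀ x, |u x * (ct N G x - θ)| ≤ B := by
    intro x
    obtain ⟨a1, a2⟩ := ct_bd hB0.le h0 h1 x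
    obtain ⟨a3, a4⟩ := hu x
    rw [abs_le]
    constructor <;> nlinarith
  have s1 : Summable fun z => S.wt z * (u (S.xs z) * (ct N G (S.xs z) - θ)) := by
    refine Summable.of_norm_bounded (hs.mul_right B) fun z => ?_
    rw [Real.norm_eq_abs, abs_mul, abs_of_nonneg (hw z)]
    exact mul_le_mul_of_nonneg_left (hb1 _) (hw z)
  have s2 : Summable fun z => S.wt z * nz N B (fun x => u x * (G x - θ)) (S.xs z) :=
    Summable.of_nonneg_of_le (fun z => mul_nonneg (hw z) (hS.f0 _).1)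
      (fun z => mul_le_of_le_one_right (hw z) (hS.f0 _).2) hs
  have h2 : S.hit (nz N B fun x => u x * (G x - θ)) ≤
      (1 / 2) * S.ms + (2 * B)⁻¹ * S.hit fun x => u x * (ct N G x - θ) := by
    rw [St.ms, St.hit, St.hit, ← tsum_mul_left, ← tsum_mul_left,
      ← (hs.mul_left _).tsum_add (s1.mul_left _)]
    refine s2.tsum_le_tsum (fun z => ?_) ((hs.mul_left _).add (s1.mul_left _))
    have h3 : nz N B (fun x => u x * (G x - θ)) (S.xs z) ≤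
        1 / 2 + (2 * B)⁻¹ * (u (S.xs z) * (ct N G (S.xs z) - θ)) := by
      have h4 := (abs_le.1 (hb1 (S.xs z))).1
      unfold nz
      split_ifs with h
      · rw [ct, if_pos h, div_eq_inv_mul _ (2 * B)]
      · have h5 : (2 * B)⁻¹ * (-B) ≤ (2 * B)⁻¹ * (u (S.xs z) * (ct N G (S.xs z) - θ)) :=
          mul_le_mul_of_nonneg_left h4 (by positivity)
        have h6 : (2 * B)⁻¹ * (-B) = -(1 / 2) := by field_simp
        linarith
    have := mul_le_mul_of_nonneg_left h3 (hw z)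
    linarith
  have h3 := hS.de.trans h2
  have h4 := mul_le_mul_of_nonneg_right hb (ms_nonneg S)
  have h5 : β * S.ms ≤ (2 * B)⁻¹ * S.hit fun x => u x * (ct N G x - θ) := by linarith
  have h6 := mul_le_mul_of_nonneg_left h5 (show 0 ≤ 2 * B by positivity)
  rw [← mul_assoc, ← mul_assoc, mul_inv_cancel₀ (by positivity), one_mul] at h6
  exact h6

/-- the side of the final box -/
theorem side {N n : ℕ} {al Z : ℝ} (ha : 0 < al) (ha1 : al ≤ 1) (hZ : 1 ≤ Z) (hn : 1 ≤ n)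
    (h : 6 * Z * n ≤ al * N) : ∃ M : ℕ, 2 * n ≤ M ∧ (M : ℝ) ≤ al * N ∧ 1 ≤ N / M ∧
      Z ≤ (N / M : ℕ) * al ∧ (N / M : ℕ) * al ≤ 4 * Z ∧ N ≤ 2 * M * (N / M) := by
  have hn' : (1 : ℝ) ≤ n := by exact_mod_cast hn
  set x := al * N / (2 * Z) with hx
  have hx1 : 3 * (n : ℝ) ≤ x := by rw [hx, le_div_iff₀ (by positivity)]; linarith
  have hx2 : x * (2 * Z) = al * N := by rw [hx]; field_simp
  have f1 : (⌊x⌋₊ : ℝ) ≤ x := Nat.floor_le (by linarith)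
  have f2 : x < ⌊x⌋₊ + 1 := Nat.lt_floor_add_one x
  have hM : 2 * n ≤ ⌊x⌋₊ := by
    have : ((2 * n : ℕ) : ℝ) ≤ ⌊x⌋₊ := by push_cast; linarith
    exact_mod_cast this
  have hM0 : 0 < ⌊x⌋₊ := by omega
  have hM1 : (0 : ℝ) < ⌊x⌋₊ := by exact_mod_cast hM0
  have g1 : ((N / ⌊x⌋₊ : ℕ) : ℝ) * ⌊x⌋₊ ≤ N := by exact_mod_cast Nat.div_mul_le_self N ⌊x⌋₊
  have g2' : N < ⌊x⌋₊ * (N / ⌊x⌋₊ + 1) := Nat.lt_mul_div_succ N hM0
  have g2 : (N : ℝ) < ⌊x⌋₊ * ((N / ⌊x⌋₊ : ℕ) + 1) := by exact_mod_cast g2'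
  have hH0 : (0 : ℝ) ≤ (N / ⌊x⌋₊ : ℕ) := Nat.cast_nonneg _
  have k1 : Z ≤ (N / ⌊x⌋₊ : ℕ) * al := by
    have a1 : ⌊x⌋₊ * (2 * Z) ≤ al * N := hx2 ▸ mul_le_mul_of_nonneg_right f1 (by linarith)
    have a2 : al * N ≤ al * (⌊x⌋₊ * ((N / ⌊x⌋₊ : ℕ) + 1)) := mul_le_mul_of_nonneg_left g2.le ha.le
    have a3 : ⌊x⌋₊ * (2 * Z) ≤ ⌊x⌋₊ * (al * ((N / ⌊x⌋₊ : ℕ) + 1)) := by linarith
    have a4 := le_of_mul_le_mul_left a3 hM1
    linarith
  have k2 : 1 ≤ N / ⌊x⌋₊ := by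
    rcases Nat.eq_zero_or_pos (N / ⌊x⌋₊) with h0 | h0
    · rw [h0] at k1; simp at k1; linarith
    · exact h0
  refine ⟨⌊x⌋₊, hM, ?_, k2, k1, ?_, ?_⟩
  · nlinarith
  · have a1 : x ≤ 2 * ⌊x⌋₊ := by linarith
    have a2 : (N / ⌊x⌋₊ : ℕ) * al * ⌊x⌋₊ ≤ al * N := by nlinarith
    have a3 : al * N ≤ 4 * Z * ⌊x⌋₊ := by nlinarith
    exact le_of_mul_le_mul_right (a2.trans a3) hM1
  · nlinarith

theorem k_bd {N n M H : ℕ} {r k y : ℤ} (hn : 1 ≤ n) (hM : 2 * n ≤ M) (hH : 1 ≤ H)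
    (hN : N ≤ 2 * M * H) (hr0 : 0 ≤ r) (hr1 : r < n) (hy0 : 0 ≤ y) (hy1 : y < (2 * H : ℕ))
    (h0 : 0 ≤ r + n * (H * k + y)) (h1 : r + n * (H * k + y) < N) : |k| ≤ 2 * M := by
  have hn' : (1 : ℤ) ≤ n := by exact_mod_cast hn
  have hM' : (2 : ℤ) * n ≤ M := by exact_mod_cast hM
  have hH' : (1 : ℤ) ≤ H := by exact_mod_cast hH
  have hN' : (N : ℤ) ≤ 2 * M * H := by exact_mod_cast hN
  push_cast at hy1
  have a1 : 0 ≤ (H : ℤ) * k + y := by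
    by_contra h
    have : (H : ℤ) * k + y ≤ -1 := by omega
    nlinarith
  have a2 : (H : ℤ) * k + y < N := by nlinarith
  rw [abs_le]
  constructor
  · by_contra h
    have : k ≤ -3 := by omega
    nlinarith
  · by_contra h
    have : 2 * (M : ℤ) + 1 ≤ k := by omega
    nlinarith

/-- from the end of the chain to the box -/
theorem out (hN : END) {p : Par J q} {tt : Fin J → ℕ} {K : Ct ι J q} (hK : Cs p tt K) {N n t : ℕ}
    {r : Pt J q} {G : Pt J q → ℝ} {Z B ρ co a : ℝ} (h0 : ∀ x, 0 ≤ G x)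
    (h1 : ∀ x ∈ bp J q N, G x ≤ B) (hB : 1 ≤ B) (ha1 : p.al ≤ 1) (hZ : 1 ≤ Z) (hn : 1 ≤ n)
    (h : 6 * Z * n ≤ p.al * N) (ht : ∀ c, tt c ≤ t) (ha : 0 < a) (hρ : 0 ≤ ρ)
    (hE : ρ * Mn K.G K.T ≤ Ex K.G K.T (K.Ph tt fun x => ct N G (r + (n : ℤ) • x)))
    (hco : ∑ b ∈ univ \ gp K.G 0, p.ka (K.G.g b) ≤ co)
    (hnum : (8 * Z) ^ (q * ∑ c, tt c) * a ^ (∏ c, tt c) +
      6 ^ (q * ∑ c, tt c) * Real.exp (-(Z ^ 2 / 4)) * B ^ (∏ c, tt c) ≤ ρ * Real.exp (-co)) :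
    ∃ (M : ℕ) (r0 k : Pt J q), 2 * n ≤ M ∧ (M : ℝ) ≤ p.al * N ∧
      (∀ c l, 0 ≤ r0 c l ∧ r0 c l < n ∧ |k c l| ≤ 2 * M) ∧
      a ^ t ^ J ≤ gridA (fun _ : Fin J => bz q (2 * (N / M))) (fun _ => t)
        fun _ y => G (r0 + (n : ℤ) • (((N / M : ℕ) : ℤ) • k + y)) := by
  obtain ⟨M, m1, m2, m3, m4, m5, m6⟩ := side hK.al0 ha1 hZ hn h
  have hn0 : (0 : ℤ) < n := by exact_mod_cast hn
  obtain ⟨k, hk⟩ := hN J q p tt ι K (N / M) Z B ρ _ (fun c l => -(r c l / n)) hK ha1 m3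
    (by linarith) m4 hB (fun x => ct_bd (by linarith) h0 h1 _) hE
  set r0 : Pt J q := fun c l => r c l % n with hr0
  have e1 : ∀ y : Pt J q, r + (n : ℤ) • ((fun c l => -(r c l / n)) + ((N / M : ℕ) : ℤ) • k + y) =
      r0 + (n : ℤ) • (((N / M : ℕ) : ℤ) • k + y) := by
    intro y
    funext c l
    have := Int.emod_add_mul_ediv (r c l) n
    simp only [Pi.add_apply, Pi.smul_apply, smul_eq_mul, hr0]
    linarith
  simp only [e1] at hk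
  set g := gridA (fun _ : Fin J => bz q (2 * (N / M))) tt
    (fun _ y => ct N G (r0 + (n : ℤ) • (((N / M : ℕ) : ℤ) • k + y))) with hg
  have hg0 : 0 ≤ g := Finset.expect_nonneg fun _ _ => Finset.prod_nonneg fun _ _ =>
    (ct_bd (by linarith) h0 h1 _).1
  have h2 : (2 * ((N / M : ℕ) : ℝ) * p.al) ^ (q * ∑ c, tt c) * g ≤ (8 * Z) ^ (q * ∑ c, tt c) * g :=
    mul_le_mul_of_nonneg_right (pow_le_pow_left₀ (by have := hK.al0; positivity) (by linarith) _) hg0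
  have h3 : ρ * Real.exp (-co) ≤ ρ * Real.exp (-∑ b ∈ univ \ gp K.G 0, p.ka (K.G.g b)) :=
    mul_le_mul_of_nonneg_left (Real.exp_le_exp.2 (by linarith)) hρ
  have h4 : a ^ (∏ c, tt c) ≤ g :=
    le_of_mul_le_mul_left (a := (8 * Z) ^ (q * ∑ c, tt c)) (by linarith) (by positivity)
  obtain ⟨y, hy, hy0⟩ := grid_pos _ tt hK.t1 (lt_of_lt_of_le (pow_pos ha _) h4)
  have hy1 : r0 + (n : ℤ) • (((N / M : ℕ) : ℤ) • k + y) ∈ bp J q N := by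
    by_contra h5
    exact hy0 (if_neg h5)
  refine ⟨M, r0, k, m1, m2, fun c l => ?_, ?_⟩
  · have b1 : 0 ≤ r0 c l := Int.emod_nonneg _ hn0.ne'
    have b2 : r0 c l < n := Int.emod_lt_of_pos _ hn0
    have b3 := Finset.mem_Ico.1 (Fintype.mem_piFinset.1 (Fintype.mem_piFinset.1 hy1 c) l)
    have b4 := Finset.mem_Ico.1 (Fintype.mem_piFinset.1 (hy c) l)
    exact ⟨b1, b2, k_bd hn m1 m3 m6 b1 b2 b4.1 b4.2 b3.1 b3.2⟩
  · have h5 := h4.trans (grid_mono _ tt (fun y => (ct_bd (by linarith) h0 h1 _).1)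
      fun y => ct_le h0 (r0 + (n : ℤ) • (((N / M : ℕ) : ℤ) • k + y)))
    have h6 := P057L.mono (Vz q) J _ tt (fun _ => t) _ a (fun _ => ⟨0, by
      simp only [bz, rg, Fintype.mem_piFinset, Finset.mem_Ico, Pi.zero_apply]
      intro _
      refine ⟨le_rfl, ?_⟩
      exact_mod_cast (by omega : 0 < 2 * (N / M))⟩) (fun y => h0 _) ha.le
      (fun c => ⟨hK.t1 c, ht c⟩) h5
    simpa using h6

end

end Vale.Agent.P057T.Cw.A0
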