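import Vale.Agent.P057T.Cw.All1

/-!
Removal of typed faces: numerics and the assembly from the rows.
-/

open MvPolynomial Finset
open scoped Real BigOperators

namespace Vale.Agent.P057T.Cw.A0

open Vale.Agent.P057T.Eq Vale.Agent.P057L Vale.Agent.P057T.Cp
open Vale.Agent.P057T.Rg (gp tk lo at1)

set_option linter.unusedSectionVars false

noncomputable section

theorem num0 {Y T E Z : ℝ} (hY : 4 ≤ Y) (hT : 16 ≤ T) (hE : E ≤ T) (hZ : Y ^ 2 * T ≤ Z) :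
    E * 2 + -(Z ^ 2 / 4) + T * Y ≤ T * -(Y + 1) + -1 := by
  have h0 : 4 * Y ≤ Y ^ 2 := by nlinarith
  have h1 : 4 * Y * T ≤ Z := (mul_le_mul_of_nonneg_right h0 (by linarith)).trans hZ
  have h2 : 4 * T ≤ Y * T := mul_le_mul_of_nonneg_right hY (by linarith)
  have h3 : 4 ≤ Z := by linarith
  have h4 : 4 * Z ≤ Z * Z := mul_le_mul_of_nonneg_right h3 (by linarith)
  nlinarith

theorem num {Y ε e θ Z J : ℝ} {E T : ℕ} (hY : 4 ≤ Y) (he : 1 ≤ e * Y ^ 2) (hJ : 0 ≤ J)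
    (hε : e * (J + 4) = ε) (hε1 : ε ≤ 1 / 2) (hθ : Real.exp (-Y) ≤ θ) (hE : E * Y ^ 4 ≤ T)
    (hT : Y ^ 2 ≤ T) (hZ : Y ^ 2 * T ≤ Z) (hZ1 : 8 * Z ≤ Real.exp (Y ^ 2)) :
    (8 * Z) ^ E * ((1 - ε) * θ) ^ T + 6 ^ E * Real.exp (-(Z ^ 2 / 4)) * Real.exp Y ^ T ≤
      ((1 - e) * θ * Real.exp (-(J * e))) ^ T * Real.exp (-(e * T)) := by
  have hY2 : 16 ≤ Y ^ 2 := by nlinarith
  have he0 : 0 < e := by by_contra h; nlinarith
  have hθ0 : 0 < θ := (Real.exp_pos _).trans_le hθ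
  have hT0 : (16 : ℝ) ≤ T := hY2.trans hT
  have hE0 : (0 : ℝ) ≤ E := Nat.cast_nonneg _
  set w := (1 - e) * θ * Real.exp (-((J + 1) * e)) with hw
  have e1 : ((1 - e) * θ * Real.exp (-(J * e))) ^ T * Real.exp (-(e * T)) = w ^ T := by
    have : Real.exp (-(e * T)) = Real.exp (-e) ^ T := by rw [← Real.exp_nat_mul]; congr 1; ring
    rw [this, ← mul_pow, hw, mul_assoc, ← Real.exp_add]; congr 3; ring
  rw [e1]
  have ha0 : 0 ≤ (1 - ε) * θ := mul_nonneg (by linarith) hθ0.le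
  have h1 : (1 - ε) * θ * Real.exp (2 * e) ≤ w := by
    have a1 : 1 - (J + 3) * e ≤ Real.exp (-((J + 3) * e)) := by
      have := Real.add_one_le_exp (-((J + 3) * e)); linarith
    have a2 : 1 - ε ≤ (1 - e) * Real.exp (-((J + 3) * e)) := by
      have a3 : 0 ≤ 1 - e := by nlinarith
      have a4 := mul_le_mul_of_nonneg_left a1 a3
      nlinarith [mul_nonneg (mul_nonneg (show 0 ≤ J + 3 by linarith) he0.le) he0.le]
    have a5 : Real.exp (-((J + 1) * e)) = Real.exp (-((J + 3) * e)) * Real.exp (2 * e) := by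
      rw [← Real.exp_add]; congr 1; ring
    rw [hw, a5]
    have := mul_le_mul_of_nonneg_right a2 (mul_pos hθ0 (Real.exp_pos (2 * e))).le
    linarith
  have hx : Real.exp (-1) ≤ 1 / 2 := by
    rw [Real.exp_neg, inv_eq_one_div]
    exact one_div_le_one_div_of_le (by norm_num) (by have := Real.add_one_le_exp 1; linarith)
  have h2 : (8 * Z) ^ E * ((1 - ε) * θ) ^ T ≤ w ^ T * (1 / 2) := by
    have hZ0 : 0 ≤ 8 * Z := by nlinarith
    have a1 : (8 * Z) ^ E ≤ Real.exp (e * T) := by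
      refine (pow_le_pow_left₀ hZ0 hZ1 E).trans ?_
      rw [← Real.exp_nat_mul]
      refine Real.exp_le_exp.2 ?_
      have a2 : E * Y ^ 2 * 1 ≤ E * Y ^ 2 * (e * Y ^ 2) :=
        mul_le_mul_of_nonneg_left he (by positivity)
      nlinarith [mul_le_mul_of_nonneg_left hE he0.le]
    have a3 := pow_le_pow_left₀ (by positivity) h1 T
    rw [mul_pow, ← Real.exp_nat_mul] at a3
    have a4 : Real.exp (e * T) ≤ Real.exp (T * (2 * e)) * (1 / 2) := by
      refine le_trans ?_ (mul_le_mul_of_nonneg_left hx (Real.exp_pos _).le)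
      rw [← Real.exp_add]
      refine Real.exp_le_exp.2 ?_
      nlinarith [mul_le_mul_of_nonneg_left hT he0.le]
    have a5 := mul_le_mul_of_nonneg_right (a1.trans a4) (pow_nonneg ha0 T)
    linarith
  have h3 : 6 ^ E * Real.exp (-(Z ^ 2 / 4)) * Real.exp Y ^ T ≤ w ^ T * (1 / 2) := by
    have a1 : Real.exp (-(Y + 1)) ≤ w := by
      refine le_trans ?_ (le_trans (le_mul_of_one_le_right ha0
        (Real.one_le_exp (by linarith))) h1)
      have a0 : Real.exp (-(Y + 1)) = Real.exp (-1) * Real.exp (-Y) := by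
        rw [← Real.exp_add]; congr 1; ring
      rw [a0]
      exact mul_le_mul (by linarith) hθ (Real.exp_pos _).le (by linarith)
    have a2 := pow_le_pow_left₀ (Real.exp_pos _).le a1 T
    have a3 : (6 : ℝ) ≤ Real.exp 2 := by
      have b1 := Real.exp_one_gt_d9
      have b2 : Real.exp 2 = Real.exp 1 * Real.exp 1 := by rw [← Real.exp_add]; norm_num
      nlinarith
    have a4 := pow_le_pow_left₀ (by norm_num) a3 E
    rw [← Real.exp_nat_mul] at a2 a4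
    have a5 : (E : ℝ) ≤ T := by nlinarith [mul_le_mul_of_nonneg_left (show 1 ≤ Y ^ 4 by nlinarith) hE0]
    obtain ⟨a6⟩ : Nonempty (E * 2 + -(Z ^ 2 / 4) + T * Y ≤ T * -(Y + 1) + -1) :=
      ⟨num0 hY hT0 a5 hZ⟩
    calc _ ≤ Real.exp (E * 2) * Real.exp (-(Z ^ 2 / 4)) * Real.exp Y ^ T := by gcongr
      _ = Real.exp (E * 2 + -(Z ^ 2 / 4) + T * Y) := by
          rw [← Real.exp_nat_mul, ← Real.exp_add, ← Real.exp_add]
      _ ≤ Real.exp (T * -(Y + 1) + -1) := Real.exp_le_exp.2 a6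
      _ ≤ _ := by
          rw [Real.exp_add]
          exact mul_le_mul a2 hx (Real.exp_pos _).le ((Real.exp_pos _).le.trans a2)
  linarith

/-- exponents of the sizes -/
def ee (d u v : ℕ) : ℕ → ℕ
  | 0 => d + 1
  | i + 1 => ee d u v i + (u + ee d u v i * v) + 1

theorem ee_mono (d u v : ℕ) : Monotone (ee d u v) :=
  monotone_nat_of_le_succ fun i => by simp only [ee]; omega

/-- the numbers of copies -/
def tn (Y : ℝ) (d u v i : ℕ) : ℕ := ⌈Y ^ (u + ee d u v i * v)⌉₊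

theorem tn_ge (Y : ℝ) (d u v i : ℕ) : Y ^ (u + ee d u v i * v) ≤ tn Y d u v i := Nat.le_ceil _

theorem tn_le {Y : ℝ} (hY : 2 ≤ Y) (d u v i : ℕ) :
    (tn Y d u v i : ℝ) ≤ Y ^ (u + ee d u v i * v + 1) := by
  have h1 : (1 : ℝ) ≤ Y ^ (u + ee d u v i * v) := one_le_pow₀ (by linarith)
  have h2 := Nat.ceil_lt_add_one (show 0 ≤ Y ^ (u + ee d u v i * v) by linarith)
  rw [pow_succ]
  unfold tn
  nlinarith

theorem tn_mono {Y : ℝ} (hY : 1 ≤ Y) (d u v : ℕ) : Monotone (tn Y d u v) := fun _ _ h =>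
  Nat.ceil_mono (pow_le_pow_right₀ hY
    (Nat.add_le_add_left (Nat.mul_le_mul_right _ (ee_mono d u v h)) _))

theorem tn_prod {Y : ℝ} (hY : 2 ≤ Y) (d u v i : ℕ) :
    Y ^ (d + 1) * ∏ c ∈ range i, (tn Y d u v c : ℝ) ≤ Y ^ ee d u v i := by
  induction i with
  | zero => simp [ee]
  | succ i ih =>
    rw [Finset.prod_range_succ, ← mul_assoc, ee, add_assoc, pow_add _ (ee d u v i)]
    exact mul_le_mul ih (tn_le hY d u v i) (Nat.cast_nonneg _) (by positivity)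

theorem pw_exp {Y : ℝ} {k : ℕ} (hY : 0 ≤ Y) (hk : (k : ℝ) ≤ Y) : Y ^ k ≤ Real.exp (Y ^ 2) := by
  have h1 : Y ≤ Real.exp Y := by have := Real.add_one_le_exp Y; linarith
  refine (pow_le_pow_left₀ hY h1 k).trans ?_
  rw [← Real.exp_nat_mul]
  exact Real.exp_le_exp.2 (by nlinarith)

theorem six_pw {Y : ℝ} {k : ℕ} (hY : 0 ≤ Y) (hk : ((6 * (k + 1).factorial : ℕ) : ℝ) ≤ Y) :
    6 * Y ^ k ≤ Real.exp Y := by
  have h1 := Real.pow_div_factorial_le_exp Y hY (k + 1)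
  have h2 : (0 : ℝ) < (k + 1).factorial := by exact_mod_cast Nat.factorial_pos _
  refine le_trans ?_ h1
  rw [le_div_iff₀ h2, pow_succ]
  push_cast at hk
  nlinarith [mul_le_mul_of_nonneg_left hk (pow_nonneg hY k)]

theorem sum_le {J q : ℕ} {tt : Fin J → ℕ} {Y : ℝ} (hJ : 2 ≤ J) (hY : 1 ≤ Y) (hq : (J : ℝ) * q ≤ Y)
    (h1 : ∀ c, 1 ≤ tt c) (h : ∀ c, Y ^ 5 ≤ tt c) :
    ((q * ∑ c, tt c : ℕ) : ℝ) * Y ^ 4 ≤ (∏ c, tt c : ℕ) := by
  have h2 : ∀ c, (tt c : ℝ) * Y ^ 5 ≤ ∏ c, (tt c : ℝ) := by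
    intro c
    have : Nontrivial (Fin J) := Fin.nontrivial_iff_two_le.2 hJ
    obtain ⟨c', hc⟩ := exists_ne c
    have h3 := prod_le_all h1 {c, c'}
    rw [Finset.prod_pair hc.symm] at h3
    exact (mul_le_mul_of_nonneg_left (h c') (Nat.cast_nonneg _)).trans h3
  have h3 : (∑ c, (tt c : ℝ)) * Y ^ 5 ≤ J * ∏ c, (tt c : ℝ) := by
    rw [Finset.sum_mul]
    exact (Finset.sum_le_card_nsmul _ _ _ fun c _ => h2 c).trans (by simp)
  have hT : 0 ≤ ∏ c, (tt c : ℝ) := Finset.prod_nonneg fun c _ => Nat.cast_nonneg _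
  push_cast
  refine le_of_mul_le_mul_right (a := Y) ?_ (by linarith)
  have h4 := mul_le_mul_of_nonneg_left h3 (Nat.cast_nonneg (α := ℝ) q)
  have h5 := mul_le_mul_of_nonneg_right hq hT
  nlinarith

end

end Vale.Agent.P057T.Cw.A0
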