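import Vale.Agent.P057T.Cw.All2

/-!
Removal of typed faces: the assembly from the rows.
-/

open MvPolynomial Finset
open scoped Real BigOperators

namespace Vale.Agent.P057T.Cw.A0

open Vale.Agent.P057T.Eq Vale.Agent.P057L Vale.Agent.P057T.Cp
open Vale.Agent.P057T.Rg (gp tk lo at1)

set_option linter.unusedSectionVars false

noncomputable section

theorem small {Y e : ℝ} (hY : 5 ≤ Y) (he : 1 ≤ e * Y ^ 2) {x : ℝ} (hx : Y ^ 2 + 5 ≤ x + Y) :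
    128 * Real.exp (-x) ≤ Real.exp (-(2 * Y)) * e := by
  have h1 : Y ≤ Real.exp Y := by have := Real.add_one_le_exp Y; linarith
  have he0 : 0 < e := by by_contra h; nlinarith
  have h2 : Y ^ 2 ≤ Real.exp (2 * Y) := by
    rw [show 2 * Y = Y + Y by ring, Real.exp_add]; nlinarith
  have h3 : Real.exp (-(2 * Y)) ≤ e := by
    rw [Real.exp_neg, inv_le_iff_one_le_mul₀ (Real.exp_pos _)]
    nlinarith
  have h4 : (128 : ℝ) ≤ Real.exp 5 := by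
    have b1 := Real.exp_one_gt_d9
    have b2 : Real.exp 5 = Real.exp 1 ^ 5 := by rw [← Real.exp_nat_mul]; norm_num
    rw [b2]
    exact le_trans (by norm_num) (pow_le_pow_left₀ (by norm_num : (0 : ℝ) ≤ 2.7) (by linarith) 5)
  calc _ ≤ Real.exp 5 * Real.exp (-x) := mul_le_mul_of_nonneg_right h4 (Real.exp_pos _).le
    _ ≤ Real.exp (-(2 * Y)) * Real.exp (-(2 * Y)) := by
        rw [← Real.exp_add, ← Real.exp_add]; exact Real.exp_le_exp.2 (by nlinarith)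
    _ ≤ _ := mul_le_mul_of_nonneg_left h3 (Real.exp_pos _).le

theorem n1 {Y ε J : ℝ} (hY : 10 ≤ Y) (hJ : 0 ≤ J) (hJY : J + 4 ≤ Y) (hε : Y⁻¹ ≤ ε) (hε1 : ε ≤ 1 / 2) :
    ∃ e : ℝ, e * (J + 4) = ε ∧ 1 ≤ e * Y ^ 2 ∧ 0 < e ∧ e ≤ 1 / 2 ∧ Y ≤ e * Y ^ 3 ∧ 3 * Y ≤ Y ^ 2 ∧
      Y ^ 2 + 5 ≤ Y ^ 3 ∧ ∀ t, Y ^ 5 ≤ t → Y ^ 2 + 5 ≤ t * e + Y := by
  obtain ⟨e, he⟩ : ∃ e, e = ε / (J + 4) := ⟨_, rfl⟩
  have he1 : e * (J + 4) = ε := by rw [he]; field_simp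
  have a2 : 1 ≤ ε * Y := by rwa [inv_le_iff_one_le_mul₀ (by linarith)] at hε
  have a3 : 0 ≤ e := by rw [he]; exact div_nonneg (by nlinarith) (by linarith)
  have he2 : 1 ≤ e * Y ^ 2 := by
    nlinarith [mul_le_mul_of_nonneg_left hJY (mul_nonneg a3 (show 0 ≤ Y by linarith))]
  have hY3 : Y ^ 2 + 5 ≤ Y ^ 3 := by nlinarith
  refine ⟨e, he1, he2, by by_contra h; nlinarith, by nlinarith, ?_, by nlinarith, hY3, fun t ht => ?_⟩
  · nlinarith [mul_le_mul_of_nonneg_right he2 (show 0 ≤ Y by linarith)]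
  · have b1 := mul_le_mul_of_nonneg_right ht a3
    have b2 := mul_le_mul_of_nonneg_left he2 (show 0 ≤ Y ^ 3 by positivity)
    nlinarith

theorem n2 {x y e B : ℝ} (hx0 : 0 < x) (hx1 : x ≤ 1) (hy : 0 < y) (he0 : 0 < e) (he : e ≤ 1 / 2)
    (hB : 0 < B) (h : 128 * y ≤ x * e) : y ≤ x / 32 ∧ 1 / 2 + x / 32 ≤ (1 - x / 32) * (1 / 2 + x / 16) ∧
      2 * B * (x / 32) ≤ B ∧ 8 * B * y ≤ 2 * B * (x / 32) * e ∧ y ≤ e ∧
      y ≤ 2 * B * (x / 32) / (8 * B) := by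
  have a1 : 2 * B * (x / 32) / (8 * B) = x / 128 := by field_simp; norm_num
  have a2 : x * e ≤ x * (1 / 2) := mul_le_mul_of_nonneg_left he hx0.le
  have a3 : x * e ≤ 1 * e := mul_le_mul_of_nonneg_right hx1 he0.le
  refine ⟨by linarith, by nlinarith, by nlinarith, ?_, by linarith, by rw [a1]; linarith⟩
  nlinarith [mul_le_mul_of_nonneg_left h hB.le]

theorem n3 {Y W : ℝ} {d c k u : ℕ} (hY : 2 ≤ Y) (h0 : 0 ≤ W) (h : W ≤ Y ^ k)
    (hu : 3 + (d + (d * c + (k + 1))) ≤ u) : Y ^ 3 * (Y ^ d * ((Y ^ d) ^ c * (1 + W))) ≤ Y ^ u := by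
  have a1 : (1 : ℝ) ≤ Y ^ k := one_le_pow₀ (by linarith)
  have a2 : 1 + W ≤ Y ^ (k + 1) := by rw [pow_succ]; nlinarith
  calc _ ≤ Y ^ 3 * (Y ^ d * ((Y ^ d) ^ c * Y ^ (k + 1))) := by gcongr
    _ = Y ^ (3 + (d + (d * c + (k + 1)))) := by rw [← pow_mul, ← pow_add, ← pow_add, ← pow_add]
    _ ≤ _ := pow_le_pow_right₀ (by linarith) hu

theorem cstw (hE : EMB2) (hR : REG) (hG : GR) (hT : TB0) (hI : INIT) (hF : FST) (hS : STEP)
    (hN : END) (hB : BR) (j : ℕ) (hj : 1 ≤ j) : CSTW j := by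
  obtain ⟨s, gr, lv, hgr, hlv, lv0, hlv1, hlv2⟩ := hG (j + 1) (by omega)
  obtain ⟨CE, hE⟩ := hE j s hj
  obtain ⟨CR, hR⟩ := hR s
  obtain ⟨cT, hT⟩ := hT s
  obtain ⟨cF, hF⟩ := hF s
  obtain ⟨cS, hS⟩ := chain hS s
  obtain ⟨c0, hc0⟩ : ∃ c0, c0 = cF + cS + 1 := ⟨_, rfl⟩
  obtain ⟨d, hd⟩ : ∃ d, d = 2 * (CR + 1) := ⟨_, rfl⟩
  obtain ⟨y1, hy1⟩ : ∃ y1, y1 = CE + 3 := ⟨_, rfl⟩
  obtain ⟨u0, hu0⟩ : ∃ u0, u0 = d * (cT + 1) + y1 + 5 := ⟨_, rfl⟩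
  obtain ⟨v, hv⟩ : ∃ v, v = c0 * CR := ⟨_, rfl⟩
  obtain ⟨z, hz⟩ : ∃ z, z = ee d u0 v (j + 1) + 2 := ⟨_, rfl⟩
  obtain ⟨w2, hw2⟩ : ∃ w2 : ℕ, (w2 : ℝ) = 2 ^ (j + 1) := ⟨2 ^ (j + 1), by push_cast; rfl⟩
  obtain ⟨C, hC⟩ : ∃ C, C = CE + w2 + (j + 5) + 6 * (z + 1).factorial +
    (ee d u0 v j * v + y1) + ee d u0 v j * c0 + (u0 + ee d u0 v j * v + 1) + (z + 1) + 10 := ⟨_, rfl⟩
  have lvj : lv 0 = j := by omega
  refine ⟨C, fun Y ε hY hε hε1 => ?_⟩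
  have hle : ∀ k : ℕ, k ≤ C → (k : ℝ) ≤ Y := fun k hk => le_trans (by exact_mod_cast hk) hY
  have Y10 : (10 : ℝ) ≤ Y := by exact_mod_cast hle 10 (by omega)
  have Y1 : (1 : ℝ) ≤ Y := by linarith
  have Y2 : (2 : ℝ) ≤ Y := by linarith
  have pw : ∀ {a b : ℕ}, a ≤ b → Y ^ a ≤ Y ^ b := fun h => pow_le_pow_right₀ Y1 h
  have p1 : ∀ a : ℕ, 1 ≤ Y ^ a := fun a => one_le_pow₀ Y1
  have t1 : ∀ i, 1 ≤ tn Y d u0 v i := fun i => by
    exact_mod_cast (p1 _).trans (tn_ge Y d u0 v i)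
  have t5 : ∀ i, Y ^ 5 ≤ tn Y d u0 v i := fun i => (pw (by omega)).trans (tn_ge Y d u0 v i)
  refine ⟨tn Y d u0 v j, t1 j, (tn_le Y2 d u0 v j).trans (pw (by omega)), ?_⟩
  intro q N κ _ _ θ L ty F Ψ G hlog hθ hin
  obtain ⟨ι0, _, _, S0, u, hc, hu, hθ1, hS0⟩ := hE q N gr κ Y θ L ty F Ψ G hgr (hle _ (by omega))
    ((pw (by omega)).trans hlog) hin
  have hJ0 : (0 : ℝ) ≤ (j + 1 : ℕ) := Nat.cast_nonneg _
  obtain ⟨e, he1, he2, he0, he3, he4, h3Y, hY3, he5⟩ := n1 Y10 hJ0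
    (by exact_mod_cast hle (j + 1 + 4) (by omega)) hε hε1
  have hy3 : Y ^ 3 ≤ Y ^ y1 := pw (by omega)
  have hx1 : Real.exp (-(2 * Y)) ≤ 1 := Real.exp_le_one_iff.2 (by linarith)
  have hx0 := Real.exp_pos (-(2 * Y))
  obtain ⟨b1, b2, b3, b4, b5, -⟩ := n2 hx0 hx1 (Real.exp_pos _) he0 he3 (Real.exp_pos Y)
    (small (by linarith) he2 (x := Y ^ y1) (by linarith))
  obtain ⟨-, -, -, -, -, b6⟩ := n2 hx0 hx1 (Real.exp_pos _) he0 he3 (Real.exp_pos Y)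
    (small (by linarith) he2 (he5 _ (t5 0)))
  obtain ⟨cc, hcc⟩ : ∃ cc : ℕ → ℝ, ∀ g, cc g = Y ^ (ee d u0 v (lv g) * c0) := ⟨_, fun _ => rfl⟩
  have hcc1 : ∀ (i k g : ℕ), i ≤ lv g → k ≤ c0 → (Y ^ ee d u0 v i) ^ k ≤ cc g := fun i k g h1 h2 => by
    rw [← pow_mul, hcc]
    exact pw (Nat.mul_le_mul (ee_mono d u0 v h1) h2)
  have hee : ∀ i, d + 1 ≤ ee d u0 v i := fun i => ee_mono d u0 v (Nat.zero_le i)
  have hρ : cc 0 ^ CR * Y ^ y1 ≤ Y ^ C := by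
    rw [hcc, lvj, ← pow_mul, ← pow_add, mul_assoc, ← hv]
    exact pw (by omega)
  have hN1 : 1 ≤ N := one_le_of_log (by linarith [p1 C]) hlog
  obtain ⟨ι1, _, _, S, WW, θ1, θ2, γ, hc1, hS1, hW, hW1, hRd⟩ := hR (j + 1) q gr N _ _ ι0 S0 cc (3 * Y)
    (Y ^ y1) (Y ^ y1) _ (Real.exp (-(2 * Y)) / 32) ⟨hc, by linarith, p1 _⟩
    (fun a b h => by rw [hcc, hcc]; exact pw (Nat.mul_le_mul_right _ (ee_mono d u0 v (hlv h))))
    (fun g => h3Y.trans ((pw (b := ee d u0 v 0) (by have := hee 0; omega)).trans (by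
      simpa using hcc1 0 1 g (Nat.zero_le _) (by omega))))
    (by
      rw [hcc, lvj]
      exact (pw_exp (by linarith) (hle _ (by omega))).trans (Real.exp_le_exp.2 (pw (by omega))))
    (by have := Real.add_one_le_exp (Y ^ y1); linarith) le_rfl b1 (by linarith)
    (by linarith) (by exact_mod_cast hN1) (hρ.trans hlog)
    (hS0.mono (fun _ => pw (by omega)) (fun _ => pw (by omega)) (pw (by omega)) (pw (by omega)) le_rfl)
  have hD : (Fintype.card ι1 : ℝ) ≤ Y ^ d := by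
    refine hc1.trans ((pow_le_pow_left₀ (by linarith) h3Y CR).trans ?_)
    rw [← pow_mul]; exact pw (by omega)
  have hD2 : ∀ a : ℕ, 1 ≤ a → 2 ≤ Y ^ a := fun a ha => Y2.trans (by simpa using pw ha)
  obtain ⟨cx, hK0⟩ := hI s (j + 1) q gr ι1 S (Y ^ d) (Y ^ y1) WW cc _ hS1.ok hD hW hRd
    (hT ι1 S.G WW (Y ^ d) hS1.ok.ok hW ⟨hD, hD2 _ (by omega), le_rfl⟩)
  have hB1 : 1 ≤ Real.exp Y := Real.one_le_exp (by linarith)
  have hFb : ∀ x, 0 ≤ ct N G (S.r + (S.n : ℤ) • x) ∧ ct N G (S.r + (S.n : ℤ) • x) ≤ Real.exp Y :=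
    fun x => ct_bd (by linarith) hin.G0 hin.G1 _
  have hex := exc hB (β := Real.exp (-(2 * Y)) / 32) (u := fun x => u (Fin.tail x)) (Real.exp_pos Y)
    (fun x => hu _) hin.G0 hin.G1 hin.t0 hθ1 hS1 b2
  obtain ⟨ι2, _, _, K2, hK2, h2⟩ := hF j q _ ι1 _ (tn Y d u0 v 0) (Y ^ ee d u0 v 0) (Real.exp Y)
    (2 * Real.exp Y * (Real.exp (-(2 * Y)) / 32)) e θ (fun x => ct N G (S.r + (S.n : ℤ) • x))
    (fun W => u (Fin.tail S.r + (S.n : ℤ) • W)) rfl hK0 (t1 0)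
    ⟨hD.trans (pw (by have := hee 0; omega)), hD2 _ (by have := hee 0; omega), p1 _⟩
    (fun g => hcc1 0 cF g (Nat.zero_le _) (by omega)) hFb (fun W => hu _) hin.t0 he0 (by linarith)
    (by positivity) b3 b4 hex
  have e1 := tc_up (J := j + 1) (tn Y d u0 v) 0
  simp only [Fin.val_zero, tc_zero, zero_add] at e1
  rw [e1] at hK2 h2
  have h2J : (2 : ℝ) ^ (j + 1) ≤ Y := hw2 ▸ hle w2 (by omega)
  have ha0 : 0 ≤ (1 - e) * θ := mul_nonneg (by linarith) hin.t0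
  obtain ⟨ι3, _, _, K3, hK3, h3⟩ := hS (j + 1) q _ (tn Y d u0 v) (fun i => Y ^ ee d u0 v i)
    (Real.exp Y) ((1 - e) * θ) e _ rfl (by positivity) (p1 _) t1
    (fun i => hD2 _ (by have := hee i; omega))
    (fun i => le_trans (by
      show 2 ^ (j + 1) * (Y ^ d * _) ≤ _
      rw [pow_succ' Y d, mul_assoc]
      exact mul_le_mul_of_nonneg_right h2J (by positivity)) (tn_prod Y2 d u0 v i))
    (fun i => ⟨hcc1 i cS 0 (by have := i.2; omega) (by omega),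
      fun e' h => hcc1 i cS _ (hlv1 e' i h) (by omega)⟩) hFb ha0
    b5 j le_rfl ι2 K2 hK2 (by
      refine le_trans (mul_le_mul_of_nonneg_right ?_ (mn_nn hK2)) h2
      rw [mul_pow, mul_comm]
      refine mul_le_mul_of_nonneg_right ?_ (pow_nonneg ha0 _)
      rwa [← Real.exp_nat_mul, mul_neg])
  rw [tc_top] at hK3 h3
  have eT : ∏ c ∈ range (j + 1), tn Y d u0 v c = ∏ c : Fin (j + 1), tn Y d u0 v c :=
    (Fin.prod_univ_eq_prod_range _ _).symm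
  have hTz : Y ^ 2 * (∏ c : Fin (j + 1), tn Y d u0 v c : ℕ) ≤ Y ^ z := by
    have a1 := tn_prod Y2 d u0 v (j + 1)
    rw [← Nat.cast_prod, eT] at a1
    rw [hz, pow_add, mul_comm]
    refine mul_le_mul_of_nonneg_right (le_trans (le_mul_of_one_le_left (Nat.cast_nonneg _) (p1 _)) a1)
      (by positivity)
  have hT2 : Y ^ 2 ≤ (∏ c : Fin (j + 1), tn Y d u0 v c : ℕ) := by
    have a1 := prod_le_all (tt := fun c : Fin (j + 1) => tn Y d u0 v c) (fun c => t1 c) {0}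
    rw [Finset.prod_singleton, ← Nat.cast_prod] at a1
    exact ((pw (by omega)).trans (t5 _)).trans a1
  have hco := cost hK3 (x := (Y ^ 3)⁻¹) (by positivity) (fun e' he' => by
    obtain ⟨c, hc, hc'⟩ := hlv2 e' he'
    have a0 := hW.nn (gr e')
    refine ⟨by show 0 ≤ (Y ^ d) ^ cT * (1 + WW (gr e')); positivity, c, hc, ?_⟩
    show Y ^ d * ((Y ^ d) ^ cT * (1 + WW (gr e'))) ≤ (Y ^ 3)⁻¹ * tn Y d u0 v c
    have a1 : WW (gr e') ≤ Y ^ (ee d u0 v c * v + y1) := by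
      refine (hW1 _).trans (le_of_eq ?_)
      rw [hcc, hc', ← pow_mul, ← pow_add, mul_assoc, ← hv]
    rw [le_inv_mul_iff₀ (by positivity)]
    exact (n3 Y2 a0 a1 (by rw [hu0, Nat.mul_succ]; omega)).trans (tn_ge Y d u0 v c))
  have hal : S.al * N ≤ Real.exp (Y ^ C) := hS1.ar.trans (Real.exp_le_exp.2 hρ)
  have hNe : Real.exp (Y ^ C) ≤ N := exp_le_of_log (by linarith [p1 C]) hlog
  have hN0 : (0 : ℝ) < N := by exact_mod_cast hN1
  rw [eT] at h3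
  obtain ⟨M, r0, k, m1, m2, m3, m4⟩ := out hN hK3 (N := N) (n := S.n) (t := tn Y d u0 v j) (r := S.r)
    (Z := Y ^ z) (a := (1 - ε) * θ) (co := e * (∏ c : Fin (j + 1), tn Y d u0 v c : ℕ)) hin.G0 hin.G1 hB1
    (le_of_mul_le_mul_right (a := (N : ℝ)) (by show S.al * N ≤ _; linarith) hN0) (p1 _) hS1.ok.n1
    (by
      show _ ≤ S.al * N
      have a1 := six_pw (k := z) (by linarith) (hle _ (by omega))
      have a2 := mul_le_mul_of_nonneg_left hS1.na (Real.exp_pos Y).le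
      rw [← mul_assoc, ← Real.exp_add, add_neg_cancel, Real.exp_zero, one_mul] at a2
      exact (mul_le_mul_of_nonneg_right a1 (Nat.cast_nonneg _)).trans a2)
    (fun c => tn_mono Y1 d u0 v (by have := c.2; omega))
    (mul_pos (by linarith) ((Real.exp_pos _).trans_le hθ)) (by positivity) h3
    (hco.trans (by
      rw [← mul_assoc, Nat.cast_prod]
      refine mul_le_mul_of_nonneg_right ?_ (Finset.prod_nonneg fun _ _ => Nat.cast_nonneg _)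
      rw [mul_inv_le_iff₀ (by positivity)]
      exact h2J.trans he4))
    (by
      have := num (J := ((j + 1 : ℕ) : ℝ)) (by linarith) he2 hJ0 he1 hε1 hθ
        (sum_le (tt := fun c : Fin (j + 1) => tn Y d u0 v c) (by omega) Y1 hin.qY (fun c => t1 c)
          fun c => t5 c) hT2 hTz (le_trans (by
            rw [pow_succ' Y z]
            exact mul_le_mul_of_nonneg_right (by linarith) (by positivity))
            (pw_exp (k := z + 1) (by linarith) (hle _ (by omega))))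
      simpa only [Nat.cast_add, Nat.cast_one] using this)
  exact ⟨S.n, M, r0, k, hS1.ok.n1, m1, m2.trans hal, m3, m4⟩

end

end Vale.Agent.P057T.Cw.A0
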