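import Vale.Agent.P057T.PullH56
import Vale.Agent.P057T.StV0
import Vale.Agent.P057L.Gh

/-! From a grid of vectors of blocks to the grid of one cell. -/

set_option linter.all false

open Finset
open scoped BigOperators

namespace Vale.Agent.P057T.Cw

open Vale.Agent.P057L

noncomputable section

variable {j p m t : ℕ}

/-- copies of vectors of blocks as copies of blocks -/
def spl (J t p m : ℕ) : (Fin J → Fin t → Vz (p * m)) ≃ (Fin J → Fin (t * p) → Vz m) where
  toFun W := fun i k => blk (W i (finProdFinEquiv.symm k).1) (finProdFinEquiv.symm k).2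
  invFun V := fun i τ x => V i (finProdFinEquiv (τ, (finProdFinEquiv.symm x).1))
    (finProdFinEquiv.symm x).2
  left_inv W := by
    funext i τ x
    simp only [blk, Equiv.symm_apply_apply, Prod.mk.eta, Equiv.apply_symm_apply]
  right_inv V := by
    funext i k l
    simp only [blk, Equiv.symm_apply_apply, Prod.mk.eta, Equiv.apply_symm_apply]

/-- cells of copies of blocks -/
def cel (J t p : ℕ) : (Fin J → Fin t) × (Fin J → Fin p) ≃ (Fin J → Fin (t * p)) where
  toFun x := fun i => finProdFinEquiv (x.1 i, x.2 i)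
  invFun k := (fun i => (finProdFinEquiv.symm (k i)).1, fun i => (finProdFinEquiv.symm (k i)).2)
  left_inv x := by simp only [Equiv.symm_apply_apply]
  right_inv k := by funext i; simp only [Prod.mk.eta, Equiv.apply_symm_apply]

theorem prod_cons (a0 : Fin p) (f : (Fin j → Fin p) → ℝ) :
    ∏ a : Fin (j + 1) → Fin p, (if a 0 = a0 then f (Fin.tail a) else 1) = ∏ c, f c := by
  rw [← (Fin.consEquiv fun _ : Fin (j + 1) => Fin p).prod_comp, Fintype.prod_prod_type]
  have : ∀ (x : Fin p) (y : Fin j → Fin p), (if (Fin.consEquiv fun _ : Fin (j + 1) => Fin p) (x, y) 0 = a0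
      then f (Fin.tail ((Fin.consEquiv fun _ : Fin (j + 1) => Fin p) (x, y))) else 1) =
      if x = a0 then f y else 1 := fun x y => rfl
  simp only [this]
  rw [Finset.prod_comm]
  simp

theorem cells (ht : 1 ≤ t) (a0 : Fin p) {H : ℕ} (hH : 1 ≤ H) (g : (Fin j → Fin p) → Vz m → ℝ)
    (g0 : ∀ c x, 0 ≤ g c x) {φ : ℝ} (hφ : 0 ≤ φ)
    (h : (φ ^ p ^ j) ^ t ^ (j + 1) ≤ gridA (fun _ : Fin (j + 1) => bz (p * m) H) (fun _ => t)
      fun _ y => ∏ c, g c (blk (y 0) a0 + ∑ i, blk (y i.succ) (c i))) :
    ∃ c, φ ^ (t * p) ^ (j + 1) ≤ grdV (j + 1) (t * p) H (g c) := by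
  have hp : 1 ≤ p := a0.pos
  let F : ((i : Fin (j + 1)) → Fin ((fun _ => t * p) i)) → (Fin (j + 1) → Vz m) → ℝ := fun k y =>
    if ((cel (j + 1) t p).symm k).2 0 = a0 then g (Fin.tail ((cel (j + 1) t p).symm k).2) (∑ i, y i)
    else 1
  have F0 : ∀ k y, 0 ≤ F k y := fun k y => by
    simp only [F]; split_ifs
    · exact g0 _ _
    · exact zero_le_one
  have e1 : gridA (fun _ : Fin (j + 1) => bz (p * m) H) (fun _ => t)
      (fun _ y => ∏ c, g c (blk (y 0) a0 + ∑ i, blk (y i.succ) (c i))) =
      gridA (fun _ : Fin (j + 1) => bz m H) (fun _ => t * p) F := by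
    unfold gridA
    refine expect_equiv (spl (j + 1) t p m) (fun W => ?_) fun W _ => ?_
    · simp only [Fintype.mem_piFinset, bz]
      constructor
      · intro h1 i k l
        exact h1 i _ _
      · intro h1 i τ x
        have := h1 i (finProdFinEquiv (τ, (finProdFinEquiv.symm x).1)) (finProdFinEquiv.symm x).2
        simpa only [spl, Equiv.coe_fn_mk, blk, Equiv.symm_apply_apply, Prod.mk.eta,
          Equiv.apply_symm_apply] using this
    · rw [← (cel (j + 1) t p).prod_comp, Fintype.prod_prod_type]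
      refine Finset.prod_congr rfl fun τ _ => ?_
      refine (prod_cons a0 _).symm.trans (Finset.prod_congr rfl fun a _ => ?_)
      simp only [F, Equiv.symm_apply_apply]
      split_ifs with h1
      · congr 1
        rw [Fin.sum_univ_succ]
        simp only [spl, cel, Equiv.coe_fn_mk, Equiv.symm_apply_apply, h1, Fin.tail]
      · rfl
  rw [e1] at h
  have hol := gh (Vz m) (j + 1) (fun _ => bz m H) (fun _ => t * p) F F0
  obtain ⟨c, -, hc⟩ := exists_max_image univ (fun c => grdV (j + 1) (t * p) H (g c))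
    ⟨fun _ => a0, mem_univ _⟩
  have n0 : ∀ c, 0 ≤ grdV (j + 1) (t * p) H (g c) := fun c =>
    expect_nonneg fun W _ => prod_nonneg fun _ _ => g0 _ _
  have e2 : ∏ k, gridA (fun _ : Fin (j + 1) => bz m H) (fun _ => t * p) (fun _ => F k) =
      (∏ c, grdV (j + 1) (t * p) H (g c)) ^ t ^ (j + 1) := by
    rw [← (cel (j + 1) t p).prod_comp, Fintype.prod_prod_type]
    have e3 : ∀ τ : Fin (j + 1) → Fin t, ∏ a : Fin (j + 1) → Fin p,
        gridA (fun _ : Fin (j + 1) => bz m H) (fun _ => t * p) (fun _ => F (cel (j + 1) t p (τ, a))) =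
        ∏ c, grdV (j + 1) (t * p) H (g c) := by
      intro τ
      refine Eq.trans (Finset.prod_congr rfl fun a _ => ?_) (prod_cons a0 _)
      simp only [F, Equiv.symm_apply_apply]
      split_ifs with h1
      · rfl
      · unfold gridA
        simp only [prod_const_one]
        refine expect_const ?_ 1
        exact Fintype.piFinset_nonempty.2 fun _ => Fintype.piFinset_nonempty.2 fun _ => SV.bz_ne hH
    simp only [e3]
    simp
  refine ⟨c, ?_⟩
  have h1 : (∏ c, grdV (j + 1) (t * p) H (g c)) ≤ grdV (j + 1) (t * p) H (g c) ^ p ^ j := by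
    refine (prod_le_prod (fun c _ => n0 c) hc).trans (le_of_eq ?_)
    simp
  have h2 := (pow_le_pow_left₀ (by positivity) h (∏ _ : Fin (j + 1), t * p)).trans
    (hol.trans (e2.le.trans (pow_le_pow_left₀ (prod_nonneg fun c _ => n0 c) h1 _)))
  rw [prod_const, card_univ, Fintype.card_fin, ← pow_mul, ← pow_mul, ← pow_mul, ← mul_assoc,
    mul_comm _ ((t * p) ^ (j + 1)), pow_mul] at h2
  exact le_of_pow_le_pow_left₀ (by positivity) (n0 c) h2

end

end Vale.Agent.P057T.Cw
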