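import Vale.Agent.P057T.Cw.Ch0H79

/-! Doubling one colour in the tower of copies. -/

set_option linter.all false

open MvPolynomial Finset Matrix
open scoped Real
open Vale.Agent.P267.H775 Vale.Agent.P057T.Poi

namespace Vale.Agent.P057T.H79

open Vale.Agent.P057T.Eq Vale.Agent.P057T.Eq.Br Vale.Agent.P057T.Cp

noncomputable section

variable {ι Γ K : Type} [Fintype ι] [DecidableEq ι] [Fintype Γ] [DecidableEq Γ]
  [Fintype K] [DecidableEq K] [Inhabited K] {G : GT ι} {T : AT ι} {col : ι → Finset Γ}

def CA (K : Type) [Fintype K] [DecidableEq K] [Inhabited K] (A : Finset Γ) : Finset (Γ → K) :=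
  univ.filter fun f => ∀ c, c ∉ A → f c = default

def UA (col : ι → Finset Γ) (K : Type) [Fintype K] [DecidableEq K] [Inhabited K] (A : Finset Γ) :
    Finset (CV col K) := univ.filter fun x => x.1.2 ∈ CA K A

def WI (col : ι → Finset Γ) (K : Type) [Fintype K] [DecidableEq K] [Inhabited K] (i : Γ) :
    Finset (CV col K) := univ.filter fun x => i ∉ col x.1.1

def HA (col : ι → Finset Γ) (H : (ι → ℤ) → ℝ) (A : Finset Γ) (z : CV col K → ℤ) : ℝ :=
  ∏ f ∈ CA K A, H (pt col f z)

theorem mem_CA {A : Finset Γ} {f : Γ → K} : f ∈ CA K A ↔ ∀ c, c ∉ A → f c = default := by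
  simp [CA]

theorem mem_UA {A : Finset Γ} {x : CV col K} : x ∈ UA col K A ↔ ∀ c, c ∉ A → x.1.2 c = default := by
  simp [UA, mem_CA]

theorem mem_WI {i : Γ} {x : CV col K} : x ∈ WI col K i ↔ i ∉ col x.1.1 := by simp [WI]

theorem nrm (x : CV col K) {c : Γ} (h : c ∉ col x.1.1) : x.1.2 c = default := by
  have := congrFun x.2 c
  rw [rs, if_neg h] at this
  exact this.symm

theorem vx_mem {A : Finset Γ} {f : Γ → K} (hf : f ∈ CA K A) (a : ι) : vx col f a ∈ UA col K A :=
  mem_UA.2 fun c hc => by
    show rs (col a) f c = default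
    unfold rs
    split_ifs
    · exact mem_CA.1 hf c hc
    · rfl

theorem cl_UA (hU : T.U = univ) (A : Finset Γ) : Cl T col (UA col K A) := fun x hx =>
  ⟨hU ▸ mem_univ _, fun b _ _ => vx_mem (mem_CA.2 (mem_UA.1 hx)) b⟩

theorem inter_eq (A : Finset Γ) (i : Γ) :
    UA col K (insert i A) ∩ WI col K i = UA col K A ∩ WI col K i := by
  ext x
  simp only [mem_inter, mem_UA, mem_WI]
  refine and_congr_left fun hi => ⟨fun h c hc => ?_, fun h c hc => h c fun h1 => hc (mem_insert_of_mem h1)⟩
  by_cases e : c = i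
  · exact e ▸ nrm x hi
  · exact h c fun h1 => (mem_insert.1 h1).elim e hc

def tau (i : Γ) (k : K) (x : CV col K) : CV col K := vx col (Function.update x.1.2 i k) x.1.1

theorem tau_fst (i : Γ) (k : K) (x : CV col K) : (tau i k x).1.1 = x.1.1 := rfl

theorem tau_snd {i : Γ} (k : K) {x : CV col K} (h : i ∈ col x.1.1) :
    (tau i k x).1.2 = Function.update x.1.2 i k := by
  funext c
  show rs (col x.1.1) (Function.update x.1.2 i k) c = _
  unfold rs
  split_ifs with h1
  · rfl
  · rw [Function.update_of_ne (fun e : c = i => h1 (e ▸ h)), nrm x h1]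

theorem tau_tau {i : Γ} (k k' : K) {x : CV col K} (h : i ∈ col x.1.1) :
    tau i k (tau i k' x) = tau i k x := by
  unfold tau
  rw [show (vx col (Function.update x.1.2 i k') x.1.1).1.2 = Function.update x.1.2 i k' from
    tau_snd k' h, Function.update_idem]
  rfl

theorem tau_self (i : Γ) (x : CV col K) : tau i (x.1.2 i) x = x := by
  unfold tau
  rw [Function.update_eq_self, Cpa.vx_self]

theorem upd_mem {A : Finset Γ} {i : Γ} {f : Γ → K} (hf : f ∈ CA K A) (k : K) :
    Function.update f i k ∈ CA K (insert i A) := mem_CA.2 fun c hc => by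
  rw [Function.update_of_ne (fun e : c = i => hc (e ▸ mem_insert_self _ _))]
  exact mem_CA.1 hf c fun h => hc (mem_insert_of_mem h)

theorem upd_mem' {A : Finset Γ} {i : Γ} {f : Γ → K} (hf : f ∈ CA K (insert i A)) :
    Function.update f i default ∈ CA K A := mem_CA.2 fun c hc => by
  by_cases e : c = i
  · rw [e, Function.update_self]
  · rw [Function.update_of_ne e]
    exact mem_CA.1 hf c fun h => (mem_insert.1 h).elim e hc

abbrev SA (col : ι → Finset Γ) (K : Type) [Fintype K] [DecidableEq K] [Inhabited K]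
    (A : Finset Γ) (i : Γ) : Finset (CV col K) := UA col K A \ WI col K i

theorem mem_SA {A : Finset Γ} {i : Γ} {x : CV col K} :
    x ∈ SA col K A i ↔ x.1.2 ∈ CA K A ∧ i ∈ col x.1.1 := by
  simp [SA, mem_UA, mem_WI, mem_CA]

section step

variable {A : Finset Γ} {i : Γ}

theorem tau_mem {v : CV col K} (hv : v ∈ SA col K A i) (k : K) :
    tau i k v ∈ SA col K (insert i A) i := by
  obtain ⟨h1, h2⟩ := mem_SA.1 hv
  exact mem_SA.2 ⟨by rw [tau_snd k h2]; exact upd_mem h1 k, h2⟩

theorem tau_mem' {x : CV col K} (hx : x ∈ SA col K (insert i A) i) :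
    tau i default x ∈ SA col K A i := by
  obtain ⟨h1, h2⟩ := mem_SA.1 hx
  exact mem_SA.2 ⟨by rw [tau_snd _ h2]; exact upd_mem' h1, h2⟩

theorem tau_idx {v : CV col K} (hv : i ∈ col v.1.1) (k : K) : (tau i k v).1.2 i = k := by
  rw [tau_snd k hv, Function.update_self]

theorem tau_back (hi : i ∉ A) {v : CV col K} (hv : v ∈ SA col K A i) (k : K) :
    tau i default (tau i k v) = v := by
  obtain ⟨h1, h2⟩ := mem_SA.1 hv
  rw [tau_tau _ _ h2, ← mem_CA.1 h1 i hi, tau_self]

theorem tau_back' {x : CV col K} (hx : i ∈ col x.1.1) :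
    tau i (x.1.2 i) (tau i default x) = x := by
  rw [tau_tau _ _ hx, tau_self]

theorem prod_tau (hi : i ∉ A) (F : CV col K → ℝ) :
    ∏ x ∈ SA col K (insert i A) i, F x = ∏ k : K, ∏ v ∈ SA col K A i, F (tau i k v) := by
  rw [← prod_product' univ (SA col K A i) fun k v => F (tau i k v)]
  refine (prod_nbij' (fun p : K × CV col K => tau i p.1 p.2)
    (fun x : CV col K => ((x.1.2 i, tau i default x) : K × CV col K))
    (fun p hp => tau_mem (mem_product.1 hp).2 _) (fun x hx => mem_product.2 ⟨mem_univ _, tau_mem' hx⟩)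
    (fun p hp => ?_) (fun x hx => tau_back' (mem_SA.1 hx).2) (fun p _ => rfl)).symm
  have h := (mem_product.1 hp).2
  exact Prod.ext (tau_idx (mem_SA.1 h).2 _) (tau_back hi h _)

theorem prod_upd (hi : i ∉ A) (F : (Γ → K) → ℝ) :
    ∏ f ∈ CA K (insert i A), F f = ∏ k : K, ∏ f ∈ CA K A, F (Function.update f i k) := by
  rw [← prod_product' univ (CA K A) fun k f => F (Function.update f i k)]
  refine (prod_nbij' (fun p : K × (Γ → K) => Function.update p.2 i p.1)
    (fun f : Γ → K => ((f i, Function.update f i default) : K × (Γ → K)))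
    (fun p hp => upd_mem (mem_product.1 hp).2 _) (fun x hx => mem_product.2 ⟨mem_univ _, upd_mem' hx⟩)
    (fun p hp => ?_) (fun x hx => ?_) (fun p _ => rfl)).symm
  · have h := (mem_product.1 hp).2
    refine Prod.ext (Function.update_self ..) ?_
    show Function.update (Function.update p.2 i p.1) i default = p.2
    rw [Function.update_idem, ← mem_CA.1 h i hi, Function.update_eq_self]
  · show Function.update (Function.update x i default) i (x i) = x
    rw [Function.update_idem, Function.update_eq_self]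

/-- the fibre of the larger tower is a power of the fibre of the smaller one -/
def EL (hi : i ∉ A) : (K → Lat (SA col K A i)) ≃ Lat (SA col K (insert i A) i) where
  toFun w := ⟨fun x => if x ∈ SA col K (insert i A) i then (w (x.1.2 i)).1 (tau i default x) else 0,
    fun _ h => if_neg h⟩
  invFun x := fun k => ⟨fun v => if v ∈ SA col K A i then x.1 (tau i k v) else 0, fun _ h => if_neg h⟩
  left_inv w := by
    funext k
    ext v
    by_cases h : v ∈ SA col K A i
    · refine (if_pos h).trans ((if_pos (tau_mem h k)).trans ?_)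
      rw [tau_idx (mem_SA.1 h).2, tau_back hi h]
    · exact (if_neg h).trans ((w k).2 v h).symm
  right_inv x := by
    ext v
    by_cases h : v ∈ SA col K (insert i A) i
    · refine (if_pos h).trans ((if_pos (tau_mem' h)).trans ?_)
      rw [tau_back' (mem_SA.1 h).2]
    · exact (if_neg h).trans (x.2 v h).symm

theorem key (hi : i ∉ A) {y : CV col K → ℤ} (hy : ∀ x, i ∈ col x.1.1 → y x = 0)
    (w : K → Lat (SA col K A i)) {f : Γ → K} (hf : f ∈ CA K A) (k : K) :
    pt col (Function.update f i k) (y + (EL hi w).1) = pt col f (y + (w k).1) := by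
  funext b
  show y _ + (EL hi w).1 _ = y _ + (w k).1 _
  by_cases h : i ∈ col b
  · have hv : vx col f b ∈ SA col K A i := mem_SA.2 ⟨mem_CA.2 (mem_UA.1 (vx_mem hf b)), h⟩
    have e : vx col (Function.update f i k) b = tau i k (vx col f b) := by
      refine Subtype.ext (Prod.ext rfl ?_)
      rw [tau_snd k (x := vx col f b) h]
      funext c
      show rs (col b) (Function.update f i k) c = Function.update (rs (col b) f) i k c
      by_cases e : c = i
      · subst e
        rw [Function.update_self, rs, if_pos h, Function.update_self]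
      · rw [Function.update_of_ne e, rs, rs, Function.update_of_ne e]
    rw [hy (vx col (Function.update f i k) b) h, hy (vx col f b) h, e]
    congr 1
    refine (if_pos (tau_mem hv k)).trans ?_
    rw [tau_idx (mem_SA.1 hv).2, tau_back hi hv]
  · have e : vx col (Function.update f i k) b = vx col f b := by
      refine Subtype.ext (Prod.ext rfl ?_)
      funext c
      show rs (col b) (Function.update f i k) c = rs (col b) f c
      unfold rs
      split_ifs with h1
      · rw [Function.update_of_ne (fun e : c = i => h (e ▸ h1))]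
      · rfl
    rw [e, (EL hi w).2 _ fun h1 => h (mem_SA.1 h1).2, (w k).2 _ fun h1 => h (mem_SA.1 h1).2]

def ee (G : GT ι) (T : AT ι) (a : ι) (p : ι → ℤ) : ℝ :=
  Real.exp (-π * (T.sg a * eval (cz p) (G.ch T a)) ^ 2)

theorem nu_cp (hc : Col G col) (ht : ColT T col) (hU : T.U = univ) (S : Finset (CV col K))
    (z : CV col K → ℤ) :
    (cp G col K).nu (cpT T col S) z = ∏ x ∈ S, ee G T x.1.1 (pt col x.1.2 z) := by
  unfold GT.nu ee
  rw [mul_sum, Real.exp_sum]
  refine prod_congr rfl fun x _ => ?_
  have h := Cpa.ch hc ht S x.1.2 x.1.1 (hU ▸ mem_univ _)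
  rw [Cpa.vx_self] at h
  rw [h, Cpa.ev_ren]
  rfl

theorem fs_pow (hi : i ∉ A) (hc : Col G col) (ht : ColT T col) (hU : T.U = univ)
    (H : (ι → ℤ) → ℝ) (hH : ∀ z, 0 ≤ H z) {y : CV col K → ℤ} (hy : ∀ x, i ∈ col x.1.1 → y x = 0)
    (hs : Summable fun x : Lat (SA col K A i) =>
      (cp G col K).nu (cpT T col (SA col K A i)) (y + x.1) * HA col H A (y + x.1)) :
    Fs (cp G col K) (cpT T col (UA col K (insert i A))) (WI col K i) (HA col H (insert i A)) y =
      Fs (cp G col K) (cpT T col (UA col K A)) (WI col K i) (HA col H A) y ^ Fintype.card K := by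
  have h1 := hs_pi (K := K) (fun x : Lat (SA col K A i) =>
      (cp G col K).nu (cpT T col (SA col K A i)) (y + x.1) * HA col H A (y + x.1))
    (fun x => mul_nonneg (nu_pos _ _).le (prod_nonneg fun f _ => hH _)) hs
  refine Eq.trans ?_ h1.tsum_eq
  show ∑' x : Lat (SA col K (insert i A) i),
    (cp G col K).nu (cpT T col (SA col K (insert i A) i)) (y + x.1) *
      HA col H (insert i A) (y + x.1) = _
  rw [← (EL hi).tsum_eq]
  refine tsum_congr fun w => ?_
  rw [prod_mul_distrib, nu_cp hc ht hU, prod_tau hi, HA, prod_upd hi]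
  congr 1
  · refine prod_congr rfl fun k _ => ?_
    rw [nu_cp hc ht hU]
    refine prod_congr rfl fun v hv => ?_
    obtain ⟨h1, h2⟩ := mem_SA.1 hv
    rw [tau_fst, tau_snd k h2, key hi hy w h1]
  · refine prod_congr rfl fun k _ => prod_congr rfl fun f hf => ?_
    rw [key hi hy w hf]

def phi (hi : i ∉ A) : SA col K A i × K ≃ SA col K (insert i A) i where
  toFun p := ⟨tau i p.2 p.1.1, tau_mem p.1.2 _⟩
  invFun x := (⟨tau i default x.1, tau_mem' x.2⟩, x.1.1.2 i)
  left_inv p := Prod.ext (Subtype.ext (tau_back hi p.1.2 _)) (tau_idx (mem_SA.1 p.1.2).2 _)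
  right_inv x := Subtype.ext (tau_back' (mem_SA.1 x.2).2)

theorem mn_pow (hi : i ∉ A) (σ : ι → ℝ) :
    (cp G col K).mn (fun x => σ x.1.1) (SA col K (insert i A) i) =
      (cp G col K).mn (fun x => σ x.1.1) (SA col K A i) ^ Fintype.card K := by
  unfold GT.mn GT.dv
  rw [mul_pow, prod_tau hi, ← det_submatrix_equiv_self (phi hi)]
  congr 1
  · have e : (((cp G col K).B.submatrix (Subtype.val : SA col K (insert i A) i → CV col K)
        Subtype.val).submatrix (phi hi) (phi hi)) = blockDiagonal fun _ : K =>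
        (cp G col K).B.submatrix (Subtype.val : SA col K A i → CV col K) Subtype.val := by
      ext ⟨v, k⟩ ⟨v', k'⟩
      obtain ⟨h1, h2⟩ := mem_SA.1 v.2
      obtain ⟨h3, h4⟩ := mem_SA.1 v'.2
      rw [blockDiagonal_apply]
      show (if (tau i k v.1).1.2 = (tau i k' v'.1).1.2 then G.B v.1.1.1 v'.1.1.1 else 0) =
        if k = k' then (if v.1.1.2 = v'.1.1.2 then G.B v.1.1.1 v'.1.1.1 else 0) else 0
      rw [tau_snd k h2, tau_snd k' h4]
      by_cases e1 : k = k'
      · subst e1
        rw [if_pos rfl]
        by_cases e2 : v.1.1.2 = v'.1.1.2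
        · rw [if_pos e2, if_pos (by rw [e2])]
        · rw [if_neg e2, if_neg fun h => e2 ?_]
          funext c
          by_cases e3 : c = i
          · rw [e3, mem_CA.1 h1 i hi, mem_CA.1 h3 i hi]
          · have := congrFun h c
            rwa [Function.update_of_ne e3, Function.update_of_ne e3] at this
      · rw [if_neg e1, if_neg fun h => e1 ?_]
        have := congrFun h i
        rwa [Function.update_self, Function.update_self] at this
    rw [e, det_blockDiagonal, prod_const, card_univ, abs_pow]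
  · simp only [tau_fst]
    rw [prod_const, card_univ]

end step

end

end Vale.Agent.P057T.H79
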