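import Vale.Agent.P057T.Cw.Defs2

/-! Row GR: the order of the colours. -/

open Finset

namespace Vale.Agent.P057T.Cw

namespace GrP

variable {J : ℕ}

def code (e : Finset (Fin J)) : ℕ := ∑ k ∈ e.map Fin.valEmbedding, 2 ^ k

def ms (e : Finset (Fin J)) : ℕ := eᶜ.sup fun c => (c : ℕ)

theorem code_lt (e : Finset (Fin J)) : code e < 2 ^ J :=
  Nat.geomSum_lt le_rfl fun k hk => by
    obtain ⟨c, -, rfl⟩ := mem_map.1 hk
    exact c.2

theorem code_inj {e e' : Finset (Fin J)} (h : code e = code e') : e = e' :=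
  map_injective _ (Finset.geomSum_injective le_rfl h)

theorem code_mono {e e' : Finset (Fin J)} (h : e ⊂ e') : code e < code e' := by
  obtain ⟨k, hk, hk'⟩ := exists_of_ssubset (map_ssubset_map (f := Fin.valEmbedding).2 h)
  exact sum_lt_sum_of_subset (map_subset_map.2 h.1) hk hk' (by positivity) fun _ _ _ => by positivity

theorem ms_le (e : Finset (Fin J)) : ms e ≤ J - 1 :=
  Finset.sup_le fun c _ => Nat.le_sub_one_of_lt c.2

def gr (e : Finset (Fin J)) : ℕ := 1 + ((J - 1 - ms e) * 2 ^ J + code e)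

theorem lv_gr (e : Finset (Fin J)) : J - 1 - (gr e - 1) / 2 ^ J = ms e := by
  have h := ms_le e
  rw [gr, Nat.add_sub_cancel_left, mul_comm, Nat.mul_add_div (by positivity),
    Nat.div_eq_of_lt (code_lt e)]
  omega

end GrP

open GrP

theorem gr0 : GR := by
  intro J hJ
  refine ⟨J * 2 ^ J + J + 2, gr, fun g => J - 1 - (g - 1) / 2 ^ J,
    ⟨fun e e' h => code_inj ?_, fun e => Nat.le_add_right _ _, fun e => ?_, fun e e' h _ => ?_,
      by omega⟩,
    fun g g' h => Nat.sub_le_sub_left (Nat.div_le_div_right (Nat.sub_le_sub_right h 1)) _,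
    by simp; omega, fun e c hc => ?_, fun e he => ?_⟩
  · have := congrArg (· % 2 ^ J) (Nat.add_left_cancel h)
    simpa [Nat.mul_add_mod', Nat.mod_eq_of_lt (code_lt _)] using this
  · have h1 := code_lt e
    have h2 : (J - 1 - ms e) * 2 ^ J + 2 ^ J ≤ J * 2 ^ J := by
      rw [← Nat.succ_mul]
      exact Nat.mul_le_mul_right _ (by omega)
    rw [gr]
    omega
  · have h1 := code_mono h
    have h2 : ms e' ≤ ms e := sup_mono (compl_subset_compl.2 h.1)
    have h3 : (J - 1 - ms e) * 2 ^ J ≤ (J - 1 - ms e') * 2 ^ J :=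
      Nat.mul_le_mul_right _ (by omega)
    rw [gr, gr]
    omega
  · exact (le_sup (f := fun c : Fin J => (c : ℕ)) (mem_compl.2 hc)).trans (lv_gr e).ge
  · obtain ⟨c, hc, h⟩ := exists_mem_eq_sup eᶜ (nonempty_iff_ne_empty.2 fun h =>
      he ((compl_eq_empty_iff e).1 h)) fun c : Fin J => (c : ℕ)
    exact ⟨c, mem_compl.1 hc, (lv_gr e).trans h⟩

end Vale.Agent.P057T.Cw
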