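import Vale.Agent.P057T.Cw.Defs
import Vale.Agent.P057T.Eq.Gw

/-! Widths from the potentials, and the tail of the weight. -/

set_option linter.all false

open MvPolynomial Finset
open scoped Real

namespace Vale.Agent.P057T.Cw

open Vale.Agent.P057T.Eq Vale.Agent.P057L Vale.Agent.P057T.Cp
open Vale.Agent.P057T.Rg (gp tk lo at1 dv_nonneg)

noncomputable section

theorem wd_of_ph (hF : Rg.PHI) {s : ℕ} {ι : Type} [Fintype ι] [DecidableEq ι] {G : GT ι}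
    {θ W : ℕ → ℝ} {P x : ℝ} (hG : G.Ok s) (hP : Sz ι P 1)
    (hph : ∀ g, tk G (Lat (gp G g)) ≤ Real.exp (θ g) * G.dv (gp G g)) (hW : Antitone W)
    (h0 : ∀ g, 0 ≤ W g ∧ θ g ≤ W g) (hx : P + 5 + P ^ 2 ≤ x) : G.Wd fun g => W g + x := by
  have P2 := hP.P2
  have c0 : (0 : ℝ) ≤ Fintype.card ι := Nat.cast_nonneg _
  refine Wb.wd_of_wf hG (WW := fun g => W g + Fintype.card ι + 4)
    (fun a b hab => by have := hW hab; dsimp only; linarith)
    (fun g k hk hg => ?_) (fun a b hab => add_le_add_left (hW hab) x)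
    (fun g => by nlinarith [(h0 g).1]) fun g => by
      nlinarith [pow_le_pow_left₀ c0 hP.cd 2, hP.cd]
  obtain ⟨a, -, ha⟩ := hF s ι G (gp G g) (θ g) k hG (fun a c h1 h2 => by
    by_contra h3
    exact h1 (mem_filter.2 ⟨mem_univ _, (hG.blk a c (Or.inl h3)).1.trans (mem_filter.1 h2).2⟩))
    (hph g) hk fun a ha => by
      by_contra h3
      exact ha (mem_filter.2 ⟨mem_univ _, hg a h3⟩)
  exact ⟨a, le_trans (Real.exp_le_exp.2 (by linarith [(h0 g).2])) ha⟩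

theorem tailw (hB : BR) (hF : Rg.PHI) : TAILW := by
  refine fun s => ⟨10, fun J q gr ι _ _ S θ P h hP hph => ?_⟩
  have P2 := hP.P2
  have hG := h.ok
  have p4 : P + 5 + P ^ 2 ≤ P ^ 4 := by nlinarith [mul_self_nonneg (P ^ 2 - 2), sq_nonneg (P - 2)]
  have p1 : (1 : ℝ) ≤ P := by linarith
  refine ⟨fun W hW h0 => wd_of_ph hF hG hP hph hW h0
    (p4.trans (pow_le_pow_right₀ p1 (by norm_num))), fun Ω Z Ω0 hθ => ?_⟩
  have hW := wd_of_ph hF hG hP hph (W := fun _ => Ω) antitone_const (fun g => ⟨Ω0, hθ g⟩) p4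
  have a0 := (hB s J q gr ι S h).1 P p1
  have sg : ∀ a, P⁻¹ ≤ (S.AT.sc (1 / 2)).sg a ∧ (S.AT.sc (1 / 2)).sg a ≤ P := fun a => by
    show P⁻¹ ≤ 1 / 2 * 1 ∧ 1 / 2 * 1 ≤ P
    refine ⟨?_, by linarith⟩
    rw [mul_one, one_div]
    exact inv_anti₀ (by norm_num) P2
  have a1 : S.G.AOk (S.AT.sc (1 / 2)) P :=
    ⟨a0.bk, a0.qv, a0.pv, a0.pd, a0.pl, fun a => (sg a).1, fun a => (sg a).2⟩
  obtain ⟨s1, s2⟩ := Br.summ_le hG (by linarith) a1
  have s3 := s2.trans (Br.th_bd hG hW hP sg a1.bk (g := 0) (fun _ _ => Nat.zero_le _) 0)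
  let e : Lat (univ : Finset ι) ≃ (ι → ℤ) :=
    Equiv.subtypeUnivEquiv (p := fun z => z ∈ Lat (univ : Finset ι))
      fun z a ha => absurd (mem_univ a) ha
  have s4 : Summable fun z : ι → ℤ => S.G.nu (S.AT.sc (1 / 2)) z := e.summable_iff.1 s1
  have s5 : ∑' z : ι → ℤ, S.G.nu (S.AT.sc (1 / 2)) z = S.G.ms (S.AT.sc (1 / 2)) :=
    (e.tsum_eq _).symm
  have b1 : ∀ z, (if Z ≤ S.sq z then S.wt z else 0) ≤
      Real.exp (-Z) * S.G.nu (S.AT.sc (1 / 2)) z := fun z => by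
    split_ifs with hz
    · have q0 : 0 ≤ S.sq z := sum_nonneg fun _ _ => sq_nonneg _
      have e1 : ∑ a ∈ (S.AT.sc (1 / 2)).U, ((S.AT.sc (1 / 2)).sg a *
          eval (cz z) (S.G.ch (S.AT.sc (1 / 2)) a)) ^ 2 = S.sq z / 4 := by
        rw [St.sq, sum_div]
        refine sum_congr rfl fun a _ => ?_
        show (1 / 2 * 1 * eval (cz z) (S.ch a)) ^ 2 = _
        ring
      rw [GT.nu, e1, ← Real.exp_add, St.wt]
      refine Real.exp_le_exp.2 ?_
      nlinarith [Real.pi_gt_three]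
    · exact mul_nonneg (Real.exp_pos _).le (Br.nu_pos _ _).le
  have b2 := Summable.tsum_le_tsum b1 ((s4.mul_left _).of_nonneg_of_le (fun z => by
    split_ifs; exacts [(Real.exp_pos _).le, le_rfl]) b1) (s4.mul_left _)
  rw [tsum_mul_left, s5] at b2
  refine b2.trans ((mul_le_mul_of_nonneg_left s3 (Real.exp_pos _).le).trans ?_)
  have m1 : S.G.mn (S.AT.sc (1 / 2)).sg (S.AT.sc (1 / 2)).U ≤ Real.exp P * S.G.dv univ := by
    show S.G.dv univ * ∏ a : ι, ((1 : ℝ) / 2 * 1)⁻¹ ≤ _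
    rw [mul_comm, prod_const, card_univ]
    refine mul_le_mul_of_nonneg_right ?_ (dv_nonneg _ _)
    refine le_trans ?_ (Real.exp_le_exp.2 hP.cd)
    rw [← mul_one (Fintype.card ι : ℝ), Real.exp_nat_mul]
    exact pow_le_pow_left₀ (by norm_num) (by linarith [Real.add_one_le_exp 1]) _
  refine (mul_le_mul_of_nonneg_left (mul_le_mul_of_nonneg_left m1 (Real.exp_pos _).le)
    (Real.exp_pos _).le).trans ?_
  rw [← mul_assoc, ← mul_assoc, ← Real.exp_add, ← Real.exp_add]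
  refine mul_le_mul_of_nonneg_right (Real.exp_le_exp.2 ?_) (dv_nonneg _ _)
  have h1 : P ^ 4 ≤ P ^ 8 := pow_le_pow_right₀ p1 (by norm_num)
  have h2 : P ≤ P ^ 8 := le_self_pow₀ p1 (by norm_num)
  have h3 : 4 * P ^ 8 ≤ P ^ 10 := by
    rw [show P ^ 10 = P ^ 2 * P ^ 8 by ring]
    exact mul_le_mul_of_nonneg_right (by nlinarith) (by positivity)
  have h4 : P ^ 4 * (1 + (Ω + P ^ 4)) = P ^ 4 + P ^ 4 * Ω + P ^ 8 := by ring
  have h5 := mul_le_mul_of_nonneg_right (h1.trans (by linarith : P ^ 8 ≤ P ^ 10)) Ω0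
  show -Z + P ^ 4 * (1 + (Ω + P ^ 4)) + P ≤ _
  nlinarith

end

end Vale.Agent.P057T.Cw
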