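import Vale.Agent.P057T.Cw.Add
import Vale.Agent.P057T.Cw.Br
import Vale.Agent.P057T.Cw.Cpd
import Vale.Agent.P057T.Cw.Cps
import Vale.Agent.P057T.Cw.Dem1
import Vale.Agent.P057T.Cw.Emb1
import Vale.Agent.P057T.Cw.End
import Vale.Agent.P057T.Cw.Ent2
import Vale.Agent.P057T.Cw.Fsb
import Vale.Agent.P057T.Cw.Fst
import Vale.Agent.P057T.Cw.Gr
import Vale.Agent.P057T.Cw.Hrm
import Vale.Agent.P057T.Cw.Init
import Vale.Agent.P057T.Cw.Pert
import Vale.Agent.P057T.Cw.RaH6
import Vale.Agent.P057T.Cw.Rb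
import Vale.Agent.P057T.Cw.Reco
import Vale.Agent.P057T.Cw.Reg
import Vale.Agent.P057T.Cw.Rel
import Vale.Agent.P057T.Cw.Roto
import Vale.Agent.P057T.Cw.Shear
import Vale.Agent.P057T.Cw.Shr
import Vale.Agent.P057T.Cw.Sli
import Vale.Agent.P057T.Cw.Step
import Vale.Agent.P057T.Cw.Subm
import Vale.Agent.P057T.Cw.Tailw
import Vale.Agent.P057T.Cw.Tb0
import Vale.Agent.P057T.Cw.Twr1
import Vale.Agent.P057T.Rg.All
import Vale.Agent.P057T.Eq.All
import Vale.Agent.P057T.Cp.Dbl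
import Vale.Agent.P057T.Cp.Fibr
import Vale.Agent.P057T.Cp.Fub
import Vale.Agent.P057T.Cp.Mono
import Vale.Agent.P057T.Cp.Pull

/-! Closed forms of the rows. -/

namespace Vale.Agent.P057T.Cw.Clo

open Vale.Agent.P057T.Eq Vale.Agent.P057T.Cp

theorem detc : DET := Eq.All.detc
theorem msc : MS := Cp.ms detc Eq.All.masss
theorem fubc : FUB := Cp.fub detc summ
theorem pullc : PULL := Cp.pull bd0
theorem cprc : CPR := Cp.cpr pullc Cp.cpa
theorem dblc : DBL := Cp.dbl Cp.cpa (Cp.H97.cpm detc Cp.cpa) fubc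
theorem fibrc : FIBR := Cp.fibr Cp.mono Cp.cpa cprc msc fubc dblc
theorem addc : ADD1 := add br0
theorem tailwc : TAILW := tailw br0 Rg.phi
theorem twrc : TWR := twr1 addc
theorem embc : EMB2 := emb1 ent2 twrc addc tailwc br0
theorem relc : REL := rel bd0 br0 Rg.uni reco0 roto0 Rg.phi
theorem slic : SLI1 := sli br0 Rg.H29.dvp
theorem demc : DEM := dem1 addc (prt br0 tailwc) slic
theorem rac : RA :=
  RaH6.ra1 relc (shr br0 Rg.All.cellc Cp.rca) (pert br0 tailwc) (dil br0) (shear Rg.H29.dvp)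
theorem rbc : RB := rb Rg.phi roto0 demc
theorem regc : REG := reg (hrm reco0) rac rbc tailwc
theorem cpdc : CPD := cpd pullc Cp.cpa
theorem cpsc : CPS := cps dblc cpdc
theorem submc : SUBM := subm msc
theorem stepc : STEP := step cpsc submc fubc dblc
theorem fstc : FST := fst cpsc fibrc msc fubc dblc
theorem endc : END := fin fsb0 detc
theorem initc : INIT := init br0
theorem tbc : TB0 := tb00
theorem grc : GR := gr0

end Vale.Agent.P057T.Cw.Clo
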