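import Vale.Agent.P057T.Rg.Defs
import Vale.Agent.P057T.Cfg.Cp
import Vale.Agent.P057T.Gkh.Defs

/-!
Removal of typed faces. Coloured towers over the entries of `J` classes (group `0` = entries, one
group for each colour), their regularisation, the chain of copies. All rows are `Prop`s.
-/

open MvPolynomial Finset
open scoped Real BigOperators

namespace Vale.Agent.P057T.Cw

open Vale.Agent.P057T.Eq Vale.Agent.P057L Vale.Agent.P057T.Cp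
open Vale.Agent.P057T.Rg (gp tk lo at1)
open Vale.Agent.P057T.Gkh (Cd Frm Twr Cel)

set_option linter.unusedSectionVars false

noncomputable section

/-- indicator of a colour -/
def ic {J : ℕ} (e : Finset (Fin J)) : Fin J → ℕ := fun c => if c ∈ e then 1 else 0

/-- order of the colours -/
structure Gr (J s : ℕ) (gr : Finset (Fin J) → ℕ) : Prop where
  inj : Function.Injective gr
  pos : ∀ e, 1 ≤ gr e
  lt : ∀ e, gr e < s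
  mono : ∀ e e', e ⊂ e' → e' ≠ univ → gr e < gr e'
  Js : J ≤ s

/-- a coloured tower, its entries and the map to the points -/
structure St (ι : Type) (J q : ℕ) where
  G : GT ι
  p : ι → MvPolynomial ι ℝ
  col : ι → Finset (Fin J)
  en : Fin J → Fin q → ι
  al : ℝ
  r : Pt J q
  n : ℕ

variable {ι : Type} [Fintype ι] [DecidableEq ι] {J q : ℕ}

/-- all monomials have multidegree `e` -/
def Mh (col : ι → Finset (Fin J)) (e : Finset (Fin J)) (F : MvPolynomial ι ℝ) : Prop :=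
  IsWeightedHomogeneous (fun a => ic (col a)) F (ic e)

/-- all monomials have multidegree at most `e` -/
def Ml (col : ι → Finset (Fin J)) (e : Finset (Fin J)) (F : MvPolynomial ι ℝ) : Prop :=
  ∀ m ∈ F.support, Finsupp.weight (fun a => ic (col a)) m ≤ ic e

namespace St

variable (S : St ι J q)

def AT : AT ι := ⟨univ, S.p, fun _ => 1⟩

/-- true chart -/
def ch (a : ι) : MvPolynomial ι ℝ := S.G.th a + S.p a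

def sq (z : ι → ℤ) : ℝ := ∑ a, (eval (cz z) (S.ch a)) ^ 2

def wt (z : ι → ℤ) : ℝ := Real.exp (-π * S.sq z)

def ms : ℝ := ∑' z : ι → ℤ, S.wt z

/-- the point -/
def xs (z : ι → ℤ) : Pt J q := fun c l => S.r c l + (S.n : ℤ) * z (S.en c l)

def hit (f : Pt J q → ℝ) : ℝ := ∑' z : ι → ℤ, S.wt z * f (S.xs z)

def pot : ℕ := ∑ a, (2 * (J + 1) ^ S.G.w a + if a ∈ S.G.ex then 0 else 1)

structure Ok (s : ℕ) (gr : Finset (Fin J) → ℕ) : Prop where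
  go : Gr J s gr
  ok : S.G.Ok s
  wc : ∀ a, S.G.w a = (S.col a).card
  pr : ∀ a, S.col a ≠ univ
  pd : ∀ a, S.G.Dl (S.G.w a) (S.p a)
  tri : ∀ a ∈ S.G.ex, ∀ b, b ∉ S.G.ex → S.G.A a b = 0 ∧ S.G.B a b = 0
  inj : ∀ c l c' l', S.en c l = S.en c' l' → c = c' ∧ l = l'
  g0 : ∀ a, S.G.g a = 0 ↔ ∃ c l, a = S.en c l
  gc : ∀ a, S.G.g a ≠ 0 → S.G.g a = gr (S.col a)
  ce : ∀ c l, S.col (S.en c l) = {c}
  ee : ∀ c l, S.en c l ∈ S.G.ex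
  ae : ∀ c l b, S.G.A (S.en c l) b = (if b = S.en c l then S.al else 0) ∧
    S.G.B (S.en c l) b = if b = S.en c l then S.al⁻¹ else 0
  mq : ∀ a, Mh S.col (S.col a) (S.G.q a)
  mp : ∀ a, Ml S.col (S.col a) (S.p a)
  al0 : 0 < S.al
  n1 : 1 ≤ S.n

/-- the invariants; `f` takes values in `[0, 1]` -/
structure Inv (s : ℕ) (gr : Finset (Fin J) → ℕ) (N δ : ℝ) (f : Pt J q → ℝ) (θ θn : ℕ → ℝ)
    (γ ρ b : ℝ) : Prop where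
  ok : S.Ok s gr
  f0 : ∀ x, 0 ≤ f x ∧ f x ≤ 1
  ph : ∀ g, tk S.G (Lat (gp S.G g)) ≤ Real.exp (θ g) * S.G.dv (gp S.G g)
  pn : ∀ g, tk S.G (Lat (gp S.G g \ S.G.ex)) ≤ Real.exp (θn g) * S.G.dv (gp S.G g \ S.G.ex)
  ma : Real.exp (-γ) * S.G.dv univ ≤ S.ms
  nr : (S.n : ℝ) ≤ Real.exp ρ
  ar : S.al * N ≤ Real.exp ρ
  na : (S.n : ℝ) ≤ δ * (S.al * N)
  de : b * S.ms ≤ S.hit f

/-- `j` is a pivot of the block `V` -/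
def Pv (V : Finset ι) (j : ι) (δ : ℝ) : Prop :=
  j ∈ V ∧ 0 < δ ∧ S.G.A j j = δ⁻¹ ∧ ∀ c ∈ V, c ≠ j → S.G.A j c = 0

/-- relation `n q_j = integer + b(top chart)` -/
def Rl (j : ι) (n : ℕ) (b : MvPolynomial ι ℝ) : Prop :=
  S.G.Lo (S.G.g j) b ∧ Mh S.col (S.col j) b ∧ IsZ (C (n : ℝ) * S.G.q j - aeval S.G.th b)

/-- same groups, weights, exact variables, colours, entries -/
def Sa (S' : St ι J q) : Prop :=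
  S'.G.g = S.G.g ∧ S'.G.w = S.G.w ∧ S'.G.ex = S.G.ex ∧ S'.col = S.col ∧ S'.en = S.en

/-- the exact variables are a Hermite basis -/
def Hx : Prop := ∀ j ∈ S.G.ex, ∀ x : ι → ℝ, (∀ c, x c ≠ 0 → c ∈ S.G.ex ∧ S.G.g c = S.G.g j) →
  x j ^ 2 * ∑ a ∈ S.G.ex, S.G.A a j ^ 2 ≤
    2 ^ (Fintype.card ι ^ 2) * ∑ a ∈ S.G.ex, (∑ c, S.G.A a c * x c) ^ 2

end St

/-- regularity with thresholds that depend on the group -/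
def Rd (G : GT ι) (s : ℕ) (WW cc : ℕ → ℝ) (Y : ℝ) : Prop :=
  ∀ g < s, G.Big g (Real.exp (cc g * (Y + WW g))) ∧
    G.Small g (Real.exp (-(cc g * (Y + WW (g + 1)))) * (cc g * (Y + WW g))⁻¹)

/-! ### Rows: moves -/

def BR : Prop := ∀ (s J q : ℕ) (gr : Finset (Fin J) → ℕ) (ι : Type) [Fintype ι] [DecidableEq ι]
  (S : St ι J q), S.Ok s gr →
  (∀ P : ℝ, 1 ≤ P → S.G.AOk S.AT P) ∧ Summable S.wt ∧ S.ms = S.G.ms S.AT ∧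
  S.G.mn S.AT.sg S.AT.U = S.G.dv univ ∧
  (∀ V, (∀ a b, a ∉ V → b ∈ V → S.G.A a b = 0) → 0 < S.G.dv V) ∧
  (∀ f, S.hit f = Ex S.G S.AT fun z => f (S.xs z)) ∧
  (∀ a b, (S.G.A a b ≠ 0 ∨ S.G.B a b ≠ 0) → S.col a = S.col b) ∧
  (∀ a, Mh S.col (S.col a) (S.G.th a)) ∧
  (∀ e F, Mh S.col e F → S.G.Hm e.card F ∧ Mh S.col e (aeval S.G.th F)) ∧
  ∀ c l, ∃ x : ℝ, S.p (S.en c l) = C x

/-- widths from the potentials, and the tail -/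
def TAILW : Prop := ∀ s : ℕ, ∃ c : ℕ, ∀ (J q : ℕ) (gr : Finset (Fin J) → ℕ) (ι : Type) [Fintype ι]
  [DecidableEq ι] (S : St ι J q) (θ : ℕ → ℝ) (P : ℝ), S.Ok s gr → Sz ι P 1 →
    (∀ g, tk S.G (Lat (gp S.G g)) ≤ Real.exp (θ g) * S.G.dv (gp S.G g)) →
    (∀ W : ℕ → ℝ, Antitone W → (∀ g, 0 ≤ W g ∧ θ g ≤ W g) → S.G.Wd fun g => W g + P ^ c) ∧
    ∀ Ω Z : ℝ, 0 ≤ Ω → (∀ g, θ g ≤ Ω) →
      ∑' z : ι → ℤ, (if Z ≤ S.sq z then S.wt z else 0) ≤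
        Real.exp (P ^ c * (1 + Ω) - Z) * S.G.dv univ

def RECO : Prop := ∀ (s J q : ℕ) (gr : Finset (Fin J) → ℕ) (N δ : ℝ) (f : Pt J q → ℝ) (ι : Type)
  [Fintype ι] [DecidableEq ι] (S : St ι J q) (θ θn : ℕ → ℝ) (γ ρ b : ℝ) (g : ℕ) (V : Finset ι)
  (U U' : Matrix ι ι ℤ), S.Inv s gr N δ f θ θn γ ρ b → g ≠ 0 →
    (V = gp S.G g ∩ S.G.ex ∨ V = gp S.G g \ S.G.ex) → U * U' = 1 →
    (∀ a b, (U a b ≠ 0 ∨ U' a b ≠ 0) → a = b ∨ (a ∈ V ∧ b ∈ V)) →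
    (∀ a, a ∉ V → U a a = 1 ∧ U' a a = 1) →
    ∃ S' : St ι J q, S'.Inv s gr N δ f θ θn γ ρ b ∧ S.Sa S' ∧
      S'.G.A = S.G.A * U.map (Int.cast : ℤ → ℝ) ∧ S'.G.B = U'.map (Int.cast : ℤ → ℝ) * S.G.B ∧
      (∀ a, S.G.g a = g → S'.G.q a = ∑ c, C (U' a c : ℝ) * S.G.q c) ∧
      ∀ a, S.G.g a < g → S'.G.th a = S.G.th a

def ROTO : Prop := ∀ (s J q : ℕ) (gr : Finset (Fin J) → ℕ) (N δ : ℝ) (f : Pt J q → ℝ) (ι : Type)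
  [Fintype ι] [DecidableEq ι] (S : St ι J q) (θ θn : ℕ → ℝ) (γ ρ b : ℝ) (g : ℕ) (V : Finset ι)
  (j : ι), S.Inv s gr N δ f θ θn γ ρ b → g ≠ 0 →
    (V = gp S.G g ∩ S.G.ex ∨ V = gp S.G g \ S.G.ex) → j ∈ V →
    ∃ S' : St ι J q, S'.Inv s gr N δ f θ θn γ ρ b ∧ S.Sa S' ∧ S'.G.q = S.G.q ∧
      S'.Pv V j (√(∑ a ∈ V, S.G.B j a ^ 2)) ∧ ∀ a, S.G.g a ≠ g → S'.G.th a = S.G.th a

def HRM : Prop := ∀ (s J q : ℕ) (gr : Finset (Fin J) → ℕ) (N δ : ℝ) (f : Pt J q → ℝ) (ι : Type)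
  [Fintype ι] [DecidableEq ι] (S : St ι J q) (θ θn : ℕ → ℝ) (γ ρ b : ℝ),
    S.Inv s gr N δ f θ θn γ ρ b →
    ∃ S' : St ι J q, S'.Inv s gr N δ f θ θn γ ρ b ∧ S.Sa S' ∧ S'.Hx

/-- shrink the groups `< g` by `exp (-l)` -/
def SHR : Prop := ∀ (s J q : ℕ) (gr : Finset (Fin J) → ℕ) (N δ : ℝ) (f : Pt J q → ℝ) (ι : Type)
  [Fintype ι] [DecidableEq ι] (S : St ι J q) (θ θn : ℕ → ℝ) (γ ρ b η x l : ℝ) (g : ℕ),
    S.Inv s gr N δ f θ θn γ ρ b → 0 < l → 0 < η → Real.exp (-x) ≤ η * b →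
    ∃ S' : St ι J q, S'.Inv s gr N δ f (lo θ g (Fintype.card ι * l)) (lo θn g (Fintype.card ι * l))
        (γ + x) (ρ + l) ((1 - 2 * η) * b) ∧ S.Sa S' ∧ S'.G.q = S.G.q ∧
      (∀ a c, S'.G.A a c = (if S.G.g a < g then Real.exp l else 1) * S.G.A a c) ∧
      ∀ a c, S'.G.B a c = (if S.G.g a < g then Real.exp (-l) else 1) * S.G.B a c

/-- dilate the groups `< g` by `n` -/
def DIL : Prop := ∀ (s J q : ℕ) (gr : Finset (Fin J) → ℕ) (N δ : ℝ) (f : Pt J q → ℝ) (ι : Type)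
  [Fintype ι] [DecidableEq ι] (S : St ι J q) (θ θn : ℕ → ℝ) (γ ρ b η x l : ℝ) (g n : ℕ),
    S.Inv s gr N δ f θ θn γ ρ b → 1 ≤ n → (n : ℝ) ≤ Real.exp l → 0 < η → Real.exp (-x) ≤ η * b →
    ∃ S' : St ι J q, S'.Inv s gr N δ f (lo θ g (Fintype.card ι * l)) (lo θn g (Fintype.card ι * l))
        (γ + x) (ρ + l) ((1 - 2 * η) * b) ∧ S.Sa S' ∧
      (∀ a c, S'.G.A a c = (if S.G.g a < g then (n : ℝ) else 1) * S.G.A a c) ∧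
      (∀ a c, S'.G.B a c = (if S.G.g a < g then (n : ℝ)⁻¹ else 1) * S.G.B a c) ∧
      ∀ j, S.G.g j = g → IsZ (C (n : ℝ) * S.G.q j) → IsZ (S'.G.q j)

/-- add the small form `F (chart)` to the chart of `j` -/
def PERT : Prop := ∀ s : ℕ, ∃ c : ℕ, ∀ (J q : ℕ) (gr : Finset (Fin J) → ℕ) (N δ : ℝ) (f : Pt J q → ℝ)
  (ι : Type) [Fintype ι] [DecidableEq ι] (S : St ι J q) (θ θn : ℕ → ℝ) (γ ρ b η P Ω : ℝ) (j : ι)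
  (F : MvPolynomial ι ℝ), S.Inv s gr N δ f θ θn γ ρ b → Sz ι P 1 → 1 ≤ Ω → (∀ g, θ g ≤ Ω) → γ ≤ Ω →
    0 < η → η ≤ 1 / 2 → Real.exp (-Ω) ≤ η * b → j ∉ S.G.ex → S.G.Lo (S.G.g j) F →
    Mh S.col (S.col j) F → l1 F * (P * Ω) ^ c ≤ η →
    ∃ S' : St ι J q, S'.Inv s gr N δ f θ θn (γ + 1) ρ ((1 - η) * b) ∧ S.Sa S' ∧ S'.G.A = S.G.A ∧
      S'.G.B = S.G.B ∧ ∀ a, S'.G.q a = S.G.q a - C (S.G.B a j) * aeval S.G.th F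

/-- integer shear; the pivot `j` becomes exact -/
def SHEAR : Prop := ∀ (s J q : ℕ) (gr : Finset (Fin J) → ℕ) (N δ : ℝ) (f : Pt J q → ℝ) (ι : Type)
  [Fintype ι] [DecidableEq ι] (S : St ι J q) (θ θn : ℕ → ℝ) (γ ρ b β h : ℝ) (j : ι),
    S.Inv s gr N δ f θ θn γ ρ b → S.Pv (gp S.G (S.G.g j) \ S.G.ex) j β → β ≤ Real.exp h →
    IsZ (S.G.q j) →
    ∃ S' : St ι J q, S'.Inv s gr N δ f θ (at1 θn (S.G.g j) h) γ ρ b ∧ S'.pot < S.pot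

/-- a failure of `Big` gives a pivot with a relation -/
def REL : Prop := ∀ (s J q : ℕ) (gr : Finset (Fin J) → ℕ) (N δ : ℝ) (f : Pt J q → ℝ) (ι : Type)
  [Fintype ι] [DecidableEq ι] (S : St ι J q) (θ θn : ℕ → ℝ) (γ ρ b H : ℝ) (g : ℕ),
    S.Inv s gr N δ f θ θn γ ρ b → ¬ S.G.Big g H →
    ∃ (S' : St ι J q) (j : ι) (β : ℝ) (n : ℕ) (F : MvPolynomial ι ℝ), S'.Inv s gr N δ f θ θn γ ρ b ∧
      S.Sa S' ∧ S.G.g j = g ∧ S'.Pv (gp S.G g \ S.G.ex) j β ∧ 1 ≤ n ∧ n * β ≤ H ∧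
      Real.exp (-(θn g + Fintype.card ι + 4)) ≤ β ∧ S'.Rl j n F ∧ l1 F ≤ H

/-- new windows of width `σ` on the forms `R k` -/
def ADD : Prop := ∀ (s J q : ℕ) (gr : Finset (Fin J) → ℕ) (N δ : ℝ) (f : Pt J q → ℝ) (ι κ : Type)
  [Fintype ι] [DecidableEq ι] [Fintype κ] [DecidableEq κ] (S : St ι J q) (θ θn : ℕ → ℝ)
  (γ ρ b η x σ l : ℝ) (g : ℕ) (ty : κ → Finset (Fin J)) (R : κ → MvPolynomial ι ℝ),
    S.Inv s gr N δ f θ θn γ ρ b → (∀ k, (ty k).Nonempty ∧ ty k ≠ univ ∧ gr (ty k) < g ∧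
      Ml S.col (ty k) (R k)) → 0 < σ → σ ≤ 1 → 2 ≤ σ * Real.exp l → 0 < η →
    Real.exp (-x) ≤ η * b →
    ∃ (S' : St (ι ⊕ κ) J q) (ζ : κ → ℝ),
      S'.Inv s gr N δ f (lo θ g (Fintype.card κ * l)) (lo θn g (Fintype.card κ * l)) (γ + x) ρ
        ((1 - 2 * η) * b) ∧ (∀ k, |ζ k| ≤ 1 / 2) ∧
      S'.col = Sum.elim S.col ty ∧ (∀ c l, S'.en c l = Sum.inl (S.en c l)) ∧ S'.r = S.r ∧ S'.n = S.n ∧
      (∀ a, S'.G.g (Sum.inl a) = S.G.g a) ∧ S'.G.ex = S.G.ex.map ⟨Sum.inl, Sum.inl_injective⟩ ∧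
      (∀ a c, S'.G.A (Sum.inl a) (Sum.inl c) = S.G.A a c) ∧
      (∀ a, S'.p (Sum.inl a) = rename Sum.inl (S.p a) ∧ S'.ch (Sum.inl a) = rename Sum.inl (S.ch a)) ∧
      ∀ k, S'.ch (Sum.inr k) = C σ⁻¹ * (X (Sum.inr k) - rename Sum.inl (R k) - C (ζ k))

/-- change the lower order term of `j` by a small combination of the other charts -/
def PRT : Prop := ∀ s : ℕ, ∃ c : ℕ, ∀ (J q : ℕ) (gr : Finset (Fin J) → ℕ) (N δ : ℝ) (f : Pt J q → ℝ)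
  (ι : Type) [Fintype ι] [DecidableEq ι] (S : St ι J q) (θ θn : ℕ → ℝ) (γ ρ b η P Ω : ℝ) (j : ι)
  (u : ι → ℝ), S.Inv s gr N δ f θ θn γ ρ b → Sz ι P 1 → 1 ≤ Ω → (∀ g, θ g ≤ Ω) → γ ≤ Ω →
    0 < η → η ≤ 1 / 2 → Real.exp (-Ω) ≤ η * b → (∀ a, u a ≠ 0 → S.col a ⊂ S.col j) →
    (∑ a, |u a|) * (P * Ω) ^ c ≤ η →
    ∃ S' : St ι J q, S'.Inv s gr N δ f θ θn (γ + 1) ρ ((1 - η) * b) ∧ S'.G = S.G ∧ S'.col = S.col ∧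
      S'.p j = S.p j + ∑ a, C (u a) * S.ch a

/-- slice along an exact pivot whose lower order term is an integer form plus a constant -/
def SLI : Prop := ∀ (s J q : ℕ) (gr : Finset (Fin J) → ℕ) (N δ : ℝ) (f : Pt J q → ℝ) (ι : Type)
  [Fintype ι] [DecidableEq ι] (S : St ι J q) (θ θn : ℕ → ℝ) (γ ρ b β o l η x y : ℝ) (j : ι)
  (I : MvPolynomial ι ℝ), S.Inv s gr N δ f θ θn γ ρ b → S.G.g j ≠ 0 →
    S.Pv (gp S.G (S.G.g j) ∩ S.G.ex) j β → β ≤ Real.exp o → 1 + β⁻¹ ≤ Real.exp l → 0 < η →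
    Real.exp (-x) ≤ η * b → IsZ I → S.p j = C y - C β⁻¹ * I →
    ∃ S' : St {a : ι // a ≠ j} J q,
      S'.Inv s gr N δ f (at1 θ (S.G.g j) o) θn (γ + x + l) ρ ((1 - 2 * η) * b) ∧
      S'.pot + 2 * (J + 1) ^ S.G.w j = S.pot

/-- demotion of a narrow exact pivot -/
def DEM : Prop := ∀ s : ℕ, ∃ c : ℕ, ∀ (J q : ℕ) (gr : Finset (Fin J) → ℕ) (N δ : ℝ) (f : Pt J q → ℝ)
  (ι : Type) [Fintype ι] [DecidableEq ι] (S : St ι J q) (θ θn : ℕ → ℝ) (γ ρ b η P Λ x β o l : ℝ)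
  (j : ι), S.Inv s gr N δ f θ θn γ ρ b → Sz ι P 1 → 1 ≤ Λ → (∀ g', θ g' ≤ Real.exp Λ) →
    γ ≤ Real.exp Λ → 0 ≤ x → x ≤ Real.exp Λ → 0 ≤ l → l ≤ Real.exp Λ → Real.exp (-Λ) ≤ η →
    η ≤ 1 / 2 → Real.exp (-x) ≤ η * b → S.G.g j ≠ 0 → S.Pv (gp S.G (S.G.g j) ∩ S.G.ex) j β →
    β ≤ Real.exp o → 1 + β⁻¹ ≤ Real.exp l →
    ∃ (ι' : Type) (_ : Fintype ι') (_ : DecidableEq ι') (S' : St ι' J q),
      S'.Inv s gr N δ f (at1 (lo θ (S.G.g j) (P ^ c * (l + Λ))) (S.G.g j) o)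
        (lo θn (S.G.g j) (P ^ c * (l + Λ))) (γ + 2 * x + l + 9) ρ ((1 - η) * b) ∧ S'.pot < S.pot

/-- round of type A -/
def RA : Prop := ∀ s : ℕ, ∃ c : ℕ, ∀ (J q : ℕ) (gr : Finset (Fin J) → ℕ) (N δ : ℝ) (f : Pt J q → ℝ)
  (ι : Type) [Fintype ι] [DecidableEq ι] (S : St ι J q) (θ θn : ℕ → ℝ) (γ ρ b η P Λ x h : ℝ) (g : ℕ),
    S.Inv s gr N δ f θ θn γ ρ b → Sz ι P 1 →
    1 ≤ Λ → (∀ g', θ g' ≤ Real.exp Λ) → γ ≤ Real.exp Λ → 0 ≤ x → x ≤ Real.exp Λ → 0 ≤ h →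
    h ≤ Real.exp Λ → 0 ≤ θn g → θn g ≤ Real.exp Λ → Real.exp (-Λ) ≤ η → η ≤ 1 / 2 →
    Real.exp (-x) ≤ η * b → ¬ S.G.Big g (Real.exp h) →
    ∃ S' : St ι J q, S'.Inv s gr N δ f (lo θ g (P ^ c * (h + θn g + Λ)))
      (at1 (lo θn g (P ^ c * (h + θn g + Λ))) g h) (γ + 2 * x + 9) (ρ + P ^ c * (h + θn g + Λ))
      ((1 - η) * b) ∧ S'.pot < S.pot

/-- round of type B -/
def RB : Prop := ∀ s : ℕ, ∃ c : ℕ, ∀ (J q : ℕ) (gr : Finset (Fin J) → ℕ) (N δ : ℝ) (f : Pt J q → ℝ)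
  (ι : Type) [Fintype ι] [DecidableEq ι] (S : St ι J q) (θ θn : ℕ → ℝ) (γ ρ b η P Λ x o η0 : ℝ)
  (g : ℕ), S.Inv s gr N δ f θ θn γ ρ b → Sz ι P 1 → S.Hx → 1 ≤ Λ → (∀ g', θ g' ≤ Real.exp Λ) →
    γ ≤ Real.exp Λ → P ≤ Real.exp Λ → 0 ≤ θ g → 0 ≤ x → x ≤ Real.exp Λ → 0 ≤ o → Real.exp (-Λ) ≤ η →
    η ≤ 1 / 2 → Real.exp (-x) ≤ η * b → Real.exp (-o) ≤ η0 → g ≠ 0 → ¬ S.G.Small g η0 →
    ∃ (ι' : Type) (_ : Fintype ι') (_ : DecidableEq ι') (S' : St ι' J q),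
      S'.Inv s gr N δ f (at1 (lo θ g (P ^ c * (θ g + Λ))) g (o + P ^ 2)) (lo θn g (P ^ c * (θ g + Λ)))
        (γ + 2 * x + θ g + P + 15) ρ ((1 - η) * b) ∧ S'.pot < S.pot

/-- regularisation; `Λ` bounds all logarithms -/
def REG : Prop := ∀ s : ℕ, ∃ C : ℕ, ∀ (J q : ℕ) (gr : Finset (Fin J) → ℕ) (N δ : ℝ) (f : Pt J q → ℝ)
  (ι : Type) [Fintype ι] [DecidableEq ι] (S : St ι J q) (cc : ℕ → ℝ) (P Y Λ b η : ℝ),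
    Sz ι P Y → Antitone cc → (∀ g, P ≤ cc g) → cc 0 ≤ Real.exp Λ → Y ≤ Real.exp Λ → Λ ≤ Y →
    Real.exp (-Λ) ≤ η → η ≤ 1 / 2 → 1 / 2 ≤ b → 0 < N → cc 0 ^ C * Y ≤ Real.log N →
    S.Inv s gr N δ f (fun _ => Y) (fun _ => Y) Y Y b →
    ∃ (ι' : Type) (_ : Fintype ι') (_ : DecidableEq ι') (S' : St ι' J q) (WW θ θn : ℕ → ℝ) (γ : ℝ),
      (Fintype.card ι' : ℝ) ≤ P ^ C ∧ S'.Inv s gr N δ f θ θn γ (cc 0 ^ C * Y) ((1 - η) * b) ∧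
      S'.G.Wd WW ∧ (∀ g, WW g ≤ cc g ^ C * Y) ∧ Rd S'.G s WW cc Y

/-! ### Rows: from forms to towers -/

/-- the function in `[0, 1]` attached to `h` cut to the box -/
def nf (N : ℕ) (B : ℝ) (h : Pt J q → ℝ) (x : Pt J q) : ℝ :=
  1 / 2 + (if x ∈ bp J q N then h x else 0) / (2 * B)

/-- the tower of the entries -/
def ENT : Prop := ∃ C : ℕ, ∀ (s J q N : ℕ) (gr : Finset (Fin J) → ℕ) (h : Pt J q → ℝ) (Y : ℝ),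
  Gr J s gr → 2 ≤ J → (C : ℝ) ≤ Y → (J : ℝ) * q ≤ Y → Y ^ C ≤ Real.log N →
    (∀ x ∈ bp J q N, |h x| ≤ Real.exp Y) → Real.exp (-Y) ≤ 𝔼 x ∈ bp J q N, h x →
    ∃ S : St (Fin J × Fin q) J q, S.Inv s gr N (Real.exp (-Y)) (nf N (Real.exp Y) h) (fun _ => Y)
      (fun _ => Y) 1 (C * Y) (1 / 2 + Real.exp (-(2 * Y)) / 8)

/-- on the bulk all forms of `L` are polynomials -/
def Rp (S : St ι J q) (L : List (Cd J q)) (Z : ℝ) : Prop :=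
  ∀ t F, Frm L t F → ∃ R, Ml S.col t R ∧ ∀ z, S.sq z ≤ Z → eval (cz z) R = F (S.xs z)

/-- windows on the brackets -/
def TWR : Prop := ∀ (s J q : ℕ) (gr : Finset (Fin J) → ℕ) (N δ : ℝ) (f : Pt J q → ℝ)
  (S : St (Fin J × Fin q) J q) (Y γ ρ b η x Z l : ℝ) (L : List (Cd J q)), Twr L →
    (∀ p ∈ L, p.1 ≠ univ) → S.Inv s gr N δ f (fun _ => Y) (fun _ => Y) γ ρ b → 1 ≤ Z →
    20 * Z ≤ Real.exp l → 0 < η → 4 * η * L.length ≤ 1 → 0 ≤ x → 0 ≤ b →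
    2 * Real.exp (-x) ≤ η * b →
    ∃ (ι' : Type) (_ : Fintype ι') (_ : DecidableEq ι') (S' : St ι' J q),
      Fintype.card ι' ≤ J * q + L.length ∧
      S'.Inv s gr N δ f (fun _ => Y + L.length * l) (fun _ => Y + L.length * l) (γ + L.length * x) ρ
        ((1 - 2 * η * L.length) * b) ∧
      (Rp S' L Z ∨ ∀ z, S'.sq z ≤ Z → ¬ Cel L (S'.xs z))

/-- the input: forms of proper types, a Lipschitz periodic weight supported on the cell -/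
structure Inp {j q : ℕ} {κ : Type} [Fintype κ] (Y : ℝ) (N : ℕ) (L : List (Cd (j + 1) q))
    (ty : κ → Finset (Fin (j + 1))) (F : κ → Pt (j + 1) q → ℝ) (Ψ : Pt j q → (κ → ℝ) → ℝ)
    (G : Pt (j + 1) q → ℝ) (θ : ℝ) : Prop where
  q1 : 1 ≤ q
  qY : ((j + 1 : ℕ) : ℝ) * q ≤ Y
  kY : (Fintype.card κ : ℝ) ≤ Y
  lY : (L.length : ℝ) ≤ Y
  tw : Twr L
  lp : ∀ p ∈ L, p.1 ≠ univ
  fp : ∀ a, ty a ≠ univ ∧ Frm L (ty a) (F a)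
  P0 : ∀ W y, 0 ≤ Ψ W y ∧ Ψ W y ≤ 1
  lip : ∀ W (y y' : κ → ℝ) (ρ : ℝ), 0 ≤ ρ → (∀ a, ∃ n : ℤ, |y a - y' a - (n : ℝ)| ≤ ρ) → |Ψ W y - Ψ W y'| ≤ Real.exp Y * ρ
  sup : ∀ x ∈ bp (j + 1) q N, Ψ (Fin.tail x) (fun a => F a x) ≠ 0 → Cel L x
  G0 : ∀ x, 0 ≤ G x
  G1 : ∀ x ∈ bp (j + 1) q N, G x ≤ Real.exp Y
  t0 : 0 ≤ θ
  ex : Real.exp (-Y) ≤ 𝔼 x ∈ bp (j + 1) q N, Ψ (Fin.tail x) (fun a => F a x) * (G x - θ)

/-- the weight becomes a function of the classes `≥ 1` -/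
def EMB : Prop := ∀ j s : ℕ, 1 ≤ j → ∃ C : ℕ, ∀ (q N : ℕ) (gr : Finset (Fin (j + 1)) → ℕ) (κ : Type)
  [Fintype κ] [DecidableEq κ] (Y θ : ℝ) (L : List (Cd (j + 1) q)) (ty : κ → Finset (Fin (j + 1)))
  (F : κ → Pt (j + 1) q → ℝ) (Ψ : Pt j q → (κ → ℝ) → ℝ) (G : Pt (j + 1) q → ℝ),
    Gr (j + 1) s gr → (C : ℝ) ≤ Y → Y ^ C ≤ Real.log N → Inp Y N L ty F Ψ G θ →
    ∃ (ι : Type) (_ : Fintype ι) (_ : DecidableEq ι) (S : St ι (j + 1) q) (u : Pt j q → ℝ),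
      (Fintype.card ι : ℝ) ≤ 3 * Y ∧ (∀ W, 0 ≤ u W ∧ u W ≤ 1) ∧ θ ≤ Real.exp Y ∧
      S.Inv s gr N (Real.exp (-Y)) (nf N (Real.exp Y) fun x => u (Fin.tail x) * (G x - θ))
        (fun _ => Y ^ C) (fun _ => Y ^ C) (Y ^ C) (Y ^ C) (1 / 2 + Real.exp (-(2 * Y)) / 16)

/-! ### Monotonicity -/

theorem ms_nonneg (S : St ι J q) : 0 ≤ S.ms := tsum_nonneg fun _ => (Real.exp_pos _).le

theorem St.Inv.mono {S : St ι J q} {s : ℕ} {gr : Finset (Fin J) → ℕ} {N δ : ℝ} {f : Pt J q → ℝ}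
    {θ θn θ' θn' : ℕ → ℝ} {γ ρ b γ' ρ' b' : ℝ}
    (h : S.Inv s gr N δ f θ θn γ ρ b) (h1 : ∀ g, θ g ≤ θ' g) (h2 : ∀ g, θn g ≤ θn' g) (h3 : γ ≤ γ')
    (h4 : ρ ≤ ρ') (h5 : b' ≤ b) : S.Inv s gr N δ f θ' θn' γ' ρ' b' where
  ok := h.ok
  f0 := h.f0
  ph g := (h.ph g).trans
    (mul_le_mul_of_nonneg_right (Real.exp_le_exp.2 (h1 g)) (Rg.dv_nonneg _ _))
  pn g := (h.pn g).trans
    (mul_le_mul_of_nonneg_right (Real.exp_le_exp.2 (h2 g)) (Rg.dv_nonneg _ _))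
  ma := (mul_le_mul_of_nonneg_right (Real.exp_le_exp.2 (neg_le_neg h3))
    (Rg.dv_nonneg _ _)).trans h.ma
  nr := h.nr.trans (Real.exp_le_exp.2 h4)
  ar := h.ar.trans (Real.exp_le_exp.2 h4)
  na := h.na
  de := (mul_le_mul_of_nonneg_right h5 (ms_nonneg S)).trans h.de

end

end Vale.Agent.P057T.Cw
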