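import Vale.Agent.P057T.Cw.Defs
import Vale.Agent.P057T.Eq.Mono

/-! Demotion of a narrow exact pivot of a coloured tower. -/

set_option linter.all false

open MvPolynomial Finset
open scoped Real

namespace Vale.Agent.P057T.Cw

open Vale.Agent.P057T.Eq Vale.Agent.P057L
open Vale.Agent.P057T.Rg (gp tk lo at1)

noncomputable section

namespace Dem

variable {ι : Type} [Fintype ι] [DecidableEq ι] {J q : ℕ}

theorem split {κ : Type} [Fintype κ] [DecidableEq κ] (F : MvPolynomial ι ℝ)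
    (Pk : κ → (ι →₀ ℕ) → Prop) (hF : ∀ m ∈ F.support, m = 0 ∨ ∃ k, Pk k m) :
    ∃ (y : ℝ) (R : κ → MvPolynomial ι ℝ), F = C y + ∑ k, R k ∧
      ∀ k, ∀ m ∈ (R k).support, m ∈ F.support ∧ Pk k m := by
  have h : ∀ m : ι →₀ ℕ, ∃ o : Option κ, m ∈ F.support →
      (o = none → m = 0) ∧ ∀ k, o = some k → Pk k m := by
    intro m
    by_cases hm : m ∈ F.support
    · rcases hF m hm with h | ⟨k, h⟩
      · exact ⟨none, fun _ => ⟨fun _ => h, fun k e => by cases e⟩⟩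
      · exact ⟨some k, fun _ => ⟨fun e => (by cases e), fun k' e => by cases e; exact h⟩⟩
    · exact ⟨none, fun h => absurd h hm⟩
  choose f hf using h
  refine ⟨∑ m ∈ F.support.filter (fun m => f m = none), coeff m F,
    fun k => ∑ m ∈ F.support.filter (fun m => f m = some k), monomial m (coeff m F), ?_, ?_⟩
  · conv_lhs => rw [F.as_sum, ← sum_fiberwise F.support f, Fintype.sum_option]
    congr 1
    rw [map_sum]
    refine sum_congr rfl fun m hm => ?_
    obtain ⟨h1, h2⟩ := mem_filter.1 hm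
    have h3 := (hf m h1).1 h2
    subst h3
    rfl
  · intro k m hm
    obtain ⟨m', hm', h⟩ := mem_biUnion.1 (support_sum hm)
    have e := mem_singleton.1 (support_monomial_subset h)
    subst e
    obtain ⟨h1, h2⟩ := mem_filter.1 hm'
    exact ⟨h1, (hf m h1).2 k h2⟩

theorem sum_ic (e : Finset (Fin J)) : ∑ c, ic e c = e.card := by
  simp [ic]

theorem sum_wt {col : ι → Finset (Fin J)} {w : ι → ℕ} (hw : ∀ a, w a = (col a).card) (m : ι →₀ ℕ) :
    ∑ c, Finsupp.weight (fun a => ic (col a)) m c = Finsupp.weight w m := by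
  rw [Finsupp.weight_eq_sum, Finsupp.weight_eq_sum]
  simp only [Finset.sum_apply, Pi.smul_apply]
  rw [sum_comm]
  refine sum_congr rfl fun a _ => ?_
  rw [← smul_sum, sum_ic, hw]

theorem miss {S : St ι J q} {s : ℕ} {gr : Finset (Fin J) → ℕ} (hS : S.Ok s gr) (j : ι) :
    ∀ m ∈ (S.p j).support, m = 0 ∨ ∃ k : {c : Fin J // c ∈ S.col j ∧ 2 ≤ (S.col j).card},
      Finsupp.weight (fun a => ic (S.col a)) m k.1 = 0 := by
  intro m hm
  by_cases h0 : m = 0
  · exact Or.inl h0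
  have h1 := hS.pd j m hm
  have h2 := hS.mp j m hm
  obtain ⟨a, ha⟩ : ∃ a, m a ≠ 0 := by
    by_contra h
    exact h0 (Finsupp.ext fun a => by_contra fun k => h ⟨a, k⟩)
  have h3 := (hS.ok.w1 a).trans (Finsupp.le_weight_of_ne_zero' S.G.w ha)
  rw [hS.wc j] at h1
  have h4 : ∑ c, Finsupp.weight (fun a => ic (S.col a)) m c < ∑ c, ic (S.col j) c := by
    rwa [sum_wt hS.wc, sum_ic]
  obtain ⟨c, _, hc⟩ := exists_lt_of_sum_lt h4
  unfold ic at hc
  split_ifs at hc with h5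
  · exact Or.inr ⟨⟨c, h5, by omega⟩, Nat.lt_one_iff.1 hc⟩
  · exact absurd hc (Nat.not_lt_zero _)

theorem two_le (n : ℕ) : (2 : ℝ) ^ n ≤ Real.exp n := by
  rw [← mul_one (n : ℝ), Real.exp_nat_mul]
  exact pow_le_pow_left₀ (by norm_num) (by linarith [Real.add_one_le_exp 1]) n

theorem ex_sub {x y : ℝ} (n : ℕ) (h : Real.exp (-x) ≤ 2 ^ n * y) : Real.exp (-(x + n)) ≤ y := by
  have h1 := two_le n
  have h2 : (0 : ℝ) < 2 ^ n := by positivity
  rw [neg_add, Real.exp_add, Real.exp_neg (n : ℝ), ← div_eq_mul_inv, div_le_iff₀ (Real.exp_pos _)]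
  have h3 : 0 ≤ y := by
    by_contra k
    have := mul_neg_of_pos_of_neg h2 (not_le.1 k)
    linarith [Real.exp_pos (-x)]
  exact h.trans (by rw [mul_comm]; exact mul_le_mul_of_nonneg_left h1 h3)

theorem num (s c : ℕ) : ∃ n : ℕ, ∀ P Λ l : ℝ, 2 ≤ P → 1 ≤ Λ → 0 ≤ l →
    s * (Real.exp (-(P ^ n * (l + Λ))) * Real.exp l) *
      (P ^ (s + 2) * (Real.exp Λ * P ^ (n + s + 4))) ^ c ≤ Real.exp (-Λ) / 2 := by
  obtain ⟨a, ha⟩ : ∃ a, a = s + 2 + c + c * (2 * s + 7) := ⟨_, rfl⟩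
  obtain ⟨m, hm⟩ : ∃ m, m = a + 2 * c + 1 := ⟨_, rfl⟩
  refine ⟨2 * m + 1, fun P Λ l hP hΛ hl => ?_⟩
  have hP0 : 0 < P := by linarith
  have h1 : P ^ (s + 2) * (Real.exp Λ * P ^ (2 * m + 1 + s + 4)) ≤
      Real.exp (Λ + (2 * m + 2 * s + 7 : ℕ) * P) := by
    have e : P ^ (s + 2) * (Real.exp Λ * P ^ (2 * m + 1 + s + 4)) =
        Real.exp Λ * P ^ (2 * m + 2 * s + 7) := by ring
    rw [e, Real.exp_add, Real.exp_nat_mul]
    exact mul_le_mul_of_nonneg_left (pow_le_pow_left₀ hP0.le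
      (by linarith [Real.add_one_le_exp P]) _) (Real.exp_pos _).le
  have h2 := pow_le_pow_left₀ (by positivity) h1 c
  rw [← Real.exp_nat_mul] at h2
  have h3 : 2 * (s : ℝ) ≤ Real.exp (1 + s) := by
    rw [Real.exp_add]
    exact mul_le_mul (by linarith [Real.add_one_le_exp 1]) (by linarith [Real.add_one_le_exp s])
      (Nat.cast_nonneg s) (Real.exp_pos _).le
  have h4 : ((a + 2 * c * m : ℕ) : ℝ) ≤ P ^ (2 * m) := by
    have k1 : a + 2 * c * m ≤ m * m := by rw [hm]; nlinarith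
    have k2 := nat_le_pw hP m
    calc ((a + 2 * c * m : ℕ) : ℝ) ≤ (m : ℝ) * m := by exact_mod_cast k1
      _ ≤ P ^ m * P ^ m := mul_le_mul k2 k2 (Nat.cast_nonneg m) (pw_pos hP m).le
      _ = _ := by ring
  rw [ha] at h4
  push_cast at h4 h2
  have hc : (0 : ℝ) ≤ c := Nat.cast_nonneg c
  have hs : (0 : ℝ) ≤ s := Nat.cast_nonneg s
  have hm0 : (0 : ℝ) ≤ m := Nat.cast_nonneg m
  have h5 : 1 + s + (-(P ^ (2 * m + 1) * (l + Λ)) + l) + c * (Λ + (2 * m + 2 * s + 7) * P) ≤ -Λ := by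
    have k0 : 1 ≤ P * (l + Λ) := by nlinarith
    have k1 : l + Λ ≤ P * (l + Λ) := by nlinarith
    have k2 : P ≤ P * (l + Λ) := by nlinarith
    have k3 := mul_le_mul_of_nonneg_right h4 (by linarith : 0 ≤ P * (l + Λ))
    have k4 : P ^ (2 * m + 1) * (l + Λ) = P ^ (2 * m) * (P * (l + Λ)) := by ring
    rw [k4]
    set u := P * (l + Λ)
    have k5 : (s : ℝ) ≤ s * u := le_mul_of_one_le_right hs k0
    have k6 : c * Λ ≤ c * u := mul_le_mul_of_nonneg_left (by linarith) hc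
    have k7 : c * (2 * m + 2 * s + 7) * P ≤ c * (2 * m + 2 * s + 7) * u :=
      mul_le_mul_of_nonneg_left k2 (by positivity)
    nlinarith
  rw [le_div_iff₀ (by norm_num : (0 : ℝ) < 2)]
  refine le_trans ?_ (Real.exp_le_exp.2 h5)
  rw [Real.exp_add, Real.exp_add (1 + s), Real.exp_add (-_)]
  calc _ = 2 * (s : ℝ) * (Real.exp (-(P ^ (2 * m + 1) * (l + Λ))) * Real.exp l) *
        (P ^ (s + 2) * (Real.exp Λ * P ^ (2 * m + 1 + s + 4))) ^ c := by ring
    _ ≤ _ := mul_le_mul (mul_le_mul_of_nonneg_right h3 (by positivity)) h2 (by positivity)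
        (by positivity)

theorem isZ_sum {κ : Type} [Fintype κ] (f : κ → ι) : IsZ (∑ k, (X (f k) : MvPolynomial ι ℝ)) := by
  intro m
  refine ⟨∑ k, if Finsupp.single (f k) 1 = m then 1 else 0, ?_⟩
  rw [coeff_sum]
  push_cast
  exact sum_congr rfl fun k _ => coeff_X' _ _

theorem nb {η b : ℝ} (h0 : 0 < η) (h1 : η ≤ 1 / 2) (hb : 0 < b) :
    η * b / 8 ≤ η / 2 * ((1 - 2 * (η / 8)) * b) ∧
    η * b / 16 ≤ η / 8 * ((1 - η / 2) * ((1 - 2 * (η / 8)) * b)) ∧
    (1 - η) * b ≤ (1 - 2 * (η / 8)) * ((1 - η / 2) * ((1 - 2 * (η / 8)) * b)) := by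
  have hηb := mul_pos h0 hb
  refine ⟨by nlinarith, ?_, ?_⟩
  · have h2 : 1 / 2 ≤ (1 - η / 2) * (1 - 2 * (η / 8)) := by nlinarith
    nlinarith
  · have h2 : 1 - η ≤ (1 - 2 * (η / 8)) * ((1 - η / 2) * (1 - 2 * (η / 8))) := by
      nlinarith [mul_nonneg (sq_nonneg η) (by linarith : 0 ≤ 5 / 16 - η / 32)]
    have h3 := mul_le_mul_of_nonneg_right h2 hb.le
    linarith

theorem npot {J k w : ℕ} (hk : k ≤ J) (h : k = 0 ∨ 2 ≤ w) :
    k * (2 * (J + 1) ^ (w - 1) + 1) < 2 * (J + 1) ^ w := by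
  rcases h with rfl | h
  · rw [zero_mul]
    positivity
  · obtain ⟨e, rfl⟩ : ∃ e, w = e + 2 := ⟨w - 2, by omega⟩
    refine lt_of_le_of_lt (Nat.mul_le_mul_right _ hk) ?_
    rw [show e + 2 - 1 = e + 1 from rfl, pow_succ _ (e + 1)]
    have h4 : J + 1 ≤ (J + 1) ^ (e + 1) := Nat.le_self_pow (by omega) _
    nlinarith

theorem pot_le {κ : Type} [Fintype κ] [DecidableEq κ] {S : St ι J q} {S1 S2 : St (ι ⊕ κ) J q}
    (hG : S2.G = S1.G) (hex : S1.G.ex = S.G.ex.map ⟨Sum.inl, Sum.inl_injective⟩)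
    (hw : ∀ a, S1.G.w (Sum.inl a) = S.G.w a) {e : ℕ} (hw2 : ∀ k, S1.G.w (Sum.inr k) = e) :
    S2.pot ≤ S.pot + Fintype.card κ * (2 * (J + 1) ^ e + 1) := by
  unfold St.pot
  rw [hG, Fintype.sum_sum_type]
  refine add_le_add (le_of_eq (sum_congr rfl fun a _ => ?_)) ?_
  · rw [hw, hex]
    simp
  · refine (sum_le_card_nsmul _ _ (2 * (J + 1) ^ e + 1) fun k _ => ?_).trans
      (le_of_eq (by rw [card_univ, smul_eq_mul]))
    rw [hw2]
    split_ifs <;> omega

theorem lo_le {θ : ℕ → ℝ} {g g' : ℕ} {x y : ℝ} (h : x ≤ y) : lo θ g x g' ≤ lo θ g y g' := by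
  unfold lo
  split_ifs <;> linarith

end Dem

open Dem in
theorem dem (hA : ADD) (hR : PRT) (hL : SLI) (hB : BR) : DEM := by
  intro s
  obtain ⟨c, hR⟩ := hR s
  obtain ⟨n, hn⟩ := num s c
  refine ⟨s + n + 1, ?_⟩
  intro J q gr N δ f ι _ _ S θ θn γ ρ b η P Λ x β o l j hI hSz hΛ hθ hγ hx0 hx hl0 hl hη hη2 hb hj
    hP ho hβ
  have hS := hI.ok
  have hP2 := hSz.P2
  have hη0 : 0 < η := lt_of_lt_of_le (Real.exp_pos _) hη
  have hb0 : 0 < b := by
    by_contra k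
    have := mul_nonpos_of_nonneg_of_nonpos hη0.le (not_lt.1 k)
    linarith [Real.exp_pos (-x)]
  have hηb := mul_pos hη0 hb0
  obtain ⟨hjV, hβ0, hAj, hA0⟩ := hP
  obtain ⟨y0, R, hp, hRs⟩ := split (S.p j) _ (miss hS j)
  obtain ⟨L, hL0⟩ : ∃ L, L = P ^ n * (l + Λ) := ⟨_, rfl⟩
  have hL1 : 1 ≤ L := hL0 ▸ one_le_mul_of_one_le_of_one_le (one_le_pw hP2 n) (by linarith)
  have hκJ : Fintype.card {c : Fin J // c ∈ S.col j ∧ 2 ≤ (S.col j).card} ≤ J :=
    (Fintype.card_subtype_le _).trans (Fintype.card_fin J).le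
  have hκ : (Fintype.card {c : Fin J // c ∈ S.col j ∧ 2 ≤ (S.col j).card} : ℝ) ≤ s := by
    exact_mod_cast hκJ.trans hS.go.Js
  have hss : ∀ k : {c : Fin J // c ∈ S.col j ∧ 2 ≤ (S.col j).card}, (S.col j).erase k.1 ⊂ S.col j :=
    fun k => erase_ssubset k.2.1
  obtain ⟨S1, ζ, hI1, -, hcol, -, -, -, hg1, hex1, hA1, hp1, hch1⟩ :=
    hA s J q gr N δ f ι {c : Fin J // c ∈ S.col j ∧ 2 ≤ (S.col j).card} S θ θn γ ρ b (η / 8)
      (x + (3 : ℕ)) (Real.exp (-L)) (L + 1) (S.G.g j) (fun k => (S.col j).erase k.1)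
      (fun k => C (-β) * R k) hI
      (fun k => ⟨card_pos.1 (by rw [card_erase_of_mem k.2.1]; have := k.2.2; omega),
        fun e => (notMem_erase k.1 (S.col j)) (e ▸ mem_univ _),
        by rw [hS.gc j hj]; exact hS.go.mono _ _ (hss k) (hS.pr j), fun m hm => by
          rw [C_mul'] at hm
          obtain ⟨h1, h2⟩ := hRs k m (support_smul hm)
          intro d
          by_cases hd : d = k.1
          · rw [hd, h2]
            exact Nat.zero_le _
          · refine (hS.mp j m h1 d).trans (le_of_eq ?_)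
            simp [ic, hd]⟩)
      (Real.exp_pos _) (Real.exp_le_one_iff.2 (by linarith))
      (by rw [← Real.exp_add]; linarith [Real.add_one_le_exp (-L + (L + 1))]) (by linarith)
      (ex_sub 3 (by linarith))
  have he1 : 1 ≤ Real.exp Λ := Real.one_le_exp (by linarith)
  have heΛ : Λ ≤ Real.exp Λ := by linarith [Real.add_one_le_exp Λ]
  have hps := nat_le_pw hP2 s
  have hpn := one_le_pw hP2 n
  have hp1s := one_le_pw hP2 s
  have hk0 : (0 : ℝ) ≤ Fintype.card {c : Fin J // c ∈ S.col j ∧ 2 ≤ (S.col j).card} :=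
    Nat.cast_nonneg _
  have hkl : (Fintype.card {c : Fin J // c ∈ S.col j ∧ 2 ≤ (S.col j).card} : ℝ) * (L + 1) ≤
      P ^ (s + n + 1) * (l + Λ) := by
    have h1 := two_mul_pw hP2 (s + n)
    calc _ ≤ P ^ s * (2 * L) := mul_le_mul (hκ.trans hps) (by linarith) (by linarith) (by linarith)
      _ = 2 * P ^ (s + n) * (l + Λ) := by rw [hL0]; ring
      _ ≤ _ := mul_le_mul_of_nonneg_right h1 (by linarith)
  have hΩ : 8 * (Real.exp Λ * P ^ (s + n + 1)) ≤ Real.exp Λ * P ^ (n + s + 4) := by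
    have h1 : (8 : ℝ) ≤ P ^ 3 := by
      have := pow_le_pow_left₀ (by norm_num : (0 : ℝ) ≤ 2) hP2 3
      linarith
    calc _ ≤ P ^ 3 * (Real.exp Λ * P ^ (s + n + 1)) :=
        mul_le_mul_of_nonneg_right h1 (mul_nonneg (by linarith) (pw_pos hP2 _).le)
      _ = _ := by ring
  have hΩ1 : Real.exp Λ ≤ Real.exp Λ * P ^ (s + n + 1) :=
    le_mul_of_one_le_right (by linarith) (one_le_pw hP2 _)
  have hΩ2 : P ^ (s + n + 1) * (l + Λ) ≤ 2 * (Real.exp Λ * P ^ (s + n + 1)) := by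
    have := mul_le_mul_of_nonneg_left (by linarith : l + Λ ≤ 2 * Real.exp Λ)
      (pw_pos hP2 (s + n + 1)).le
    linarith
  obtain ⟨hb1, hb2, hb3⟩ := nb hη0 hη2 hb0
  obtain ⟨S2, hI2, hG2, hcol2, hp2⟩ := hR J q gr N δ f _ S1 _ _ _ ρ _ (η / 2) (P ^ (s + 2))
    (Real.exp Λ * P ^ (n + s + 4)) (Sum.inl j)
    (Sum.elim (fun _ => 0) fun _ => -(Real.exp (-L) * β⁻¹)) hI1
    ⟨by
      rw [Fintype.card_sum]
      push_cast
      have := add_pw_le hP2 s 1
      rw [pow_one] at this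
      linarith [hSz.cd], hP2.trans (by simpa using pw_le hP2 (by omega : 1 ≤ s + 2)), le_rfl⟩
    (by linarith)
    (fun g => by
      unfold lo
      split_ifs
      · linarith [hθ g]
      · linarith [hθ g])
    (by push_cast; linarith) (by linarith) (by linarith)
    (le_trans (Real.exp_le_exp.2 (by push_cast; linarith))
      ((ex_sub (x := x) (y := η * b / 8) 3 (by linarith)).trans hb1))
    (fun a ha => by
      rcases a with a | k
      · exact absurd rfl ha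
      · rw [hcol]
        exact hss k)
    (by
      refine le_trans (mul_le_mul_of_nonneg_right ?_ (by positivity))
        ((hn P Λ l hP2 hΛ hl0).trans (by linarith))
      rw [Fintype.sum_sum_type]
      simp only [Sum.elim_inl, Sum.elim_inr, abs_zero, sum_const_zero, zero_add, abs_neg, sum_const,
        card_univ, nsmul_eq_mul]
      rw [abs_of_pos (by positivity), ← hL0]
      exact mul_le_mul hκ (mul_le_mul_of_nonneg_left (by linarith) (Real.exp_pos _).le)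
        (by positivity) (Nat.cast_nonneg s))
  have hg2 : S2.G.g (Sum.inl j) = S.G.g j := by rw [hG2, hg1]
  obtain ⟨S3, hI3, hpot⟩ := hL s J q gr N δ f _ S2 _ _ _ ρ _ β o l (η / 8) (x + (4 : ℕ))
    (y0 + β⁻¹ * ∑ k, ζ k) (Sum.inl j) (∑ k, X (Sum.inr k)) hI2 (hg2 ▸ hj)
    ⟨by
      rw [hg2, hG2, hex1]
      exact mem_inter.2 ⟨mem_filter.2 ⟨mem_univ _, hg1 j⟩, mem_map_of_mem _ (mem_inter.1 hjV).2⟩,
      hβ0, by rw [hG2, hA1, hAj], fun d hd hdj => by
        rw [hg2, hG2, hex1] at hd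
        obtain ⟨h1, h2⟩ := mem_inter.1 hd
        obtain ⟨d0, h3, rfl⟩ := mem_map.1 h2
        rw [hG2]
        refine (hA1 j d0).trans (hA0 d0 (mem_inter.2 ⟨mem_filter.2 ⟨mem_univ _, ?_⟩, h3⟩)
          fun e => hdj (by rw [e]; rfl))
        exact (hg1 d0).symm.trans (mem_filter.1 h1).2⟩
    ho hβ (by linarith) ((ex_sub (x := x) (y := η * b / 16) 4 (by linarith)).trans hb2)
    (isZ_sum _)
    (by
      rw [hp2, (hp1 j).1, hp, Fintype.sum_sum_type]
      simp only [Sum.elim_inl, Sum.elim_inr, C_0, zero_mul, sum_const_zero, zero_add, hch1, map_add,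
        map_sum, map_mul, rename_C, mul_sum, add_assoc]
      rw [add_sub_assoc, ← sum_add_distrib, ← sum_sub_distrib]
      congr 1
      refine sum_congr rfl fun k _ => ?_
      have e1 : (C (Real.exp (-L)) : MvPolynomial (ι ⊕ {c : Fin J // c ∈ S.col j ∧
          2 ≤ (S.col j).card}) ℝ) * C (Real.exp (-L))⁻¹ = 1 := by
        rw [← C_mul, mul_inv_cancel₀ (Real.exp_pos _).ne', C_1]
      have e2 : (C β : MvPolynomial (ι ⊕ {c : Fin J // c ∈ S.col j ∧
          2 ≤ (S.col j).card}) ℝ) * C β⁻¹ = 1 := by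
        rw [← C_mul, mul_inv_cancel₀ hβ0.ne', C_1]
      rw [C_neg, C_neg, C_mul]
      linear_combination (-(C β⁻¹ * (X (Sum.inr k) + C β * rename Sum.inl (R k) - C (ζ k)))) * e1 -
        rename Sum.inl (R k) * e2)
  refine ⟨_, inferInstance, inferInstance, S3, hI3.mono (fun g => ?_) (fun g => lo_le hkl)
    (by push_cast; linarith) le_rfl hb3, ?_⟩
  · rw [hg2]
    exact add_le_add (lo_le hkl) le_rfl
  · have hw : ∀ a, S1.G.w (Sum.inl a) = S.G.w a := fun a => by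
      rw [hI1.ok.wc, hcol, hS.wc]
      rfl
    have h1 := pot_le hG2 hex1 hw (e := S.G.w j - 1) fun k => by
      rw [hI1.ok.wc, hcol, hS.wc]
      exact card_erase_of_mem k.2.1
    rw [hG2, hw] at hpot
    have h2 := npot (w := S.G.w j) hκJ (by
      by_cases h3 : 2 ≤ (S.col j).card
      · exact Or.inr (hS.wc j ▸ h3)
      · have : IsEmpty {c : Fin J // c ∈ S.col j ∧ 2 ≤ (S.col j).card} := ⟨fun k => h3 k.2.2⟩
        exact Or.inl Fintype.card_eq_zero)
    omega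

end

end Vale.Agent.P057T.Cw
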