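import Vale.Agent.P057T.Cw.Defs2
import Vale.Agent.P057T.Gkh.Frm

/-! The weight becomes a function of the later classes. -/

set_option linter.all false

open MvPolynomial Finset
open scoped Real BigOperators

namespace Vale.Agent.P057T.Cw

open Vale.Agent.P057T.Eq Vale.Agent.P057L Vale.Agent.P057T.Cp
open Vale.Agent.P057T.Rg (gp tk lo at1)
open Vale.Agent.P057T.Gkh (Cd Frm Twr Cel)

namespace Emb

variable {ι : Type} [Fintype ι] [DecidableEq ι] {J q : ℕ}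

theorem swap (S : St ι J q) (hs : Summable S.wt) (f f' : Pt J q → ℝ) (hf : ∀ x, 0 ≤ f x ∧ f x ≤ 1)
    (hf' : ∀ x, 0 ≤ f' x ∧ f' x ≤ 1) (Z ε τ : ℝ) (hε : 0 ≤ ε)
    (h : ∀ z, S.sq z ≤ Z → f (S.xs z) ≤ f' (S.xs z) + ε)
    (ht : ∑' z : ι → ℤ, (if Z ≤ S.sq z then S.wt z else 0) ≤ τ * S.ms) :
    S.hit f ≤ S.hit f' + (ε + τ) * S.ms := by
  have w0 : ∀ z, 0 ≤ S.wt z := fun z => (Real.exp_pos _).le
  have s1 : ∀ g : Pt J q → ℝ, (∀ x, 0 ≤ g x ∧ g x ≤ 1) → Summable fun z => S.wt z * g (S.xs z) :=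
    fun g hg => Summable.of_nonneg_of_le (fun z => mul_nonneg (w0 z) (hg _).1)
      (fun z => mul_le_of_le_one_right (w0 z) (hg _).2) hs
  have s2 : Summable fun z : ι → ℤ => if Z ≤ S.sq z then S.wt z else 0 :=
    Summable.of_nonneg_of_le (fun z => by split_ifs; exacts [w0 z, le_rfl])
      (fun z => by split_ifs; exacts [le_rfl, w0 z]) hs
  have k : S.hit f ≤ ∑' z : ι → ℤ, (S.wt z * f' (S.xs z) + ε * S.wt z +
      if Z ≤ S.sq z then S.wt z else 0) := by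
    refine (s1 f hf).tsum_le_tsum (fun z => ?_) (((s1 f' hf').add (hs.mul_left ε)).add s2)
    have a := mul_nonneg (w0 z) (hf' (S.xs z)).1
    have b := mul_nonneg hε (w0 z)
    split_ifs with hz
    · linarith [mul_le_of_le_one_right (w0 z) (hf (S.xs z)).2]
    · nlinarith [mul_le_mul_of_nonneg_left (h z (not_le.1 hz).le) (w0 z)]
  rw [((s1 f' hf').add (hs.mul_left ε)).tsum_add s2, (s1 f' hf').tsum_add (hs.mul_left ε),
    tsum_mul_left] at k
  have e1 : S.hit f' = ∑' z : ι → ℤ, S.wt z * f' (S.xs z) := rfl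
  have e2 : S.ms = ∑' z : ι → ℤ, S.wt z := rfl
  rw [← e1, ← e2] at k
  linarith

theorem tail {s : ℕ} {gr : Finset (Fin J) → ℕ} {N δ : ℝ} {f : Pt J q → ℝ} {S : St ι J q}
    {θ θn : ℕ → ℝ} {γ ρ b : ℝ} (h : S.Inv s gr N δ f θ θn γ ρ b) {t A τ : ℝ}
    (ht : t ≤ Real.exp A * S.G.dv univ) (hτ : Real.exp (A + γ) ≤ τ) : t ≤ τ * S.ms := by
  have e : Real.exp A = Real.exp (A + γ) * Real.exp (-γ) := by
    rw [← Real.exp_add]; congr 1; ring
  rw [e, mul_assoc] at ht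
  exact ht.trans (mul_le_mul hτ h.ma (mul_nonneg (Real.exp_pos _).le (Rg.dv_nonneg _ _))
    ((Real.exp_pos _).le.trans hτ))

theorem nz01 {N : ℕ} {B : ℝ} (hB : 0 < B) {h : Pt J q → ℝ} (hh : ∀ x ∈ bp J q N, |h x| ≤ B)
    (x : Pt J q) : 0 ≤ nz N B h x ∧ nz N B h x ≤ 1 := by
  unfold nz
  split_ifs with hx
  · have a := abs_le.1 (hh x hx)
    have b : -(1 / 2) ≤ h x / (2 * B) := by rw [le_div_iff₀ (by linarith)]; linarith [a.1]
    have c : h x / (2 * B) ≤ 1 / 2 := by rw [div_le_iff₀ (by linarith)]; linarith [a.2]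
    constructor <;> linarith
  · exact ⟨le_rfl, zero_le_one⟩

theorem num (c : ℕ) (Y : ℝ) (hY : (2 * c + 20 : ℝ) ≤ Y) :
    20 * Y ^ (2 * c + 7) ≤ Real.exp (Y ^ 2) ∧
    Real.exp Y * (Real.exp (1 - Y ^ 2) * Y ^ (2 * c + 7)) ≤ Real.exp (-(4 * Y)) ∧
    Real.exp ((3 * Y) ^ c * (1 + Y ^ 4) - Y ^ (2 * c + 7) + Y ^ 3) ≤ Real.exp (-(4 * Y)) ∧
    128 * Y * Real.exp (-(4 * Y)) ≤ Real.exp (-(2 * Y)) ∧
    4 * Real.exp (-(5 * Y)) ≤ Real.exp (-(4 * Y)) := by
  have c0 : (0 : ℝ) ≤ c := Nat.cast_nonneg c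
  have h1 : 1 ≤ Y := by linarith
  have a : Y ^ (2 * c + 7) ≤ Real.exp ((2 * c + 7) * Y) := by
    have := pow_le_pow_left₀ (by linarith) (by linarith [Real.add_one_le_exp Y] : Y ≤ Real.exp Y)
      (2 * c + 7)
    rw [← Real.exp_nat_mul] at this
    push_cast at this
    exact this
  have b : 20 ≤ Real.exp Y := by linarith [Real.add_one_le_exp Y]
  refine ⟨?_, ?_, Real.exp_le_exp.2 ?_, ?_, ?_⟩
  · refine (mul_le_mul b a (by positivity) (by positivity)).trans ?_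
    rw [← Real.exp_add]
    exact Real.exp_le_exp.2 (by nlinarith)
  · refine (mul_le_mul_of_nonneg_left (mul_le_mul_of_nonneg_left a (Real.exp_pos _).le)
      (Real.exp_pos _).le).trans ?_
    rw [← Real.exp_add, ← Real.exp_add]
    exact Real.exp_le_exp.2 (by nlinarith)
  · have d : (3 * Y) ^ c ≤ Y ^ (2 * c) := by
      rw [pow_mul]
      exact pow_le_pow_left₀ (by linarith) (by nlinarith) c
    have e : 1 ≤ Y ^ (2 * c) := one_le_pow₀ h1
    have f1 : 1 ≤ Y ^ 4 := one_le_pow₀ h1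
    have f2 : Y ^ 3 ≤ Y ^ 4 := pow_le_pow_right₀ h1 (by norm_num)
    have f3 : Y ≤ Y ^ 4 := le_self_pow₀ h1 (by norm_num)
    have f4 : 7 * Y ^ 4 ≤ Y ^ 7 := by
      have : Y ^ 7 = Y ^ 3 * Y ^ 4 := by ring
      have g : Y ≤ Y ^ 3 := le_self_pow₀ h1 (by norm_num)
      nlinarith
    have f5 := mul_le_mul_of_nonneg_right d (by linarith : 0 ≤ 1 + Y ^ 4)
    rw [pow_add]
    nlinarith
  · have d : 128 * Y ≤ Real.exp (2 * Y) := by
      have e : Real.exp (2 * Y) = Real.exp Y * Real.exp Y := by rw [← Real.exp_add]; congr 1; ring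
      have f := Real.quadratic_le_exp_of_nonneg (by linarith : 0 ≤ Y)
      have g : 128 ≤ Real.exp Y := by nlinarith
      rw [e]
      nlinarith [Real.add_one_le_exp Y]
    refine (mul_le_mul_of_nonneg_right d (Real.exp_pos _).le).trans ?_
    rw [← Real.exp_add]
    exact Real.exp_le_exp.2 (by linarith)
  · refine (mul_le_mul_of_nonneg_right (by linarith : 4 ≤ Real.exp Y) (Real.exp_pos _).le).trans ?_
    rw [← Real.exp_add]
    exact Real.exp_le_exp.2 (by linarith)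

theorem num2 {Y E e4 e5 n : ℝ} (hY : 1 ≤ Y) (hn0 : 0 ≤ n) (hn : n ≤ Y) (hE : E ≤ 1) (h4 : 0 < e4)
    (h1 : 128 * Y * e4 ≤ E) (h2 : 4 * e5 ≤ e4) :
    4 * e4 * n ≤ 1 ∧ 2 * e5 ≤ e4 * (1 / 2 + E / 8) ∧
    1 / 2 + e4 < (1 - 2 * e4 * n) * (1 / 2 + E / 8) ∧
    e5 ≤ e4 * ((1 - 2 * e4 * n) * (1 / 2 + E / 8)) ∧
    1 / 2 + E / 16 + (e4 + e4) ≤ (1 - 2 * e4) * ((1 - 2 * e4 * n) * (1 / 2 + E / 8)) := by
  have a : e4 * n ≤ E / 128 := by nlinarith
  have a0 : 0 ≤ e4 * n := by positivity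
  have b : e4 ≤ E / 128 := by nlinarith
  have c : 1 / 2 + E / 8 - E / 64 ≤ (1 - 2 * e4 * n) * (1 / 2 + E / 8) := by nlinarith
  have d : (1 - 2 * e4 * n) * (1 / 2 + E / 8) ≤ 1 := by nlinarith
  refine ⟨by linarith, by nlinarith, by linarith, by nlinarith, by nlinarith⟩

end Emb

open Emb in
theorem emb2 (hE : ENT2) (hT : TWR) (hA : ADD) (hW : TAILW) (hB : BR) : EMB2 := by
  classical
  intro j s hj
  obtain ⟨C0, hE⟩ := hE
  obtain ⟨c, hW⟩ := hW s
  refine ⟨C0 + 2 * c + 20, ?_⟩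
  intro q N gr κ _ _ Y θ L ty F Ψ G hgr hC hN I
  have hC0 : (C0 : ℝ) ≤ Y ∧ (2 * c + 20 : ℝ) ≤ Y := by
    push_cast at hC
    constructor <;> linarith [(Nat.cast_nonneg C0 : (0 : ℝ) ≤ C0), (Nat.cast_nonneg c : (0 : ℝ) ≤ c)]
  have hY : 20 ≤ Y := by linarith [hC0.2, (Nat.cast_nonneg c : (0 : ℝ) ≤ c)]
  have hY1 : 1 ≤ Y := by linarith
  obtain ⟨n1, n2, n3, n4, n5⟩ := num c Y hC0.2
  have hE1 : Real.exp (-(2 * Y)) ≤ 1 := Real.exp_le_one_iff.2 (by linarith)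
  obtain ⟨m1, m2, m3, m4, m5⟩ := num2 hY1 (Nat.cast_nonneg L.length) I.lY hE1 (Real.exp_pos _) n4 n5
  have hθ : θ ≤ Real.exp Y := by
    by_contra hc
    have : 𝔼 x ∈ bp (j + 1) q N, Ψ (Fin.tail x) (fun a => F a x) * (G x - θ) ≤ 0 :=
      (expect_le_expect (g := fun _ => (0 : ℝ)) fun x hx => mul_nonpos_of_nonneg_of_nonpos
        (I.P0 _ _).1 (by linarith [I.G1 x hx, not_le.1 hc])).trans (by simp)
    linarith [I.ex, Real.exp_pos (-Y)]
  have hGθ : ∀ x ∈ bp (j + 1) q N, |G x - θ| ≤ Real.exp Y := fun x hx =>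
    abs_le.2 ⟨by linarith [I.G0 x], by linarith [I.G1 x hx, I.t0]⟩
  have hab : ∀ (v : ℝ), 0 ≤ v ∧ v ≤ 1 → ∀ x ∈ bp (j + 1) q N, |v * (G x - θ)| ≤ Real.exp Y := by
    intro v hv x hx
    rw [abs_mul, abs_of_nonneg hv.1]
    exact (mul_le_of_le_one_left (abs_nonneg _) hv.2).trans (hGθ x hx)
  have hp : ∀ a : ℕ, a ≤ C0 + 2 * c + 20 → Y ^ a ≤ Y ^ (C0 + 2 * c + 20) := fun a ha =>
    pow_le_pow_right₀ hY1 ha
  obtain ⟨S0, h0⟩ := hE s (j + 1) q N gr (fun x => Ψ (Fin.tail x) (fun a => F a x) * (G x - θ)) Y hgr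
    (by omega) hC0.1 I.qY ((hp _ (by omega)).trans hN) (fun x hx => hab _ (I.P0 _ _) x hx) I.ex
  have hZ1 : 1 ≤ Y ^ (2 * c + 7) := one_le_pow₀ hY1
  obtain ⟨ι1, _, _, S1, hc1, h1, hR⟩ := hT s (j + 1) q gr _ _ _ S0 Y 1 _ _ (Real.exp (-(4 * Y)))
    (5 * Y) (Y ^ (2 * c + 7)) (Y ^ 2) L I.tw I.lp h0 hZ1 n1 (Real.exp_pos _) m1 (by linarith)
    (by positivity) m2
  have hc1' : (Fintype.card ι1 : ℝ) ≤ 2 * Y := by
    have a : (Fintype.card ι1 : ℝ) ≤ ((j + 1) * q + L.length : ℕ) := by exact_mod_cast hc1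
    have b := I.qY
    push_cast at a b
    linarith [I.lY]
  have hL2 : (L.length : ℝ) * Y ^ 2 ≤ Y ^ 3 := by
    rw [pow_succ' Y 2]; exact mul_le_mul_of_nonneg_right I.lY (by positivity)
  have hL5 : (L.length : ℝ) * (5 * Y) ≤ 5 * Y ^ 2 := by
    have := mul_le_mul_of_nonneg_right I.lY (by linarith : 0 ≤ 5 * Y)
    linarith only [this, sq Y]
  have p1 : 20 * Y ≤ Y ^ 2 := by
    rw [sq]; exact mul_le_mul_of_nonneg_right hY (by linarith)
  have p2 : 20 * Y ^ 2 ≤ Y ^ 3 := by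
    rw [pow_succ' Y 2]; exact mul_le_mul_of_nonneg_right hY (by positivity)
  have p3 : 20 * Y ^ 3 ≤ Y ^ 4 := by
    rw [pow_succ' Y 3]; exact mul_le_mul_of_nonneg_right hY (by positivity)
  rcases hR with hR | hR
  swap
  · exfalso
    obtain ⟨-, b2, -, -, b5, -⟩ := hB s _ q gr ι1 S1 h1.ok
    have t1 := (hW _ q gr ι1 S1 _ (3 * Y) h1.ok ⟨by linarith, by linarith, le_rfl⟩ h1.ph).2 (Y ^ 4)
      (Y ^ (2 * c + 7)) (by positivity) fun g => by linarith only [hL2, p1, p2, p3, hY]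
    have t2 := tail h1 t1 ((Real.exp_le_exp.2 (by linarith only [hL5, p1, p2, hY])).trans n3)
    have t3 := swap S1 b2 _ (fun _ => 1 / 2) h1.f0 (fun _ => by norm_num) _ 0 _ le_rfl
      (fun z hz => by
        unfold nz
        split_ifs with hx
        · have : Ψ (Fin.tail (S1.xs z)) (fun a => F a (S1.xs z)) = 0 := by
            by_contra h
            exact hR z hz (I.sup _ hx h)
          simp [this]
        · norm_num) t2
    have t4 : S1.hit (fun _ => 1 / 2) = S1.ms * (1 / 2) := tsum_mul_right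
    have t5 : 0 < S1.ms := lt_of_lt_of_le (mul_pos (Real.exp_pos _)
      (b5 univ fun a b ha => absurd (mem_univ a) ha)) h1.ma
    have t6 := mul_lt_mul_of_pos_right m3 t5
    linarith only [t3, t4, t6, h1.de]
  choose R hR1 hR2 using fun a => hR _ _ (I.fp a).2
  obtain ⟨S2, ζ, h2, -, -, a2, a3, a4, -, -, -, a8, a9⟩ := hA s (j + 1) q gr _ _ _ ι1
    {a : κ // (ty a).Nonempty} S1 _ _ _ _ _ (Real.exp (-(4 * Y))) (5 * Y) (Real.exp (1 - Y ^ 2))
    (Y ^ 2) s (fun k => ty k.1) (fun k => R k.1) h1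
    (fun k => ⟨k.2, (I.fp k.1).1, hgr.lt _, hR1 k.1⟩) (Real.exp_pos _)
    (Real.exp_le_one_iff.2 (by linarith)) (by
      rw [← Real.exp_add, sub_add_cancel]
      linarith only [Real.add_one_le_exp (1 : ℝ)]) (Real.exp_pos _) m4
  have hk : (Fintype.card {a : κ // (ty a).Nonempty} : ℝ) ≤ Y :=
    le_trans (by exact_mod_cast Fintype.card_subtype_le _) I.kY
  have hc2 : (Fintype.card (ι1 ⊕ {a : κ // (ty a).Nonempty}) : ℝ) ≤ 3 * Y := by
    rw [Fintype.card_sum]; push_cast; linarith only [hc1', hk]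
  have hlo : ∀ g, lo (fun _ => Y + L.length * Y ^ 2) s
      (Fintype.card {a : κ // (ty a).Nonempty} * Y ^ 2) g ≤ Y ^ 4 := by
    intro g
    have a : (Fintype.card {a : κ // (ty a).Nonempty} : ℝ) * Y ^ 2 ≤ Y ^ 3 := by
      rw [pow_succ' Y 2]; exact mul_le_mul_of_nonneg_right hk (by positivity)
    unfold lo
    split_ifs <;> linarith only [a, hL2, p1, p2, p3, hY]
  let u : Pt j q → ℝ := fun W => Ψ W fun a => if h : (ty a).Nonempty then -ζ ⟨a, h⟩ else F a 0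
  obtain ⟨-, b2, -⟩ := hB s _ q gr _ S2 h2.ok
  have t1 := (hW _ q gr _ S2 _ (3 * Y) h2.ok ⟨hc2, by linarith, le_rfl⟩ h2.ph).2 (Y ^ 4)
    (Y ^ (2 * c + 7)) (by positivity) hlo
  have t2 := tail h2 t1 ((Real.exp_le_exp.2 (by linarith only [hL5, p1, p2, hY])).trans n3)
  have f0 := nz01 (N := N) (Real.exp_pos Y) (h := fun x => u (Fin.tail x) * (G x - θ))
    fun x hx => hab _ (I.P0 _ _) x hx
  have t3 := swap S2 b2 _ _ h2.f0 f0 _ (Real.exp (-(4 * Y))) _ (Real.exp_pos _).le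
    (fun z hz => by
      have e1 : S2.xs z = S1.xs (z ∘ Sum.inl) := by
        funext c l
        simp only [St.xs, a2, a3, a4, Function.comp]
      have e2 : ∀ p : MvPolynomial ι1 ℝ,
          eval (cz z) (rename Sum.inl p) = eval (cz (z ∘ Sum.inl)) p := fun p => eval_rename _ _ _
      rw [St.sq, Fintype.sum_sum_type] at hz
      have s1 : 0 ≤ ∑ a, eval (cz z) (S2.ch (Sum.inl a)) ^ 2 := sum_nonneg fun _ _ => sq_nonneg _
      have s2 : 0 ≤ ∑ a, eval (cz z) (S2.ch (Sum.inr a)) ^ 2 := sum_nonneg fun _ _ => sq_nonneg _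
      have s3 : S1.sq (z ∘ Sum.inl) ≤ Y ^ (2 * c + 7) := by
        refine le_trans (le_of_eq ?_) (le_trans (le_add_of_nonneg_right s2) hz)
        exact sum_congr rfl fun a _ => by rw [(a8 a).2, e2]
      have hl := I.lip (Fin.tail (S2.xs z)) (fun a => F a (S2.xs z))
        (fun a => if h : (ty a).Nonempty then -ζ ⟨a, h⟩ else F a 0)
        (Real.exp (1 - Y ^ 2) * Y ^ (2 * c + 7)) (by positivity) fun a => by
          by_cases h : (ty a).Nonempty
          · refine ⟨z (Sum.inr ⟨a, h⟩), ?_⟩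
            have k1 : eval (cz z) (S2.ch (Sum.inr ⟨a, h⟩)) ^ 2 ≤ (Y ^ (2 * c + 7)) ^ 2 :=
              ((single_le_sum (f := fun a => eval (cz z) (S2.ch (Sum.inr a)) ^ 2)
                (fun _ _ => sq_nonneg _) (mem_univ _)).trans
                (le_trans (le_add_of_nonneg_left s1) hz)).trans (le_self_pow₀ hZ1 two_ne_zero)
            have k2 := abs_le_of_sq_le_sq k1 (by positivity)
            rw [a9, map_mul, map_sub, map_sub, eval_C, eval_C, eval_X, e2, hR2 a _ s3, ← e1, abs_mul,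
              abs_of_pos (inv_pos.2 (Real.exp_pos _)), inv_mul_le_iff₀ (Real.exp_pos _)] at k2
            simp only [dif_pos h]
            refine le_trans (le_of_eq ?_) k2
            rw [← abs_neg]
            congr 1
            simp only [cz]
            ring
          · refine ⟨0, ?_⟩
            have k1 := (Gkh.frm (j + 1) q).2.2.2.2.2.1 L _ _ (S2.xs z) 0 I.tw (I.fp a).2
              fun i hi => absurd ⟨i, hi⟩ h
            simp only [dif_neg h, k1, sub_self, Int.cast_zero, abs_zero]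
            positivity
      unfold nz
      split_ifs with hx
      · have k1 : |(Ψ (Fin.tail (S2.xs z)) (fun a => F a (S2.xs z)) - u (Fin.tail (S2.xs z))) *
            (G (S2.xs z) - θ)| ≤ Real.exp (-(4 * Y)) * Real.exp Y := by
          rw [abs_mul]
          exact mul_le_mul (hl.trans n2) (hGθ _ hx) (abs_nonneg _) (Real.exp_pos _).le
        have k2 := (abs_le.1 k1).2
        have k3 : 0 < Real.exp (-(4 * Y)) * Real.exp Y := by positivity
        rw [add_assoc, add_le_add_iff_left, ← sub_le_iff_le_add', ← sub_div,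
          div_le_iff₀ (by positivity)]
        linarith only [k2, k3]
      · rw [zero_add]; exact (Real.exp_pos _).le) t2
  have hms := ms_nonneg S2
  refine ⟨_, inferInstance, inferInstance, S2, u, hc2, fun W => I.P0 _ _, hθ, St.Inv.mono
    ⟨h2.ok, f0, h2.ph, h2.pn, h2.ma, h2.nr, h2.ar, h2.na, ?_⟩
    (fun g => (hlo g).trans (hp 4 (by omega))) (fun g => (hlo g).trans (hp 4 (by omega)))
    (le_trans (by linarith only [hL5, p1, p2, hY]) (hp 3 (by omega))) (le_trans ?_ (hp 2 (by omega)))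
    le_rfl⟩
  · have := mul_le_mul_of_nonneg_right m5 hms
    linarith only [this, t3, h2.de]
  · rw [sq]; exact mul_le_mul_of_nonneg_right hC0.1 (by linarith)

end Vale.Agent.P057T.Cw
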