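import Vale.Agent.P057T.Cw.Defs
import Vale.Agent.P057T.Gau2H52

/-! The tower of the entries. -/

set_option linter.all false

open MvPolynomial Finset
open scoped Real BigOperators

namespace Vale.Agent.P057T.Cw

open Vale.Agent.P057T.Eq Vale.Agent.P057L Vale.Agent.P057T.Cp Vale.Agent.P057T.Poi
open Vale.Agent.P057T.Rg (gp tk lo at1)
open Vale.Agent.P267.H775 (qf toR)

noncomputable section

namespace EntP

variable {J q : ℕ}

def S0 (J q : ℕ) (al : ℝ) (c : Fin J × Fin q → ℤ) : St (Fin J × Fin q) J q where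
  G := ⟨fun _ => 0, fun _ => 1, al • 1, al⁻¹ • 1, fun _ => 0, univ⟩
  p := fun _ => 0
  col := fun a => {a.1}
  en := fun c l => (c, l)
  al := al
  r := fun i l => c (i, l)
  n := 1

theorem ok {s : ℕ} {gr : Finset (Fin J) → ℕ} (hg : Gr J s gr) (hJ : 2 ≤ J) {al : ℝ} (ha : 0 < al)
    (c : Fin J × Fin q → ℤ) : (S0 J q al c).Ok s gr where
  go := hg
  ok :=
    { w1 := fun _ => le_rfl
      ws := fun _ => by have := hg.Js; show 1 ≤ s; omega
      gs := fun _ => by have := hg.Js; show 0 < s; omega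
      AB := by
        show (al • (1 : Matrix _ _ ℝ)) * (al⁻¹ • 1) = 1
        rw [Matrix.smul_mul, Matrix.mul_smul, smul_smul, mul_inv_cancel₀ ha.ne', one_smul,
          Matrix.one_mul]
      blk := fun _ _ _ => ⟨rfl, rfl⟩
      qh := fun _ => isWeightedHomogeneous_zero _ _ _
      ql := fun _ b hb => by simp [S0] at hb
      qe := fun _ _ => rfl }
  wc := fun _ => by simp [S0]
  pr := fun a h => by
    have := congrArg card h
    simp [S0] at this
    omega
  pd := fun _ m hm => by simp [S0] at hm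
  tri := fun _ _ b hb => by simp [S0] at hb
  inj := fun _ _ _ _ h => Prod.ext_iff.1 h
  g0 := fun a => ⟨fun _ => ⟨a.1, a.2, rfl⟩, fun _ => rfl⟩
  gc := fun _ h => absurd rfl h
  ce := fun _ _ => rfl
  ee := fun _ _ => mem_univ _
  ae := fun i l b => by
    simp only [S0, Matrix.smul_apply, Matrix.one_apply, smul_eq_mul, eq_comm (a := b)]
    constructor <;> split_ifs <;> simp
  mq := fun _ => isWeightedHomogeneous_zero _ _ _
  mp := fun _ m hm => by simp [S0] at hm
  al0 := ha
  n1 := le_rfl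

theorem qf_sc {ι : Type} [Fintype ι] [DecidableEq ι] (al : ℝ) (x : ι → ℝ) :
    qf (al • (1 : Matrix ι ι ℝ)) x = ∑ a, (al * x a) ^ 2 := by
  simp [qf, Matrix.smul_mulVec]

theorem wt_eq (al : ℝ) (c z : Fin J × Fin q → ℤ) :
    (S0 J q al c).wt z = gq (al • 1) (toR z) := by
  simp only [St.wt, St.sq, St.ch, gq, qf_sc, GT.th, S0]
  congr 2
  refine sum_congr rfl fun a _ => ?_
  simp [Matrix.one_apply, cz, toR, ite_mul]

theorem dv_empty {ι : Type} [Fintype ι] [DecidableEq ι] (G : GT ι) : G.dv ∅ = 1 := by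
  simp [GT.dv]

theorem tk_empty {ι : Type} [Fintype ι] [DecidableEq ι] (G : GT ι) :
    tk G (Lat (∅ : Finset ι)) = 1 := by
  unfold tk
  rw [tsum_eq_single 0]
  · rw [Set.indicator_of_mem (Lat ∅).zero_mem]
    have : cz (0 : ι → ℤ) = 0 := by funext a; simp [cz]
    rw [this, gq_zero]
  · intro z hz
    refine Set.indicator_of_notMem (fun h => hz ?_) _
    funext a
    exact h a (by simp)

theorem dv_univ {al : ℝ} (ha : 0 < al) (c : Fin J × Fin q → ℤ) :
    (S0 J q al c).G.dv univ = (al ^ (J * q))⁻¹ := by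
  have : ((al⁻¹ • (1 : Matrix (Fin J × Fin q) (Fin J × Fin q) ℝ)).submatrix
      (Subtype.val : ↥(univ : Finset (Fin J × Fin q)) → Fin J × Fin q)
      (Subtype.val : ↥(univ : Finset (Fin J × Fin q)) → Fin J × Fin q)) = al⁻¹ • 1 := by
    rw [Matrix.submatrix_smul, Pi.smul_apply, Pi.smul_apply,
      Matrix.submatrix_one _ Subtype.val_injective]
  simp only [GT.dv, S0]
  rw [this, Matrix.det_smul]
  simp [abs_of_pos ha]

theorem win {ι : Type} [Fintype ι] [DecidableEq ι] {M : Matrix ι ι ℝ} (hM : M.det ≠ 0)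
    (Cs : Finset (ι → ℤ)) (x : ι → ℤ) (K : ℝ) (h : ∀ z, qf M (toR z) < K → x - z ∈ Cs) :
    ∑ c ∈ Cs, gq M (toR (x - c)) ≤ th M 0 ∧
    th M 0 - Real.exp (-(3 / 4 * π * K)) * 2 ^ Fintype.card ι * th M 0 ≤
      ∑ c ∈ Cs, gq M (toR (x - c)) := by
  have hs : Summable fun n : ι → ℤ => gq M (toR n) := by simpa using summable_gq hM 0
  have e : ∑ c ∈ Cs, gq M (toR (x - c)) = ∑ z ∈ Cs.image (fun c => x - c), gq M (toR z) :=
    (sum_image (f := fun z => gq M (toR z)) fun a _ b _ h => sub_right_injective h).symm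
  rw [e, th_zero]
  refine ⟨hs.sum_le_tsum _ fun _ _ => (gq_pos _ _).le, ?_⟩
  have t := tail_le hM 0 K
  simp only [zero_add, th_zero] at t
  have s1 : Summable fun n : ι → ℤ => if K ≤ qf M (toR n) then gq M (toR n) else 0 :=
    Summable.of_nonneg_of_le (fun n => by split_ifs; exacts [(gq_pos _ _).le, le_rfl])
      (fun n => by split_ifs; exacts [le_rfl, (gq_pos _ _).le]) hs
  have s2 : HasSum (fun n : ι → ℤ => if n ∈ Cs.image (fun c => x - c) then gq M (toR n) else 0)
      (∑ z ∈ Cs.image (fun c => x - c), gq M (toR z)) := by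
    have := hasSum_sum_of_ne_finset_zero (L := SummationFilter.unconditional _) (s := Cs.image (fun c => x - c))
      (f := fun n : ι → ℤ => if n ∈ Cs.image (fun c => x - c) then gq M (toR n) else 0)
      (fun b hb => if_neg hb)
    rwa [sum_congr rfl fun z hz => if_pos hz] at this
  have := hs.tsum_le_tsum (g := fun n => (if K ≤ qf M (toR n) then gq M (toR n) else 0) +
    if n ∈ Cs.image (fun c => x - c) then gq M (toR n) else 0) (fun n => by
      by_cases h1 : K ≤ qf M (toR n)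
      · rw [if_pos h1]
        split_ifs
        · linarith [gq_pos M (toR n)]
        · linarith
      · rw [if_neg h1, if_pos (mem_image.2 ⟨x - n, h n (not_le.1 h1), by abel⟩), zero_add])
    (s1.add s2.summable)
  rw [s1.tsum_add s2.summable, s2.tsum_eq] at this
  linarith

theorem hit_eq {al : ℝ} (ha : 0 < al) (c : Fin J × Fin q → ℤ) (N : ℕ) (B : ℝ) (h : Pt J q → ℝ) :
    (S0 J q al c).hit (nf N B h) = th (al • (1 : Matrix (Fin J × Fin q) _ ℝ)) 0 / 2 +
      (∑ x ∈ bp J q N, gq (al • 1) (toR ((fun a : Fin J × Fin q => x a.1 a.2) - c)) * h x) /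
        (2 * B) := by
  have hM : (al • (1 : Matrix (Fin J × Fin q) (Fin J × Fin q) ℝ)).det ≠ 0 :=
    det_smul_ne ha.ne' (by simp)
  have hs : Summable fun n : Fin J × Fin q → ℤ => gq (al • 1) (toR n) := by
    simpa using summable_gq hM 0
  let e : Pt J q ≃ (Fin J × Fin q → ℤ) :=
    { toFun := fun x => (fun a => x a.1 a.2) - c
      invFun := fun z => (S0 J q al c).xs z
      left_inv := fun x => by funext i l; simp [St.xs, S0]
      right_inv := fun z => by funext a; simp [St.xs, S0] }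
  have s2 : HasSum (fun z => gq (al • 1) (toR z) *
      (if (S0 J q al c).xs z ∈ bp J q N then h ((S0 J q al c).xs z) else 0))
      (∑ x ∈ bp J q N, gq (al • 1) (toR ((fun a : Fin J × Fin q => x a.1 a.2) - c)) * h x) := by
    rw [← e.hasSum_iff]
    have := hasSum_sum_of_ne_finset_zero (L := SummationFilter.unconditional _) (s := bp J q N)
      (f := fun x => gq (al • 1) (toR (e x)) * (if x ∈ bp J q N then h x else 0))
      (fun b hb => by rw [if_neg hb, mul_zero])
    rw [sum_congr rfl fun z hz => by rw [if_pos hz]] at this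
    refine HasSum.congr_fun this fun x => ?_
    have : (S0 J q al c).xs (e x) = x := e.left_inv x
    simp only [Function.comp, this]
  have := (hs.hasSum.div_const 2).add (s2.div_const (2 * B))
  rw [th_zero, ← this.tsum_eq]
  refine tsum_congr fun z => ?_
  rw [wt_eq, nf]
  ring

theorem num (Y N : ℝ) (hY : 20 ≤ Y) (hN : Real.exp (10 * Y) ≤ N) :
    Y * (Real.exp (2 * Y) / N) ≤ 3 / 10 ∧ 1 ≤ N * Real.exp (-Y) ∧ Y * (4 * Real.exp (-Y)) ≤ 1 / 2 := by
  have N0 : 0 < N := (Real.exp_pos _).trans_le hN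
  have e1 : Y ^ 2 / 2 ≤ Real.exp Y := by
    have := Real.pow_div_factorial_le_exp Y (by linarith) 2
    simpa [Nat.factorial] using this
  have e0 := Real.exp_pos Y
  refine ⟨?_, ?_, ?_⟩
  · rw [← mul_div_assoc, div_le_iff₀ N0]
    have a1 : Real.exp (2 * Y) * Real.exp Y ≤ N := by
      rw [← Real.exp_add]; exact (Real.exp_le_exp.2 (by linarith)).trans hN
    have a2 := Real.exp_pos (2 * Y)
    have a3 : 10 * Y ≤ Real.exp Y := by nlinarith
    nlinarith
  · rw [Real.exp_neg, ← div_eq_mul_inv, le_div_iff₀ e0, one_mul]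
    exact (Real.exp_le_exp.2 (by linarith)).trans hN
  · rw [Real.exp_neg, ← mul_assoc, ← div_eq_mul_inv, div_le_iff₀ e0]
    nlinarith

theorem key {t m τ x E e : ℝ} (t0 : 0 < t) (w1 : m ≤ t) (w2 : t - τ * t ≤ m) (b : |x| ≤ E)
    (h : E * τ ≤ e / 2) : t * (x - e / 2) ≤ m * x := by
  have b6 := abs_le.1 b
  have b7 := mul_le_mul_of_nonneg_right h t0.le
  have E0 : 0 ≤ E := (abs_nonneg x).trans b
  nlinarith [mul_nonneg (sub_nonneg.2 w1) (sub_nonneg.2 b6.2), mul_le_mul_of_nonneg_left w2 E0]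

theorem tau (Y : ℝ) (D : ℕ) (hY : 20 ≤ Y) (hD' : (D : ℝ) ≤ Y) :
    Real.exp Y * (Real.exp (-(3 / 4 * π * Real.exp (2 * Y))) * 2 ^ D) ≤ Real.exp (-Y) / 2 := by
  have eY := Real.exp_pos Y
  have eY' := Real.exp_pos (-Y)
  have a1 : (2 : ℝ) ^ D ≤ Real.exp Y := by
    refine (pow_le_pow_left₀ (by norm_num) (show (2 : ℝ) ≤ Real.exp 1 by
      linarith [Real.exp_one_gt_d9]) _).trans ?_
    rw [← Real.exp_nat_mul, mul_one]
    exact Real.exp_le_exp.2 hD'
  have a2 : Real.exp (-(3 / 4 * π * Real.exp (2 * Y))) ≤ Real.exp (-(3 * Y) - 1) := by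
    have := Real.add_one_le_exp (2 * Y)
    have := Real.pi_gt_three
    exact Real.exp_le_exp.2 (by nlinarith)
  have a3 : Real.exp Y * (Real.exp (-(3 * Y) - 1) * Real.exp Y) = Real.exp (-Y) / Real.exp 1 := by
    rw [← Real.exp_add, ← Real.exp_add, ← Real.exp_sub]; ring_nf
  refine (mul_le_mul_of_nonneg_left (mul_le_mul a2 a1 (by positivity) (by positivity))
    eY.le).trans ?_
  rw [a3]
  exact div_le_div_of_nonneg_left eY'.le (by norm_num) (by linarith [Real.exp_one_gt_d9])

theorem cardC (Y : ℝ) (D N R : ℕ) (hD' : (D : ℝ) ≤ Y) (R2 : (R : ℝ) ≤ 2 * (N * Real.exp (-Y)))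
    (n3 : Y * (4 * Real.exp (-Y)) ≤ 1 / 2) : ((N : ℝ) + 2 * R) ^ D ≤ 2 * (N : ℝ) ^ D := by
  have a1 : (N : ℝ) + 2 * R ≤ Real.exp (4 * Real.exp (-Y)) * N := by
    have := mul_le_mul_of_nonneg_right (Real.add_one_le_exp (4 * Real.exp (-Y))) (Nat.cast_nonneg N)
    linarith
  refine (pow_le_pow_left₀ (by positivity) a1 _).trans ?_
  rw [mul_pow, ← Real.exp_nat_mul]
  refine mul_le_mul_of_nonneg_right ?_ (by positivity)
  have a2 : (D : ℝ) * (4 * Real.exp (-Y)) ≤ 1 / 2 :=
    (mul_le_mul_of_nonneg_right hD' (by positivity)).trans n3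
  refine (Real.exp_le_exp.2 a2).trans ?_
  have a3 : Real.exp (1 / 2) * Real.exp (1 / 2) = Real.exp 1 := by rw [← Real.exp_add]; norm_num
  have a4 := Real.exp_one_lt_d9
  nlinarith [Real.exp_pos (1 / 2)]

theorem avg (N : ℕ) (h : Pt J q → ℝ) (Y al : ℝ) (hY' : 20 ≤ Y) (hD' : ((J * q : ℕ) : ℝ) ≤ Y)
    (N0 : (0 : ℝ) < N) (ha : 0 < al) (haN : al * N = Real.exp (2 * Y))
    (n2 : 1 ≤ N * Real.exp (-Y)) (n3 : Y * (4 * Real.exp (-Y)) ≤ 1 / 2)
    (hb : ∀ x ∈ bp J q N, |h x| ≤ Real.exp Y) (hE : Real.exp (-Y) ≤ 𝔼 x ∈ bp J q N, h x) :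
    ∃ c : Fin J × Fin q → ℤ, th (al • (1 : Matrix (Fin J × Fin q) _ ℝ)) 0 * (Real.exp (-Y) / 4) ≤
      ∑ x ∈ bp J q N, gq (al • 1) (toR ((fun a : Fin J × Fin q => x a.1 a.2) - c)) * h x := by
  have hcard : Fintype.card (Fin J × Fin q) = J * q := by simp
  set M : Matrix (Fin J × Fin q) (Fin J × Fin q) ℝ := al • 1 with hMdef
  have hM : M.det ≠ 0 := det_smul_ne ha.ne' (by simp)
  have t0 : 0 < th M 0 := th_pos hM 0
  obtain ⟨R, hR⟩ : ∃ R : ℕ, R = ⌈(N : ℝ) * Real.exp (-Y)⌉₊ := ⟨_, rfl⟩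
  have R1 : (N : ℝ) * Real.exp (-Y) ≤ R := hR ▸ Nat.le_ceil _
  have R2 : (R : ℝ) ≤ 2 * (N * Real.exp (-Y)) := by
    rw [hR]; exact (Nat.ceil_lt_add_one (by positivity)).le.trans (by linarith)
  set Cs : Finset (Fin J × Fin q → ℤ) :=
    Fintype.piFinset fun _ => Ico (-(R : ℤ)) (N + R) with hCs
  have cC : (Cs.card : ℝ) ≤ 2 * (N : ℝ) ^ (J * q) := by
    have : Cs.card = (N + 2 * R) ^ (J * q) := by
      rw [hCs, Fintype.card_piFinset, prod_const, card_univ, hcard, Int.card_Ico]
      congr 1; omega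
    rw [this]
    push_cast
    exact cardC Y _ N R hD' R2 n3
  have cne : Cs.Nonempty := ⟨0, by
    rw [hCs, Fintype.mem_piFinset]
    intro a
    have : 0 < N := by exact_mod_cast N0
    simp only [Pi.zero_apply, mem_Ico]; omega⟩
  have eY := Real.exp_pos Y
  have eY' := Real.exp_pos (-Y)
  have ei : Real.exp Y * Real.exp (-Y) = 1 := by rw [← Real.exp_add]; simp
  have e2 : Real.exp (2 * Y) = Real.exp Y * Real.exp Y := by rw [← Real.exp_add]; ring_nf
  have cb : (bp J q N).card = N ^ (J * q) := by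
    simp [bp, bz, rg, Fintype.card_piFinset, ← pow_mul, mul_comm]
  have hsum : Real.exp (-Y) * (N : ℝ) ^ (J * q) ≤ ∑ x ∈ bp J q N, h x := by
    rw [expect_eq_sum_div_card, cb, le_div_iff₀ (by push_cast; positivity)] at hE
    exact_mod_cast hE
  obtain ⟨c, -, hc⟩ := exists_le_of_sum_le cne (f := fun _ => th M 0 * (Real.exp (-Y) / 4))
    (g := fun c => ∑ x ∈ bp J q N, gq M (toR ((fun a : Fin J × Fin q => x a.1 a.2) - c)) * h x) (by
      rw [sum_comm, sum_const, nsmul_eq_mul]
      have k : ∀ x ∈ bp J q N, th M 0 * (h x - Real.exp (-Y) / 2) ≤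
          ∑ c ∈ Cs, gq M (toR ((fun a : Fin J × Fin q => x a.1 a.2) - c)) * h x := by
        intro x hx
        obtain ⟨w1, w2⟩ := win hM Cs (fun a => x a.1 a.2) (Real.exp (2 * Y)) (fun z hz => by
          rw [hCs, Fintype.mem_piFinset]
          intro a
          have b1 : (al * z a) ^ 2 < Real.exp Y ^ 2 := by
            rw [hMdef, qf_sc] at hz
            have := single_le_sum (f := fun a => (al * toR z a) ^ 2) (fun _ _ => sq_nonneg _)
              (mem_univ a)
            rw [sq (Real.exp Y), ← e2]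
            exact this.trans_lt hz
          have b2 := abs_lt_of_sq_lt_sq b1 eY.le
          rw [abs_mul, abs_of_pos ha] at b2
          have b3 : |(z a : ℝ)| < R := by
            refine lt_of_lt_of_le (lt_of_mul_lt_mul_left ?_ ha.le) R1
            rw [← mul_assoc, haN, e2, mul_assoc, ei, mul_one]; exact b2
          have b4 : |z a| < R := by exact_mod_cast b3
          have b5 : x a.1 a.2 ∈ rg N := by
            have : ∀ k m, x k m ∈ rg N := by simpa [bp, bz] using hx
            exact this _ _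
          rw [rg, mem_Ico] at b5
          rw [abs_lt] at b4
          simp only [Pi.sub_apply, mem_Ico]
          omega)
        rw [hcard] at w2
        rw [← sum_mul]
        exact key t0 w1 w2 (hb x hx) (tau Y _ hY' hD')
      refine le_trans ?_ (sum_le_sum k)
      rw [← mul_sum, sum_sub_distrib, sum_const, nsmul_eq_mul, cb]
      push_cast
      have := mul_le_mul_of_nonneg_right cC (show 0 ≤ th M 0 * (Real.exp (-Y) / 4) by positivity)
      have := mul_le_mul_of_nonneg_left hsum t0.le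
      linarith)
  exact ⟨c, hc⟩

end EntP

open EntP in
theorem ent : ENT := by
  refine ⟨20, fun s J q N gr h Y hg hJ hY hD hN hb hE => ?_⟩
  have hY' : (20 : ℝ) ≤ Y := by exact_mod_cast hY
  have h10 : 10 * Y ≤ Real.log N := by
    refine le_trans ?_ hN
    have : Y ^ 2 ≤ Y ^ 20 := pow_le_pow_right₀ (by linarith) (by norm_num)
    nlinarith
  have N0 : (0 : ℝ) < N := by
    rcases Nat.eq_zero_or_pos N with h0 | h0
    · rw [h0] at h10; simp at h10; linarith
    · exact_mod_cast h0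
  have hN' : Real.exp (10 * Y) ≤ N := (Real.le_log_iff_exp_le N0).1 h10
  obtain ⟨n1, n2, n3⟩ := num Y N hY' hN'
  obtain ⟨al, hal⟩ : ∃ al, al = Real.exp (2 * Y) / N := ⟨_, rfl⟩
  rw [← hal] at n1
  have ha : 0 < al := by rw [hal]; positivity
  have haN : al * N = Real.exp (2 * Y) := by rw [hal]; field_simp
  have hD' : ((J * q : ℕ) : ℝ) ≤ Y := by push_cast; exact hD
  have hcard : Fintype.card (Fin J × Fin q) = J * q := by simp
  set M : Matrix (Fin J × Fin q) (Fin J × Fin q) ℝ := al • 1 with hMdef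
  have hM : M.det ≠ 0 := det_smul_ne ha.ne' (by simp)
  have hdet : |M.det| = al ^ (J * q) := by
    rw [hMdef, Matrix.det_smul]; simp [abs_of_pos ha]
  have pD : 0 < al ^ (J * q) := pow_pos ha _
  have t0 : 0 < th M 0 := th_pos hM 0
  have lo1 : (al ^ (J * q))⁻¹ ≤ th M 0 := by
    have := one_le_th (det_dual hM)
    rw [th_dual hM, hdet] at this
    rw [inv_le_iff_one_le_mul₀ pD]; linarith
  have up1 : th M 0 ≤ Real.exp Y * (al ^ (J * q))⁻¹ := by
    have := p1 hM ha.le (fun i j => by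
      simp only [hMdef, Matrix.smul_apply, Matrix.one_apply, smul_eq_mul]
      split_ifs <;> simp [abs_of_pos ha, ha.le]) 0
    rw [hdet, hcard] at this
    rw [← div_eq_mul_inv, le_div_iff₀ pD, mul_comm]
    refine this.trans ?_
    have a1 : 2 * (1 + ((J * q : ℕ) : ℝ) * al) ≤ Real.exp 1 := by
      have := Real.exp_one_gt_d9
      nlinarith
    refine (pow_le_pow_left₀ (by positivity) a1 _).trans ?_
    rw [← Real.exp_nat_mul, mul_one]
    exact Real.exp_le_exp.2 hD'
  have eY := Real.exp_pos Y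
  obtain ⟨c, hc⟩ := avg N h Y al hY' hD' N0 ha haN n2 n3 hb hE
  have hms : (S0 J q al c).ms = th M 0 := by
    rw [th_zero]; exact tsum_congr fun z => wt_eq al c z
  have one : (1 : ℝ) ≤ Real.exp Y * 1 := by
    rw [mul_one]; exact Real.one_le_exp (by linarith)
  refine ⟨S0 J q al c, ok hg hJ ha c, fun x => ?_, fun g => ?_, fun g => ?_, ?_, ?_, ?_, ?_, ?_⟩
  · have : |if x ∈ bp J q N then h x else 0| ≤ Real.exp Y := by
      split_ifs with hx
      · exact hb x hx
      · simpa using eY.le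
    have b := abs_le.1 this
    unfold nf
    constructor
    · have : -(1 / 2) ≤ (if x ∈ bp J q N then h x else 0) / (2 * Real.exp Y) := by
        rw [le_div_iff₀ (by positivity)]; linarith
      linarith
    · have : (if x ∈ bp J q N then h x else 0) / (2 * Real.exp Y) ≤ 1 / 2 := by
        rw [div_le_iff₀ (by positivity)]; linarith
      linarith
  · by_cases h0 : g = 0
    · have : gp (S0 J q al c).G g = univ := by ext a; simp [gp, S0, h0]
      rw [this, dv_univ ha]
      refine le_trans (le_of_eq ?_) up1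
      rw [th_zero]
      exact tsum_congr fun z => Set.indicator_of_mem (fun a ha => absurd (mem_univ a) ha) _
    · have : gp (S0 J q al c).G g = ∅ := by ext a; simp [gp, S0, Ne.symm h0]
      rw [this, dv_empty, tk_empty]; exact one
  · have : gp (S0 J q al c).G g \ (S0 J q al c).G.ex = ∅ := by simp [S0]
    rw [this, dv_empty, tk_empty]; exact one
  · rw [hms, dv_univ ha]
    exact (mul_le_of_le_one_left (by positivity) (Real.exp_le_one_iff.2 (by norm_num))).trans lo1
  · show ((1 : ℕ) : ℝ) ≤ _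
    rw [Nat.cast_one]; exact Real.one_le_exp (by positivity)
  · show al * N ≤ _
    rw [haN]; exact Real.exp_le_exp.2 (by push_cast; linarith)
  · show ((1 : ℕ) : ℝ) ≤ _ * (al * N)
    rw [haN, Nat.cast_one, ← Real.exp_add]; exact Real.one_le_exp (by linarith)
  · rw [hms, hit_eq ha]
    have a1 : Real.exp (-(2 * Y)) = Real.exp (-Y) / Real.exp Y := by
      rw [← Real.exp_sub]; ring_nf
    have a2 : th M 0 * (Real.exp (-Y) / 4) / (2 * Real.exp Y) ≤ _ :=
      div_le_div_of_nonneg_right hc (by positivity)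
    refine le_trans (le_of_eq ?_) (add_le_add le_rfl a2)
    rw [a1]; field_simp; ring

end

end Vale.Agent.P057T.Cw
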